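import Crest.Agent.N49.Sd.Ins
import Crest.Agent.N49.Br.All
import Crest.Agent.N49.Br.S1

/-!
# Row 49 (helper85): cells from the Kelley–Meka output
-/

set_option autoImplicit false
set_option linter.unusedSectionVars false

open Matrix Finset

noncomputable section

namespace Crest.Agent.N49.Sd

open Po Tw Br N49.Top

namespace Ce

theorem N_cut {σ : Type} {T : TS σ} (h : T.Tri) (p : T.C → Prop) [DecidablePred p]
    [i1 : Fintype {c // p c}] [i2 : DecidableEq {c // p c}] (b : T.C → ℤ) (G : (T.C → ℤ) → ℝ) :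
    (T.cut p b).N (fun z => G (glue p z b)) = (∑' η : {c // p c} → ℤ, gs (T.K.submatrix
      (Subtype.val : {c // p c} → _) Subtype.val)⁻¹ (fun c => T.u (zc (glue p η b)) c.1) *
        G (glue p η b)) / (√(T.K.submatrix (Subtype.val : {c // p c} → _) Subtype.val).det /
          |(T.A.submatrix (Subtype.val : {c // p c} → _) Subtype.val).det|) := by
  obtain rfl : i1 = (T.cut p b).fin := Subsingleton.elim _ _
  obtain rfl : i2 = (T.cut p b).dec := Subsingleton.elim _ _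
  have z := Fa.Zc_sqrt (T.cut p b)
  rw [h.A_cut] at z
  have w : ∀ η, (T.cut p b).wt η = gs (T.cut p b).K⁻¹ fun c => T.u (zc (glue p η b)) c.1 :=
    fun η => congrArg (gs (T.cut p b).K⁻¹) (funext fun c => by rw [zc_glue]; exact T.u_cut p b _ c)
  exact congrArg₂ HDiv.hDiv (tsum_congr fun η => congrArg (· * G (glue p η b)) (w η)) z

theorem det_stg {C : Type} [Fintype C] [DecidableEq C] {A A' : Matrix C C ℝ} (st : C → ℕ)
    (h : ∀ c c', st c < st c' → A c c' = 0)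
    (e : ∀ c c', A' c c' = if st c = st c' then A c c' else 0) : A'.det = A.det := by
  have a : A.BlockTriangular (OrderDual.toDual ∘ st) := fun c c' k => h c c' k
  have b : A'.BlockTriangular (OrderDual.toDual ∘ st) := fun c c' k => by
    rw [e, h c c' k, ite_self]
  refine b.det.trans (Eq.trans (prod_congr rfl fun t _ => congrArg _ ?_) a.det.symm)
  ext c c'
  exact (e _ _).trans (if_pos (OrderDual.toDual.injective (c.2.trans c'.2.symm)))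

theorem A_st {T : TS Unit} {st : T.C → ℕ} {M : ℕ} (hs : T.Stg st M) {F F' : T.C}
    (k : st F < st F') : T.A F F' = 0 := by_contra fun z => by
  have e : T.lev F = T.lev F' := by_contra fun e => z (T.blk_A _ _ e)
  rw [TS.A, of_apply, if_pos e] at z
  have := hs.wt _ (MvPolynomial.mem_support_iff.2 z)
  rw [Finsupp.weight_single, one_smul] at this
  omega

/-- the hidden sum, explicitly -/
theorem hid_eq {τ : Type} {T : TS Unit} {S : Sh Unit τ} {st : T.C → ℕ} {M : ℕ} (hs : T.Stg st M)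
    (o : S.Ok) (p : S.W → Prop) [DecidablePred p] [i1 : Fintype (Kc T S fun w => ¬ p w)]
    [i2 : DecidableEq (Kc T S fun w => ¬ p w)] (b : T.Cw S → ℤ) (G : (T.Cw S → ℤ) → ℝ) :
    (Summable fun η : Kc T S (fun w => ¬ p w) → ℤ => gs ((T.kw S T.K S.K).submatrix
      (Subtype.val : Kc T S (fun w => ¬ p w) → _) Subtype.val)⁻¹
        fun c => (T.sh S).u (zc (gl T S _ η b)) c.1) ∧
    hid T S p st (T.tw0 S) b G = (∑' η : Kc T S (fun w => ¬ p w) → ℤ, gs ((T.kw S T.K S.K).submatrix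
      (Subtype.val : Kc T S (fun w => ¬ p w) → _) Subtype.val)⁻¹
        (fun c => (T.sh S).u (zc (gl T S _ η b)) c.1) * G (gl T S _ η b)) /
      (√((T.kw S T.K S.K).submatrix (Subtype.val : Kc T S (fun w => ¬ p w) → _) Subtype.val).det /
        |((T.kw S T.A 1).submatrix (Subtype.val : Kc T S (fun w => ¬ p w) → _) Subtype.val).det|) := by
  have t := TS.lw_tri hs (hs.adm o) o
  have a := TS.lw_A hs (hs.adm o) o
  have u : ∀ y (c : T.Cw S), (T.lw S st (T.tw0 S)).u y c = (T.sh S).u y c := fun y c =>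
    congrArg (MvPolynomial.eval y) (congrArg (S.cf _ c.1.2) (TS.eval₂_tw0 _ _))
  constructor
  · obtain ⟨x, hx⟩ := Li.cut_bd t (fun c : T.Cw S => ¬ p c.1.2) (i1 := i1) (i2 := i2)
      fun c k c' k' => by
        rw [a]
        exact mul_eq_zero_of_right _ (one_apply_ne fun e => k' (e ▸ k))
    obtain ⟨y, -, k⟩ := hx b
    simp only [u] at k
    exact k.summable
  · refine (N_cut t (fun c : T.Cw S => ¬ p c.1.2) (i1 := i1) (i2 := i2) b G).trans ?_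
    simp only [u]
    have d := det_stg (C := Kc T S fun w => ¬ p w) (A := (T.kw S T.A 1).submatrix Subtype.val
      Subtype.val) (A' := (T.lw S st (T.tw0 S)).A.submatrix Subtype.val Subtype.val)
      (fun c => st c.1.1.1) (fun c c' k => mul_eq_zero_of_left (A_st hs k) _) fun c c' => by
        rw [a]
        exact (congrArg (· * _) (hs.A _ _)).trans (ite_zero_mul ..)
    exact congrArg₂ HDiv.hDiv rfl (congrArg₂ HDiv.hDiv rfl (congrArg _ d))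

section bip
variable {ι : Type} [Fintype ι] [LinearOrder ι]

/-- the same coordinate in an equal family of words -/
def cv {s : ℕ} {D D' : Finset (Pt ι)} (T : TS Unit) (e : D = D') (V V' : ℕ → Pt ι → ℝ) :
    T.Cw (tw s D V) → T.Cw (tw s D' V') :=
  cmap (fun w => w.mk' w.tr (e ▸ w.mem) rfl) fun _ => rfl

theorem pw_cv {s : ℕ} {D D' : Finset (Pt ι)} (T : TS Unit) (e : D = D') (V V' : ℕ → Pt ι → ℝ)
    (ω : Pt ι) (y : T.Cw (tw s D' V') → ℤ) : T.pw (tw s D' V') (chi V' ω) y =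
      T.pw (tw s D V) (chi V ω) fun a => y (cv T e V V' a) := by
  subst e; rfl

variable {B : Bd ι} (h : B.Ok) {k l : ℕ} {Γ : Finset (Fin k × Fin l)} (c c' : ℝ)
  (V : ℕ → Pt ι → ℝ) {p : Wd B.s (B.D Γ) → Prop} [DecidablePred p]
  (hp : ∀ w, p w ↔ w.tr B.x = none)

/-- the hidden classes -/
abbrev Jh (Γ : Finset (Fin k × Fin l)) : Type := {j : Jc Γ // jx j ≠ none}

theorem prod_Jh (F : Jc Γ → ℝ) : ∏ j : Jh Γ, F j.1 =
    (∏ a, F (.inr (.inl a))) * ∏ e, F (.inr (.inr (.inr e))) := by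
  rw [← prod_subtype (univ.filter fun j : Jc Γ => jx j ≠ none) (by simp) F, prod_filter]
  simp [Fintype.prod_sum_type, jx]

/-- the hidden coordinates -/
def eH : (Σ j : Jh Γ, B.Cl (ja j.1) (jb j.1)) ≃ Kc B.T (tw B.s (B.D Γ) V) fun w => ¬ p w :=
  (Equiv.subtypeSigmaEquiv (fun j : Jc Γ => B.Cl (ja j) (jb j)) fun j => jx j ≠ none).symm.trans
    ((h.eC c c').subtypeEquiv fun q => by
      change _ ↔ ¬ p (h.eC c c' q).1.2
      rw [hp, h.eC_tr, Bd.pu_x])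

theorem eH_val (j : Jh Γ) (r : B.Cl (ja j.1) (jb j.1)) :
    (eH h c c' V hp ⟨j, r⟩).1 = h.eC c c' ⟨j.1, r⟩ := rfl

/-- the hidden configurations -/
def eQ (q : B.Cf Γ) : (Fin k → B.I → ℤ) × (Γ → B.Hc) ≃
    (Kc B.T (tw B.s (B.D Γ) V) (fun w => ¬ p w) → ℤ) where
  toFun r a := h.cE c c' (q.1, (r.1, q.2.1.2), r.2) a.1
  invFun η := (fun a r => η (eH h c c' V hp ⟨⟨.inr (.inl a), by simp [jx]⟩, r⟩),
    fun e r => η (eH h c c' V hp ⟨⟨.inr (.inr (.inr e)), by simp [jx]⟩, r⟩))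
  left_inv r := by simp only [eH_val, h.cE_eC]; rfl
  right_inv η := funext fun a => by
    obtain ⟨⟨⟨j, hj⟩, r⟩, rfl⟩ := (eH h c c' V hp).surjective a
    refine (h.cE_eC c c' _ ⟨j, r⟩).trans ?_
    rcases j with _ | a | b | e
    exacts [absurd rfl hj, rfl, absurd rfl hj, rfl]

theorem gl_eQ (q : B.Cf Γ) (r : (Fin k → B.I → ℤ) × (Γ → B.Hc)) :
    gl B.T (tw B.s (B.D Γ) V) (fun w => ¬ p w) (eQ h c c' V hp q r) (h.cE c c' q) =
      h.cE c c' (q.1, (r.1, q.2.1.2), r.2) := by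
  funext a
  by_cases m : p a.1.2
  · refine (dif_neg (not_not.2 m)).trans ?_
    obtain ⟨⟨j, r⟩, rfl⟩ := (h.eC c c').surjective a
    rw [h.cE_eC, h.cE_eC]
    replace m : jx j = none := (Bd.pu_x ..).symm.trans ((hp _).1 m)
    rcases j with _ | a | b | e
    exacts [rfl, absurd m (by simp [jx]), rfl, absurd m (by simp [jx])]
  · exact dif_pos m

variable {c c' V}
include hp

theorem wt_eH (hc : 0 < c) (hc' : 0 < c') (hV : ∀ j t, t B.x ≠ none → V j t = B.V c c' j t)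
    (q : B.Cf Γ) : gs ((B.T.kw (tw B.s (B.D Γ) V) B.T.K (tw B.s (B.D Γ) V).K).submatrix
      (Subtype.val : Kc B.T (tw B.s (B.D Γ) V) (fun w => ¬ p w) → _) Subtype.val)⁻¹
        (fun a => (B.T.sh (tw B.s (B.D Γ) V)).u (zc (h.cE c c' q)) a.1) /
      (√((B.T.kw (tw B.s (B.D Γ) V) B.T.K (tw B.s (B.D Γ) V).K).submatrix
        (Subtype.val : Kc B.T (tw B.s (B.D Γ) V) (fun w => ¬ p w) → _) Subtype.val).det /
        |((B.T.kw (tw B.s (B.D Γ) V) B.T.A 1).submatrix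
          (Subtype.val : Kc B.T (tw B.s (B.D Γ) V) (fun w => ¬ p w) → _) Subtype.val).det|) =
    (∏ a, gd (c • h.M q.1) (h.ce q.1) (q.2.1.1 a)) *
      ∏ e : Γ, h.wH q.1 (q.2.1.1 e.1.1 + q.2.1.2 e.1.2) (q.2.2 e) := by
  have kv : ∀ a a' : B.T.Cw (tw B.s (B.D Γ) V), ¬ p a.1.2 →
      B.T.kw (tw B.s (B.D Γ) V) B.T.K (tw B.s (B.D Γ) V).K a a' =
        B.T.kw (B.S Γ c c') B.T.K (B.S Γ c c').K a a' := fun a a' m =>
    congrArg (B.T.K _ _ * ·) (if_congr Iff.rfl (hV _ _ fun z => m ((hp _).2 z)) rfl)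
  have ne : ∀ a a' : Σ j : Jh Γ, B.Cl (ja j.1) (jb j.1), a.1 ≠ a'.1 → a.1.1 ≠ a'.1.1 :=
    fun a a' n e => n (Subtype.ext e)
  have pd := fun j : Jc Γ => Fa.KC_pd h h.kwb hc hc' j
  obtain ⟨d1, d2⟩ := blk (Jh Γ) _ (fun j => B.Cl (ja j.1) (jb j.1)) (eH h c c' V hp)
    ((B.T.kw (tw B.s (B.D Γ) V) B.T.K (tw B.s (B.D Γ) V).K).submatrix Subtype.val Subtype.val)
    (fun j => B.KC B.T.K (B.vj c c' j.1) (ja j.1) (jb j.1))
    (fun j r r' => (kv _ _ (eH h c c' V hp ⟨j, r⟩).2).trans ((h.kwb k l Γ c c' B.T.K).1 j.1 r r'))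
    fun a a' n => (kv _ _ (eH h c c' V hp a).2).trans
      ((h.kwb k l Γ c c' B.T.K).2.2 ⟨a.1.1, a.2⟩ ⟨a'.1.1, a'.2⟩ (ne a a' n)).1
  have d3 := (blk (Jh Γ) _ (fun j => B.Cl (ja j.1) (jb j.1)) (eH h c c' V hp)
    ((B.T.kw (tw B.s (B.D Γ) V) B.T.A 1).submatrix Subtype.val Subtype.val)
    (fun j => B.KC B.T.A (fun _ _ => 1) (ja j.1) (jb j.1))
    (fun j r r' => (h.kwb k l Γ c c' B.T.A).2.1 j.1 r r')
    fun a a' n => ((h.kwb k l Γ c c' B.T.A).2.2 ⟨a.1.1, a.2⟩ ⟨a'.1.1, a'.2⟩ (ne a a' n)).2).1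
  have u : ∀ (j : Jh Γ) r, (B.T.sh (tw B.s (B.D Γ) V)).u (zc (h.cE c c' q))
      (eH h c c' V hp ⟨j, r⟩).1 = h.uj q ⟨j.1, r⟩ := fun j r => h.err.1 k l Γ c c' hc hc' q ⟨j.1, r⟩
  rw [gs, d2 (d1.trans_ne (prod_ne_zero_iff.2 fun j _ => (pd j.1).det_pos.ne')), d1, d3,
    Real.sqrt_prod _ fun j _ => (pd j.1).det_pos.le, abs_prod, ← prod_div_distrib, mul_sum,
    ← sum_neg_distrib, Real.exp_sum, ← prod_div_distrib]
  simp only [u]
  refine (prod_Jh fun j => gs (B.KC B.T.K (B.vj c c' j) (ja j) (jb j))⁻¹ (fun r => h.uj q ⟨j, r⟩) /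
    B.ZC (B.vj c c' j) (ja j) (jb j)).trans (congrArg₂ (· * ·) (prod_congr rfl fun a _ => ?_) rfl)
  rw [gd, ((h.lin q.1).2.2 c hc).1, ← (((h.lin q.1).2.2 c hc).2 _).1]; rfl

/-- **the hidden sum on a bipartite shape** -/
theorem hid_bip {st : B.T.C → ℕ} {M : ℕ} (hs : B.T.Stg st M) (hc : 0 < c) (hc' : 0 < c')
    (o : ∀ j t, 0 < V j t) (hV : ∀ j t, t B.x ≠ none → V j t = B.V c c' j t) (q : B.Cf Γ)
    {G : B.Zc → (B.I → ℤ) → B.Hc → ℝ} {b : ℝ} (hG : ∀ z a η, 0 ≤ G z a η ∧ G z a η ≤ b) :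
    hid B.T (tw B.s (B.D Γ) V) p st (B.T.tw0 _) (h.cE c c' q) (h.PG Γ c c' G) =
      ∑' P : Fin k → B.I → ℤ, (∏ a, gd (c • h.M q.1) (h.ce q.1) (P a)) *
        ∏ e : Γ, h.av G q.1 (P e.1.1 + q.2.1.2 e.1.2) := by
  obtain ⟨s1, e1⟩ := hid_eq hs (tw_ok h.dc_D o) p (h.cE c c' q) (h.PG Γ c c' G)
  have hi := h.hid
  have w := fun r : (Fin k → B.I → ℤ) × (Γ → B.Hc) =>
    wt_eH h hp hc hc' hV (q.1, (r.1, q.2.1.2), r.2)
  have s2 := ((eQ h c c' V hp q).summable_iff.2 s1).div_const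
    (√((B.T.kw (tw B.s (B.D Γ) V) B.T.K (tw B.s (B.D Γ) V).K).submatrix
      (Subtype.val : Kc B.T (tw B.s (B.D Γ) V) (fun w => ¬ p w) → _) Subtype.val).det /
      |((B.T.kw (tw B.s (B.D Γ) V) B.T.A 1).submatrix
        (Subtype.val : Kc B.T (tw B.s (B.D Γ) V) (fun w => ¬ p w) → _) Subtype.val).det|)
  simp only [Function.comp, gl_eQ, w] at s2
  rw [e1, ← tsum_div_const, ← (eQ h c c' V hp q).tsum_eq]
  simp only [gl_eQ, mul_div_right_comm, w, Bd.Ok.PG, Equiv.symm_apply_apply, mul_assoc,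
    ← prod_mul_distrib]
  have n1 : ∀ P : Fin k → B.I → ℤ, 0 ≤ ∏ a, gd (c • h.M q.1) (h.ce q.1) (P a) := fun P =>
    prod_nonneg fun _ _ => Fa.gd_nn _ _ _
  have s3 : Summable fun r : (Fin k → B.I → ℤ) × (Γ → B.Hc) =>
      (∏ a, gd (c • h.M q.1) (h.ce q.1) (r.1 a)) * ∏ e : Γ, h.wH q.1 (r.1 e.1.1 + q.2.1.2 e.1.2)
        (r.2 e) * G q.1 (r.1 e.1.1 + q.2.1.2 e.1.2) (r.2 e) :=
    .of_nonneg_of_le (fun r => mul_nonneg (n1 _) (prod_nonneg fun _ _ =>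
      mul_nonneg (hi.1 _ _ _) (hG _ _ _).1)) (fun r => by
        rw [mul_assoc, ← prod_mul_distrib]
        exact mul_le_mul_of_nonneg_left (prod_le_prod (fun _ _ => mul_nonneg (hi.1 _ _ _)
          (hG _ _ _).1) fun _ _ => mul_le_mul_of_nonneg_left (hG _ _ _).2 (hi.1 _ _ _)) (n1 _))
      (s2.mul_right (∏ _e : Γ, b))
  refine (s3.tsum_prod' s3.prod_factor).trans (tsum_congr fun P => ?_)
  dsimp only
  rw [tsum_mul_left, (Gw.hasSum_pi_prod (V := fun _ : Γ => B.Hc) (fun e η =>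
    h.wH q.1 (P e.1.1 + q.2.1.2 e.1.2) η * G q.1 (P e.1.1 + q.2.1.2 e.1.2) η) fun e =>
      .of_nonneg_of_le (fun η => mul_nonneg (hi.1 _ _ η) (hG _ _ η).1)
        (fun η => mul_le_mul_of_nonneg_left (hG _ _ η).2 (hi.1 _ _ η))
        ((hi.2.2.1 _ _).mul_right b)).tsum_eq]
  rfl

omit hp in
theorem hid_cv {st : B.T.C → ℕ} {M : ℕ} (hs : B.T.Stg st M) (hc : 0 < c) (hc' : 0 < c')
    (o : ∀ j t, 0 < V j t) (hV : ∀ j t, t B.x ≠ none → V j t = B.V c c' j t)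
    {G : B.Zc → (B.I → ℤ) → B.Hc → ℝ} {b : ℝ} (hG : ∀ z a η, 0 ≤ G z a η ∧ G z a η ≤ b)
    {D : Finset (Pt ι)} (e : B.D Γ = D) {p : Wd B.s D → Prop} [DecidablePred p]
    (hp : ∀ w, p w ↔ w.tr B.x = none) (q : B.Cf Γ) (y : B.T.Cw (tw B.s D V) → ℤ)
    (hy : h.cE c c' q = fun a => y (cv B.T e _ V a)) {F : (B.T.Cw (tw B.s D V) → ℤ) → ℝ}
    (hF : ∀ y, F y = h.PG Γ c c' G fun a => y (cv B.T e _ V a)) :
    hid B.T (tw B.s D V) p st (B.T.tw0 _) y F =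
      ∑' P : Fin k → B.I → ℤ, (∏ a, gd (c • h.M q.1) (h.ce q.1) (P a)) *
        ∏ e : Γ, h.av G q.1 (P e.1.1 + q.2.1.2 e.1.2) := by
  subst e
  obtain rfl : h.cE c c' q = y := hy
  obtain rfl : h.PG Γ c c' G = F := (funext hF).symm
  exact hid_bip h hp hs hc hc' o hV q hG

omit hp
include h

theorem D_eq {q : ι → ℕ} (hZ : B.Z = zq B.x B.y q) (hx : q B.x = k) (hy : q B.y = l) :
    B.D (univ : Finset (Fin k × Fin l)) = grid q := by
  ext w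
  rw [h.mem_D, hZ, Gr.mem_zq, mem_grid]
  refine ⟨fun ⟨a, j, p, r⟩ => h.xy.all.2 ⟨fun b e => ?_, fun b e => ?_,
    fun i c d b e => a.2.2 i b (by rwa [Bd.pu_ne _ _ _ c d])⟩, fun a => ⟨⟨Bd.pu_x .., h.pu_y ..,
      fun i b e => a i b (by unfold Bd.pu at e; split_ifs at e; exact e)⟩, ?_⟩⟩
  · rw [p] at e
    rcases j with _ | a | b | f <;> simp only [jx, reduceCtorEq, Option.some.injEq] at e <;> omega
  · rw [r] at e
    rcases j with _ | a | b | f <;> simp only [jy, reduceCtorEq, Option.some.injEq] at e <;> omega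
  · rcases e : w B.x with _ | b <;> rcases e' : w B.y with _ | c
    exacts [⟨.inl (), rfl, rfl⟩, ⟨.inr (.inr (.inl ⟨c, hy ▸ a _ _ e'⟩)), rfl, rfl⟩,
      ⟨.inr (.inl ⟨b, hx ▸ a _ _ e⟩), rfl, rfl⟩,
      ⟨.inr (.inr (.inr ⟨(⟨b, hx ▸ a _ _ e⟩, ⟨c, hy ▸ a _ _ e'⟩), mem_univ _⟩)), rfl, rfl⟩]

theorem prod_pts {q : ι → ℕ} (hx : q B.x = k) (hy : q B.y = l) (g : Pt ι → ℝ) :
    ∏ ω ∈ pts q, g ω = ∏ e : (univ : Finset (Fin k × Fin l)), ∏ ω ∈ zp B.x B.y q,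
      g (B.pu ω (some e.1.1) (some e.1.2)) := by
  rw [← prod_product']
  refine (prod_bij (fun p _ => B.pu p.2 (some p.1.1.1) (some p.1.1.2)) ?_ ?_ ?_
    fun _ _ => rfl).symm
  · rintro ⟨e, ω⟩ m
    obtain ⟨m1, m2⟩ := mem_filter.1 (mem_product.1 m).2
    refine mem_pts.2 (h.xy.all.2 ⟨⟨_, hx ▸ e.1.1.2, Bd.pu_x ..⟩, ⟨_, hy ▸ e.1.2.2, h.pu_y ..⟩,
      fun i a b => ?_⟩)
    obtain ⟨c, hc⟩ := Option.ne_none_iff_exists'.1 (m2 i a b)
    exact ⟨c, (Gr.mem_zq.1 m1).2.2 i c hc, by rw [Bd.pu_ne _ _ _ a b, hc]⟩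
  · rintro ⟨e, ω⟩ m ⟨e', ω'⟩ m' k
    have m1 := Gr.mem_zq.1 (mem_filter.1 (mem_product.1 m).2).1
    have m2 := Gr.mem_zq.1 (mem_filter.1 (mem_product.1 m').2).1
    refine Prod.ext (Subtype.ext (Prod.ext (Fin.ext ?_) (Fin.ext ?_)))
      (funext (h.xy.all.2 ⟨m1.1.trans m2.1.symm, m1.2.1.trans m2.2.1.symm, fun i a b => ?_⟩))
    · simpa [Bd.pu_x] using congrFun k B.x
    · simpa [h.pu_y] using congrFun k B.y
    · simpa [Bd.pu_ne _ _ _ a b] using congrFun k i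
  · intro ω m
    obtain ⟨a, a1, a2⟩ := mem_pts.1 m B.x
    obtain ⟨b, b1, b2⟩ := mem_pts.1 m B.y
    refine ⟨(⟨(⟨a, hx ▸ a1⟩, ⟨b, hy ▸ b1⟩), mem_univ _⟩, B.pu ω none none),
      mem_product.2 ⟨mem_univ _, mem_filter.2 ⟨Gr.mem_zq.2 ⟨Bd.pu_x .., h.pu_y .., fun i b e =>
        mem_grid.1 (pts_grid m) i b (by simp only [Bd.pu] at e; split_ifs at e; exact e)⟩,
          fun i c d => ?_⟩⟩, ?_⟩
    · exact (Bd.pu_ne ω none none c d).trans_ne (mem_bl.1 (pts_bl m ▸ mem_univ i))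
    · change B.pu _ (some a) (some b) = ω
      rw [Bd.pu_pu, ← a2, ← b2, Bd.pu_self]

end bip

/-- Jensen -/
theorem jen {X : Type} {ρ F : X → ℝ} {m b : ℝ} (n : ℕ) (h0 : ∀ a, 0 ≤ ρ a) (h1 : HasSum ρ 1)
    (hF : ∀ a, 0 ≤ F a ∧ F a ≤ b) (m0 : 0 < m) (hm : m ≤ ∑' a, ρ a * F a) :
    (Summable fun a => ρ a * F a ^ n) ∧ m ^ n ≤ ∑' a, ρ a * F a ^ n := by
  have s : ∀ n, Summable fun a => ρ a * F a ^ n := fun n => .of_nonneg_of_le
    (fun a => mul_nonneg (h0 a) (pow_nonneg (hF a).1 n)) (fun a => mul_le_mul_of_nonneg_left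
      (pow_le_pow_left₀ (hF a).1 (hF a).2 n) (h0 a)) (h1.summable.mul_right (b ^ n))
  have s1 : HasSum (fun a => ρ a * F a) (∑' a, ρ a * F a) := by simpa using (s 1).hasSum
  refine ⟨s n, le_trans ?_ (hasSum_le (fun a => ?_) (((h1.mul_right (1 - (n : ℝ))).add
    (s1.mul_right ((n : ℝ) / m))).mul_left (m ^ n)) (s n).hasSum)⟩
  · have := mul_le_mul_of_nonneg_right hm (div_nonneg n.cast_nonneg m0.le)
    rw [mul_div_cancel₀ _ m0.ne'] at this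
    exact le_mul_of_one_le_right (pow_pos m0 n).le (by linarith)
  · have := mul_le_mul_of_nonneg_left (one_add_mul_sub_le_pow (a := F a / m)
      (le_trans (by norm_num) (div_nonneg (hF a).1 m0.le)) n) (mul_nonneg (h0 a) (pow_pos m0 n).le)
    rw [div_pow, mul_assoc, mul_assoc, mul_div_cancel₀ _ (pow_pos m0 n).ne'] at this
    refine le_of_eq_of_le ?_ this
    ring

end Ce

variable {d Q : ℕ} {B : Bd (Fin (d + 2))}

variable (B Q) in
/-- location block `0`, direction block `1`, `Q` clones in the other blocks -/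
structure Gq : Prop where
  x : B.x = 0
  y : B.y = 1
  Z : B.Z = zq 0 1 fun _ => Q

theorem zq_eq {q : Fin (d + 2) → ℕ} (hq : ∀ i, i ≠ 0 → i ≠ 1 → q i = Q) :
    zq 0 1 q = zq (0 : Fin (d + 2)) 1 fun _ => Q :=
  congrArg grid (funext fun i => by
    split_ifs with k
    exacts [rfl, hq i (fun e => k (.inl e)) fun e => k (.inr e)])

theorem zq1 (n : ℕ) : zq 0 1 (q1 d Q n) = zq (0 : Fin (d + 2)) 1 fun _ => Q :=
  zq_eq fun i a b => by simp [q1, a, b]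

theorem gq_gB {q : Fin (d + 2) → ℕ} (hq : ∀ i, i ≠ 0 → i ≠ 1 → q i = Q) (s : ℕ) (T : TS Unit)
    (v : ℕ → Finset (Fin (d + 2)) → ℝ) : Gq Q (gB 0 1 q s T v) := ⟨rfl, rfl, zq_eq hq⟩

theorem Gq.D (g : Gq Q B) (h : B.Ok) (n : ℕ) :
    B.D (univ : Finset (Fin 1 × Fin n)) = grid (q1 d Q n) :=
  Ce.D_eq h (by rw [g.x, g.y, zq1, g.Z]) (by simp [g.x, q1]) (by simp [g.y, q1])

section rd
variable (g : Gq Q B) (h : B.Ok) (v : ℕ → Finset (Fin (d + 2)) → ℝ)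

/-- the coordinate of the class `q` in the ring with `n` clones of the direction -/
def Gq.co (n : ℕ) (q : Σ j : Jc (univ : Finset (Fin 1 × Fin n)), B.Cl (ja j) (jb j)) :
    B.T.Cw (R1 B.s d Q n v) :=
  Ce.cv B.T (g.D h n) (B.V 1 1) (fun j w => v j (bl w)) (h.eC 1 1 q)
/-- the background part -/
def Gq.rz (y : B.T.Cw (R1 B.s d Q 1 v) → ℤ) : B.Zc := fun p => y (g.co h v 1 ⟨.inl (), p⟩)
/-- the direction part -/
def Gq.rx (y : B.T.Cw (R1 B.s d Q 1 v) → ℤ) : B.I → ℤ :=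
  fun p => y (g.co h v 1 ⟨.inr (.inr (.inl 0)), p⟩)

theorem Gq.co_F (n : ℕ) (q : Σ j : Jc (univ : Finset (Fin 1 × Fin n)), B.Cl (ja j) (jb j)) :
    (g.co h v n q).1.1 = q.2.1.1.1 := rfl
theorem Gq.co_lv (n : ℕ) (q : Σ j : Jc (univ : Finset (Fin 1 × Fin n)), B.Cl (ja j) (jb j)) :
    Wd.lv (g.co h v n q).1.2 = q.2.1.1.2.lv := rfl
theorem Gq.co_tr (n : ℕ) (q : Σ j : Jc (univ : Finset (Fin 1 × Fin n)), B.Cl (ja j) (jb j)) :
    Wd.tr (g.co h v n q).1.2 = B.pu q.2.1.1.2.tr (jx q.1) (jy q.1) := rfl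

include g h in
theorem Gq.pu0 (t : Pt (Fin (d + 2))) (a b : Option ℕ) : B.pu t a b 0 = a ∧ B.pu t a b 1 = b :=
  ⟨g.x ▸ Bd.pu_x .., g.y ▸ h.pu_y ..⟩

include g h in
theorem Gq.rep_pu (t : Pt (Fin (d + 2))) (a b : Option ℕ) (i : ℕ) :
    Ho.rep 1 i (B.pu t a b) = B.pu t a (b.map fun _ => i) := by
  rw [← g.y]
  refine funext (h.xy.all.2 ⟨?_, ?_, fun j p q => ?_⟩)
  · rw [Ho.rep_ne h.xy.ne, Bd.pu_x, Bd.pu_x]
  · rw [Ho.rep_self, h.pu_y, h.pu_y]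
  · rw [Ho.rep_ne q, Bd.pu_ne _ _ _ p q, Bd.pu_ne _ _ _ p q]
end rd

/-- **cells**: in every fibre `z ∈ W` one law `ρ` of the location serves all directions in `Ba z` -/
theorem cell (g : Gq Q B) (h : B.Ok) {st : B.T.C → ℕ} {M : ℕ} (hs : B.T.Stg st M)
    {v : ℕ → Finset (Fin (d + 2)) → ℝ} (hv : ∀ j A, 0 < v j A) {c : ℝ} (hc : 0 < c)
    (hV : ∀ j t, t 0 ≠ none → v j (bl t) = B.V c 1 j t) {f : (B.T.C → ℤ) → ℝ} {b : ℝ}
    (hf : ∀ y, 0 ≤ f y ∧ f y ≤ b) (W : Set B.Zc) (Ba : B.Zc → Set (B.I → ℤ)) {γ κ : ℝ}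
    (γ0 : 0 ≤ γ) (κ0 : 0 ≤ κ) (H : ∀ z ∈ W, ∃ ρ : (B.I → ℤ) → ℝ, Pz ρ ∧
      (∀ p, κ * ρ p ≤ gd (c • h.M z) (h.ce z) p) ∧ ∀ x ∈ Ba z,
        γ ≤ ∑' p, ρ p * h.av (B.eg (zp 0 1 fun _ => Q) f) z (p + x)) :
    Cell B.s d Q B.T st v f {y | g.rz h v y ∈ W ∧ g.rx h v y ∈ Ba (g.rz h v y)} γ κ := by
  intro n Y _ la x y n0 l0 hx hz hy
  have hG : ∀ z a η, 0 ≤ B.eg (zp 0 1 fun _ => Q) f z a η ∧ B.eg (zp 0 1 fun _ => Q) f z a η ≤
      ∏ _ω ∈ zp (0 : Fin (d + 2)) 1 fun _ => Q, b := fun z a η =>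
    ⟨prod_nonneg fun _ _ => (hf _).1, prod_le_prod (fun _ _ => (hf _).1) fun _ _ => (hf _).2⟩
  have e1 : ∀ e, hid B.T (R1 B.s d Q n v) kw st (B.T.tw0 _) (y e)
      (PF B.T B.s (q1 d Q n) v fun _ => f) = ∑' P, gd (c • h.M (g.rz h v (x (e ⟨0, n0⟩))))
        (h.ce (g.rz h v (x (e ⟨0, n0⟩)))) P * ∏ a, h.av (B.eg (zp 0 1 fun _ => Q) f)
          (g.rz h v (x (e ⟨0, n0⟩))) (P + g.rx h v (x (e a))) := fun e => by
    obtain ⟨q, hq⟩ := (h.cE (Γ := (univ : Finset (Fin 1 × Fin n))) c 1).surjective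
      fun a => y e (Ce.cv B.T (g.D h n) _ (fun j w => v j (bl w)) a)
    have k : ∀ r, q.at r = y e (g.co h v n r) := fun r =>
      (h.cE_eC c 1 q r).symm.trans (congrFun hq _)
    have z1 : q.1 = g.rz h v (x (e ⟨0, n0⟩)) := funext fun p => (k ⟨.inl (), p⟩).trans (by
      refine Eq.trans ?_ (hy e ⟨0, n0⟩ (g.co h v 1 ⟨.inl (), p⟩) (g.pu0 h ..).1)
      unfold cl
      refine congrArg (y e) (Subtype.ext (Prod.ext rfl (Wd.ext' rfl ?_)))
      exact (g.rep_pu h _ none none 0).symm)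
    have x1 : ∀ a, q.2.1.2 a = g.rx h v (x (e a)) := fun a => funext fun p =>
      (k ⟨.inr (.inr (.inl a)), p⟩).trans (by
        refine Eq.trans ?_ (hy e a (g.co h v 1 ⟨.inr (.inr (.inl 0)), p⟩) (g.pu0 h ..).1)
        unfold cl
        refine congrArg (y e) (Subtype.ext (Prod.ext rfl (Wd.ext' rfl ?_)))
        exact (g.rep_pu h _ none (some 0) a).symm)
    refine (Ce.hid_cv h hs hc one_pos (fun j t => hv j (bl t)) (fun j t m => hV j t (g.x ▸ m)) hG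
      (g.D h n) (p := kw) (fun w => by rw [g.x]; rfl) q (y e) hq fun y' => ?_).trans ?_
    · obtain ⟨q', hq'⟩ := (h.cE (Γ := (univ : Finset (Fin 1 × Fin n))) c 1).surjective
        fun a => y' (Ce.cv B.T (g.D h n) _ (fun j w => v j (bl w)) a)
      rw [← hq', Bd.Ok.PG, Equiv.symm_apply_apply]
      refine (Ce.prod_pts h (k := 1) (l := n) (by simp [g.x, q1]) (by simp [g.y, q1]) _).trans
        (prod_congr rfl fun e _ => ?_)
      rw [g.x, g.y, zp, zq1]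
      refine prod_congr rfl fun ω _ => congrArg f ?_
      rw [← h.pts _ _ _ c 1 q' e ω, hq']
      exact Ce.pw_cv B.T (g.D h n) _ _ _ _
    · rw [← (Equiv.funUnique (Fin 1) (B.I → ℤ)).symm.tsum_eq, ← z1]
      refine tsum_congr fun P => congrArg₂ (· * ·) (Fin.prod_univ_one _) ?_
      rw [prod_coe_sort univ fun e : Fin 1 × Fin n => h.av (B.eg (zp 0 1 fun _ => Q) f) q.1
        ((Equiv.funUnique (Fin 1) (B.I → ℤ)).symm P e.1 + q.2.1.2 e.2), Fintype.prod_prod_type,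
        Fin.prod_univ_one]
      simp only [x1]; rfl
  have a0 := fun z a => (h.av_le h.hid hG z a).1
  simp only [e1]
  rcases (mul_nonneg γ0 (sum_nonneg fun i _ => l0 i)).eq_or_lt with m0 | m0
  · rw [← m0, zero_pow n0.ne', mul_zero]
    exact sum_nonneg fun e _ => mul_nonneg (prod_nonneg fun _ _ => l0 _) (tsum_nonneg fun P =>
      mul_nonneg (Fa.gd_nn _ _ _) (prod_nonneg fun _ _ => a0 _ _))
  obtain ⟨i0⟩ : Nonempty Y := by
    by_contra k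
    rw [not_nonempty_iff] at k
    simp at m0
  have zz : ∀ i, g.rz h v (x i) = g.rz h v (x i0) := fun i => funext fun p =>
    hz i i0 _ (g.pu0 h ..)
  simp only [zz]
  have hx' : ∀ i, g.rx h v (x i) ∈ Ba (g.rz h v (x i0)) := fun i => zz i ▸ (hx i).2
  obtain ⟨ρ, ⟨ρ0, ρ1⟩, ρ2, ρ3⟩ := H _ (hx i0).1
  generalize g.rz h v (x i0) = z at *
  obtain ⟨b', hb⟩ := h.hid.2.2.2
  obtain ⟨G, hG', ab⟩ : ∃ G, h.av (B.eg (zp 0 1 fun _ => Q) f) z = G ∧ ∃ b, ∀ a, 0 ≤ G a ∧ G a ≤ b :=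
    ⟨_, rfl, _, fun a => ⟨a0 _ _, (h.av_le h.hid hG z a).2.trans (mul_le_mul_of_nonneg_left
      (by simpa only [Bd.Ok.av, mul_one] using hb z a) ((hG z 0 0).1.trans (hG z 0 0).2))⟩⟩
  obtain ⟨b1, ab⟩ := ab
  rw [hG'] at ρ3 ⊢
  have sg : Summable (gd (c • h.M z) (h.ce z)) :=
    (summable_gs ((h.lin z).1.smul hc) _).div_const _
  have hF : ∀ P, 0 ≤ ∑ i, la i * G (P + g.rx h v (x i)) ∧
      ∑ i, la i * G (P + g.rx h v (x i)) ≤ ∑ i, la i * b1 := fun P =>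
    ⟨sum_nonneg fun i _ => mul_nonneg (l0 i) (ab _).1,
      sum_le_sum fun i _ => mul_le_mul_of_nonneg_left (ab _).2 (l0 i)⟩
  have s1 : ∀ i, Summable fun P => ρ P * G (P + g.rx h v (x i)) := fun i => .of_nonneg_of_le
    (fun P => mul_nonneg (ρ0 P) (ab _).1) (fun P => mul_le_mul_of_nonneg_left (ab _).2 (ρ0 P))
    (ρ1.summable.mul_right b1)
  obtain ⟨s2, j⟩ := Ce.jen n ρ0 ρ1 hF m0 (by
    simp only [mul_sum, mul_left_comm (ρ _)]
    rw [Summable.tsum_finsetSum fun i _ => (s1 i).mul_left _]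
    refine sum_le_sum fun i _ => ?_
    rw [tsum_mul_left, mul_comm]
    exact mul_le_mul_of_nonneg_left (ρ3 _ (hx' i)) (l0 i))
  have s3 : ∀ e : Fin n → Y, Summable fun P => (∏ a, la (e a)) *
      (gd (c • h.M z) (h.ce z) P * ∏ a, G (P + g.rx h v (x (e a)))) := fun e =>
    (Summable.of_nonneg_of_le (fun P => mul_nonneg (Fa.gd_nn _ _ _) (prod_nonneg fun _ _ => (ab _).1))
      (fun P => mul_le_mul_of_nonneg_left (prod_le_prod (fun _ _ => (ab _).1) fun _ _ => (ab _).2)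
        (Fa.gd_nn _ _ _)) (sg.mul_right (∏ _a : Fin n, b1))).mul_left _
  simp only [← tsum_mul_left]
  rw [← Summable.tsum_finsetSum fun e _ => s3 e]
  refine (mul_le_mul_of_nonneg_left j κ0).trans ?_
  rw [← tsum_mul_left]
  refine (s2.mul_left κ).tsum_le_tsum (fun P => ?_) (summable_sum fun e _ => s3 e)
  rw [← mul_assoc, Fintype.sum_pow]
  simp only [mul_left_comm _ (gd _ _ P), ← mul_sum, ← prod_mul_distrib]
  exact mul_le_mul_of_nonneg_right (ρ2 P) (sum_nonneg fun e _ => prod_nonneg fun _ _ =>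
    mul_nonneg (l0 _) (ab _).1)

/-- the precision factor of the location -/
def cL (I : Type) [Fintype I] [DecidableEq I] : ℝ := cw I * (1 + (cw I)⁻¹)⁻¹

theorem cL_pos (I : Type) [Fintype I] [DecidableEq I] : 0 < cL I :=
  have := Kg.cw_pos (I := I); by unfold cL; positivity

theorem cL_le (I : Type) [Fintype I] [DecidableEq I] : cL I ≤ 1 :=
  have := Kg.cw_pos (I := I)
  mul_le_one₀ Kg.cw_le (by positivity)
    (inv_le_one_of_one_le₀ (le_add_of_nonneg_right (by positivity)))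

theorem cL_ge (I : Type) [Fintype I] [DecidableEq I] : 1 / 6 ≤ cL I := by
  have a := half_le_cw I
  have b : (cw I)⁻¹ ≤ 2 := inv_le_of_inv_le₀ two_pos (by linarith)
  have c : (1 / 3 : ℝ) ≤ (1 + (cw I)⁻¹)⁻¹ :=
    le_inv_of_le_inv₀ (by have := Kg.cw_pos (I := I); positivity) (by linarith)
  unfold cL; nlinarith

theorem gz_le_gd {I : Type} [Fintype I] [DecidableEq I] {M : Matrix I I ℝ} (hM : M.PosDef)
    {lam : ℝ} (l1 : 1 ≤ lam) (sm : th ((2 : ℝ) • lam • M)⁻¹ 0 ≤ 11 / 10) (θ : I → ℝ) (p : I → ℤ) :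
    9 / 10 * gz (cw I • mp M M) θ p ≤ gd (cL I • M) θ p := by
  have a := hM.smul (cL_pos I)
  have t := Kg.th_lo a (Kg.sm_anti a ((hM.smul (by linarith)).smul two_pos) (fun x => by
    simp only [qf_smul]; nlinarith [qf_nonneg hM x, cL_le I]) sm) θ
  have d := dt_pos a
  rw [mp_self hM, smul_smul, gz, gd, ← cL, ← mul_div_assoc, div_le_div_iff₀ (by linarith) d]
  nlinarith [gs_pos (cL I • M) (zc p - θ)]

theorem V_gB {q : Fin (d + 2) → ℕ} {s : ℕ} {T : TS Unit} {v v1 : ℕ → Finset (Fin (d + 2)) → ℝ}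
    {c : ℝ} (h1 : ∀ j A, 0 ∈ A → v1 j A = if 1 ∈ A then v j A else v j A / c) (j : ℕ)
    (t : Pt (Fin (d + 2))) (a : t 0 ≠ none) : v1 j (bl t) = (gB 0 1 q s T v).V c 1 j t := by
  have m : ∀ i, i ∈ bl ((gB 0 1 q s T v).pu t none none) ↔ i ≠ 0 ∧ i ≠ 1 ∧ t i ≠ none := fun i => by
    rw [mem_bl, Bd.pu]; split_ifs with a b <;> simp_all [gB]
  refine (h1 _ _ (mem_bl.2 a)).trans (Eq.trans ?_ (if_neg a).symm)
  by_cases b : t 1 = none
  · refine (if_neg (by simp [mem_bl, b])).trans (Eq.trans ?_ (if_pos b).symm)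
    refine congrArg (v j · / c) (ext fun i => ?_)
    rw [mem_insert, m, mem_bl]
    refine ⟨fun k => (em _).imp_right fun c => ⟨c, by rintro rfl; exact k b, k⟩, ?_⟩
    rintro (rfl | k)
    exacts [a, k.2.2]
  · refine (if_pos (mem_bl.2 b)).trans (Eq.trans ?_ (if_neg b).symm)
    refine congrArg (v j) (ext fun i => ?_)
    rw [mem_insert, mem_insert, m, mem_bl]
    refine ⟨fun k => (em _).imp_right fun c => (em _).imp_right fun d => ⟨c, d, k⟩, ?_⟩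
    rintro (rfl | rfl | k)
    exacts [a, b, k.2.2]

/-- **cells** from the output of the Kelley–Meka step -/
theorem cell_ko (g : Gq Q B) (h : B.Ok) {st : B.T.C → ℕ} {M : ℕ} (hs : B.T.Stg st M)
    {v : ℕ → Finset (Fin (d + 2)) → ℝ} (hv : ∀ j A, 0 < v j A)
    (hV : ∀ j t, t 0 ≠ none → v j (bl t) = B.V (cL B.I) 1 j t) {f : (B.T.C → ℤ) → ℝ} {b : ℝ}
    (hf : ∀ y, 0 ≤ f y ∧ f y ≤ b) (W : Set B.Zc) (Ba : B.Zc → Set (B.I → ℤ)) {γ C lam : ℝ}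
    (γ0 : 0 ≤ γ) (C0 : 0 < C) (l1 : 1 ≤ lam) (H : ∀ z ∈ W,
      th ((2 : ℝ) • lam • h.M z)⁻¹ 0 ≤ 11 / 10 ∧ ∃ ρ : (B.I → ℤ) → ℝ, Pz ρ ∧
      (∀ p, ρ p ≤ C * gz (cw B.I • mp (h.M z) (h.M z)) (h.ce z) p) ∧ ∀ x ∈ Ba z,
        γ ≤ ∑' p, ρ p * h.av (B.eg (zp 0 1 fun _ => Q) f) z (p + x)) :
    Cell B.s d Q B.T st v f {y | g.rz h v y ∈ W ∧ g.rx h v y ∈ Ba (g.rz h v y)} γ (9 / 10 / C) :=
  cell g h hs hv (cL_pos _) hV hf W Ba γ0 (by positivity) fun z hz => by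
    obtain ⟨sm, ρ, a, b, c⟩ := H z hz
    refine ⟨ρ, a, fun p => le_trans ?_ (gz_le_gd (h.lin z).1 l1 sm _ p), c⟩
    rw [div_mul_eq_mul_div, mul_div_assoc]
    exact mul_le_mul_of_nonneg_left ((div_le_iff₀' C0).2 (b p)) (by norm_num)

theorem zp_eq {q : Fin (d + 2) → ℕ} (hq : ∀ i, i ≠ 0 → i ≠ 1 → q i = Q) :
    zp 0 1 q = zp (0 : Fin (d + 2)) 1 fun _ => Q := by rw [zp, zp, zq_eq hq]

theorem Cell.mono {s : ℕ} {T : TS Unit} {st : T.C → ℕ} {v : ℕ → Finset (Fin (d + 2)) → ℝ}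
    {f : (T.C → ℤ) → ℝ} {Bl Bl' : Set (T.Cw (R1 s d Q 1 v) → ℤ)} {γ κ κ' : ℝ}
    (h : Cell s d Q T st v f Bl γ κ) (a : Bl' ⊆ Bl) (γ0 : 0 ≤ γ) (k : κ' ≤ κ) :
    Cell s d Q T st v f Bl' γ κ' := fun n Y _ la x b n0 l0 hx hz hy =>
  (mul_le_mul_of_nonneg_right k (pow_nonneg (mul_nonneg γ0 (sum_nonneg fun i _ => l0 i)) n)).trans
    (h n Y la x b n0 l0 (fun i => a (hx i)) hz hy)

end Crest.Agent.N49.Sd

end
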