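import Crest.Agent.N49.Sd.Ins
import Crest.Agent.N49.Un.Rgd

/-!
# Row 49 (helper1): many clones of the direction (`REGX`)
-/

set_option autoImplicit false

open Matrix MvPolynomial Finset Function

noncomputable section

namespace Crest.Agent.N49.Sd.Rx

open Po Tw Br N49.Top Ho Tw.Db Tw.Sh

variable {τ τ₁ ι : Type} {T : TS Unit} {S : Sh Unit τ} {S₁ : Sh Unit τ₁} {st : T.C → ℕ} {M : ℕ}

theorem co_tpw (F : T.C) (m : T.C →₀ ℕ) : coeff m (tpw T S F) = MvPolynomial.C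
    (if Finsupp.weight T.lev m = T.lev F then coeff m (T.Φ F) else 0) := by
  rw [tpw, coeff_map]
  exact congrArg _ (coeff_weightedHomogeneousComponent _ _ _)

theorem adm (hs : T.Stg st M) : T.Adm S st (tpw T S) where
  gr F m := by
    rw [co_tpw]
    split_ifs with h
    · rw [h, Nat.sub_self]; exact isWeightedHomogeneous_C _ _
    · rw [C_0]; exact isWeightedHomogeneous_zero _ _ _
  le F m hm := by
    rw [mem_support_iff, co_tpw] at hm
    split_ifs at hm with h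
    · have := hs.tri.tri F m (mem_support_iff.2 fun z => hm (by
        rw [show coeff m (T.Φ F) = 0 from z, C_0]))
      rw [show (T.stg st).lev = st from funext fun c => TS.stg_lev c] at this
      exact ⟨h.le, this⟩
    · exact absurd C_0 hm
  top F m h := by rw [co_tpw, if_pos h]

theorem tp_tpw (φ : Matrix S₁.W S.W ℤ) : T.tp S S₁ φ (tpw T S) = tpw T S₁ := funext fun F => by
  rw [TS.tp, tpw, MvPolynomial.map_map]
  refine congrArg (MvPolynomial.map · _) (RingHom.ext fun x => ?_)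
  simp [Sh.pu]

section fb
variable {p : S.W → Prop} [DecidablePred p] {Ψ : T.Twd S}

theorem gl_pos {R : Type} (y : Kc T S p → R) (b : T.Cw S → R) {c : T.Cw S} (h : p c.1.2) :
    gl T S p y b c = y ⟨c, h⟩ := dif_pos h

theorem gl_val {R : Type} (y : Kc T S p → R) (b : T.Cw S → R) (c : Kc T S p) :
    gl T S p y b c.1 = y c := dif_pos c.2

theorem gl_neg {R : Type} (y : Kc T S p → R) (b : T.Cw S → R) {c : T.Cw S} (h : ¬ p c.1.2) :
    gl T S p y b c = b c := dif_neg h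

theorem fb_u (b : T.Cw S → ℤ) (y : Kc T S p → ℤ) (c : Kc T S p) :
    (fb T S p st Ψ b).u (zc y) c = ut Ψ (zc (gl T S p y b)) c.1 :=
  (TS.u_cut ..).trans (congrArg (ut Ψ · c.1) (zc_glue y b).symm)

theorem fb_u' (b : T.Cw S → ℤ) (y : Kc T S p → ℤ) : (fb T S p st Ψ b).u (zc y) =
    fun c : Kc T S p => (T.tw S Ψ).u (zc (gl T S p y b)) c.1 := by
  funext c
  rw [show (T.tw S Ψ).u (zc (gl T S p y b)) c.1 = ut Ψ (zc (gl T S p y b)) c.1 by unfold ut; rfl]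
  exact fb_u b y c

theorem qf_K (b b' : T.Cw S → ℤ) (u : Kc T S p → ℝ) :
    qf (fb T S p st Ψ b).K⁻¹ u = qf (fb T S p st Ψ b').K⁻¹ u := rfl

theorem qf_fb (b : T.Cw S → ℤ) (y : Kc T S p → ℤ) :
    qf (fb T S p st Ψ (gl T S p y b)).K⁻¹ (fun c => (T.tw S Ψ).u (zc (gl T S p y b)) c.1) =
      qf (fb T S p st Ψ b).K⁻¹ ((fb T S p st Ψ b).u (zc y)) := by
  rw [fb_u']; exact qf_K _ _ _

theorem fb_A (hs : T.Stg st M) (h : T.Adm S st Ψ) (o : S.Ok) (b : T.Cw S → ℤ) :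
    (fb T S p st Ψ b).A = (T.kw S (T.stg st).A 1).submatrix
      (Subtype.val : Kc T S p → _) Subtype.val :=
  ((TS.lw_tri hs h o).A_cut _ b).trans (by rw [TS.lw_A hs h o]; rfl)

theorem fb_tri (hs : T.Stg st M) (h : T.Adm S st Ψ) (o : S.Ok) (b : T.Cw S → ℤ) :
    (fb T S p st Ψ b).Tri :=
  (TS.lw_tri hs h o).cut _ b (.inl fun c hc c' hc' => by
    rw [TS.lw_A hs h o]
    exact mul_eq_zero_of_right _ (one_apply_ne fun e : c.1.2 = c'.1.2 => hc' (e ▸ hc)))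

theorem fb_Zc (hs : T.Stg st M) (h : T.Adm S st Ψ) (o : S.Ok) (b : T.Cw S → ℤ) :
    (fb T S p st Ψ b).Zc =
      √((T.kw S T.K S.K).submatrix (Subtype.val : Kc T S p → _) Subtype.val).det /
        |((T.kw S (T.stg st).A 1).submatrix (Subtype.val : Kc T S p → _) Subtype.val).det| := by
  rw [TS.Zc_eq, fb_A hs h o, dt_inv, dt, inv_inv]; rfl

theorem kap_idl {T1 : TS Unit} (h : S.Idl p) (D : Tan T1 T S.W) {y y' : T.Cw S → ℤ}
    (k : ∀ c : T.Cw S, p c.1.2 → y c = y' c) (c : T1.Cw S) (hc : p c.1.2) :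
    D.kap S y c = D.kap S y' c := by
  have := cf_em (R := ℤ) (S₁ := S.sub p) (f := Subtype.val) Subtype.val_injective
    (w := ⟨c.1.2, hc⟩) (fun _ => rfl) fun m n x hx => ⟨⟨x, h _ m hc n x hx⟩, rfl⟩
  refine congrArg (_ + ·) ((this _).trans (Eq.trans ?_ (this _).symm))
  refine congrArg _ ((map_sum ..).trans (Eq.trans (sum_congr rfl fun G _ => ?_) (map_sum ..).symm))
  have e := fun y => hA_Yw (R := ℤ) (T := T) (S := S) (S₁ := S.sub p) (f := Subtype.val)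
    (fun _ => rfl) Subtype.val_injective y G
  refine (map_mul ..).trans (Eq.trans (congrArg (_ * ·) ((e y).trans (Eq.trans ?_ (e y').symm)))
    (map_mul ..).symm)
  exact congrArg (T.Yw _ · G) (funext fun q => k _ q.1.2.2)

end fb

theorem kap_fc {T1 : TS Unit} {Lt : Type} (D : Tan T1 T Lt) {f : S₁.W → S.W}
    (cd : ∀ w, S.cd (f w) = S₁.cd w) (hf : Injective f) {g : Lt → S.W} {g₁ : Lt → S₁.W}
    (hg : ∀ t, f (g₁ t) = g t) (y : T.Cw S → ℤ) (c : T1.Cw S₁)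
    (hr : ∀ m, S.r (f c.1.2) (m.mapDomain f) = S₁.r c.1.2 m)
    (loc : ∀ m, S.r (f c.1.2) m ≠ 0 → ∀ x ∈ m.support, ∃ w', f w' = x) :
    (D.rn g).kap S y (fc T1 cd c) = (D.rn g₁).kap S₁ (fun q => y (fc T cd q)) c := by
  have e : ∀ P, hA ℤ S₁ (pj f) (rename g P) = rename g₁ P := fun P =>
    DFunLike.congr_fun (show (hA ℤ S₁ (pj f)).comp (rename g) = rename g₁ from
      algHom_ext fun t => by rw [AlgHom.comp_apply, rename_X, rename_X, ← hg, hA_X hf]) P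
  refine congrArg₂ (· + ·) ((cf_em hf hr loc _).trans (congrArg _ (e _)))
    ((cf_em hf hr loc _).trans (congrArg _ ?_))
  rw [map_sum]
  refine sum_congr rfl fun G _ => ?_
  rw [map_mul, hA_Yw cd hf]
  exact congrArg (· * _) (by simp only [Tan.rn, map_rename, e])

/-- the words `k` of `S` are the words `z` and the clones of the words `x` -/
structure Tr (S : Sh Unit τ) (S₁ : Sh Unit τ₁) (p : S₁.W → Prop) (em : ι → S₁.W → S.W)
    (k : S.W → Prop) (z x : S₁.W → Prop) : Prop where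
  cl : ShCl S S₁ p em
  kz : ∀ a w, k (em a w) ↔ z w ∨ x w
  zp : ∀ w, z w → p w
  xp : ∀ w, x w → ¬ p w
  iz : S₁.Idl z

namespace Tr
variable {p z x : S₁.W → Prop} {em : ι → S₁.W → S.W} {k : S.W → Prop} [DecidablePred k]
  [DecidablePred z] [DecidablePred x]

variable (T) in
/-- the coordinates -/
def eqv (h : Tr S S₁ p em k z x) (b : ι) : Kc T S₁ z ⊕ ι × Kc T S₁ x ≃ Kc T S k :=
  Equiv.ofBijective (Sum.elim (fun c => ⟨fc T (h.cl.cd b) c.1, (h.kz _ _).2 (.inl c.2)⟩)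
    fun q => ⟨fc T (h.cl.cd q.1) q.2.1, (h.kz _ _).2 (.inr q.2.2)⟩) ⟨by
      rintro (c | ⟨a, c⟩) (c' | ⟨a', c'⟩) e <;> replace e := congrArg Subtype.val e <;>
        have e' := congrArg (·.1.2) e
      · rw [Subtype.ext (fc_inj (h.cl.cd b) (h.cl.inj _) e)]
      · exact absurd (h.cl.inj a' ((h.cl.com a' b _ (h.zp _ c.2)).trans e') ▸ h.zp _ c.2)
          (h.xp _ c'.2)
      · exact absurd ((h.cl.inj a (e'.trans (h.cl.com b a _ (h.zp _ c'.2)))).symm ▸ h.zp _ c'.2)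
          (h.xp _ c.2)
      · obtain rfl : a = a' := h.cl.dis _ _ _ _ (h.xp _ c.2) e'
        rw [show c = c' from Subtype.ext (fc_inj (h.cl.cd a) (h.cl.inj _) e)], fun c => by
      obtain ⟨a, w, e⟩ := h.cl.sur c.1.1.2
      have d : S₁.cd w = T.deg c.1.1.1 := (h.cl.cd a w).symm.trans (e ▸ c.1.2)
      rcases (h.kz a w).1 (e ▸ c.2) with i | i
      · exact ⟨.inl ⟨⟨(_, w), d⟩, i⟩, Subtype.ext (Subtype.ext (Prod.ext rfl
          ((h.cl.com b a w (h.zp _ i)).trans e)))⟩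
      · exact ⟨.inr (a, ⟨⟨(_, w), d⟩, i⟩), Subtype.ext (Subtype.ext (Prod.ext rfl e))⟩⟩

/-- the configurations -/
def cf (h : Tr S S₁ p em k z x) (b : ι) (r : Kc T S₁ z → ℤ) (e : ι → Kc T S₁ x → ℤ) :
    Kc T S k → ℤ := fun c => Sum.elim r (fun q => e q.1 q.2) ((h.eqv T b).symm c)

omit [DecidablePred k] [DecidablePred z] [DecidablePred x] in
theorem cf_inj (h : Tr S S₁ p em k z x) (b : ι) {r r' : Kc T S₁ z → ℤ} {e e' : ι → Kc T S₁ x → ℤ}
    (i : h.cf b r e = h.cf b r' e') : r = r' ∧ e = e' :=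
  ⟨funext fun c => by simpa [cf] using congrFun i (h.eqv T b (.inl c)),
    funext fun a => funext fun c => by simpa [cf] using congrFun i (h.eqv T b (.inr (a, c)))⟩

theorem gl_cf (h : Tr S S₁ p em k z x) (b : ι) (r : Kc T S₁ z → ℤ) (e : ι → Kc T S₁ x → ℤ) (a : ι) :
    (fun c => gl T S k (h.cf b r e) 0 (fc T (h.cl.cd a) c)) = gl T S₁ x (e a) (gl T S₁ z r 0) := by
  funext c
  by_cases i : x c.1.2
  · refine (gl_val _ _ (h.eqv T b (.inr (a, ⟨c, i⟩)))).trans (Eq.trans ?_ (gl_pos _ _ i).symm)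
    simp [cf]
  refine Eq.trans ?_ (gl_neg _ _ i).symm
  by_cases j : z c.1.2
  · have : fc T (h.cl.cd a) c = (h.eqv T b (.inl ⟨c, j⟩)).1 :=
      Subtype.ext (Prod.ext rfl (h.cl.com a b _ (h.zp _ j)))
    rw [this]
    refine (gl_val _ _ _).trans (Eq.trans ?_ (gl_pos _ _ j).symm)
    simp [cf]
  · exact (gl_neg _ _ fun n => ((h.kz a _).1 n).elim j i).trans (gl_neg r 0 j).symm

theorem u_cf (h : Tr S S₁ p em k z x) (b : ι) (r : Kc T S₁ z → ℤ) (e : ι → Kc T S₁ x → ℤ) (a : ι)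
    (c : T.Cw S₁) : ut (tpw T S) (zc (gl T S k (h.cf b r e) 0)) (fc T (h.cl.cd a) c) =
      ut (tpw T S₁) (zc (gl T S₁ x (e a) (gl T S₁ z r 0))) c := by
  refine (u_fc (h.cl.cd a) (h.cl.inj a) _ _ c (h.cl.r a _) (h.cl.loc a _)).trans ?_
  rw [tp_tpw, ← h.gl_cf b r e a]; rfl

variable [Fintype ι]

theorem wt_cf (h : Tr S S₁ p em k z x) (b : ι) (hK : T.K.PosDef) (o : S.K.PosDef)
    (r : Kc T S₁ z → ℤ) (e : ι → Kc T S₁ x → ℤ) :
    (fb T S k st (tpw T S) 0).wt (h.cf b r e) = (fb T S₁ z st (tpw T S₁) 0).wt r *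
      ∏ a, (fb T S₁ x st (tpw T S₁) (gl T S₁ z r 0)).wt (e a) := by
  have q := qf_inv_fac (h.eqv T b) (M := (fb T S k st (tpw T S) 0).K)
    ((TS.kw_posDef hK o).submatrix Subtype.val_injective) (fun c q => mul_eq_zero_of_right _ (by
      change S.K (em b c.1.1.2) (em q.1 q.2.1.1.2) = 0
      rw [h.cl.com b q.1 _ (h.zp _ c.2), h.cl.hK, h.cl.sep _ _ (h.zp _ c.2) (h.xp _ q.2.2)]))
    (fun q q' n => mul_eq_zero_of_right _ (h.cl.hK0 _ _ _ _ n (h.xp _ q.2.2) (h.xp _ q'.2.2)))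
    ((fb T S k st (tpw T S) 0).u (zc (h.cf b r e)))
  simp only [TS.wt, gs]
  refine (congrArg (fun t => Real.exp (-(Real.pi * t))) q).trans ?_
  rw [← Real.exp_sum, ← Real.exp_add, mul_add, neg_add, mul_sum, ← sum_neg_distrib]
  refine congrArg Real.exp (congrArg₂ (· + ·) (congrArg (fun t => -(Real.pi * t)) ?_)
    (sum_congr rfl fun a _ => congrArg (fun t => -(Real.pi * t)) ?_))
  · refine congrArg₂ qf (congrArg Inv.inv (Matrix.ext fun c c' =>
      congrArg (T.K c.1.1.1 c'.1.1.1 * ·) (h.cl.hK b _ _))) (funext fun c => ?_)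
    refine (fb_u ..).trans ((h.u_cf b r e b c.1).trans (Eq.trans ?_ (fb_u ..).symm))
    exact u_idl h.iz _ (fun c' i => congrArg Int.cast
      (gl_neg _ _ fun j => h.xp _ j (h.zp _ i))) c.1 c.2
  · refine congrArg₂ qf (congrArg Inv.inv (Matrix.ext fun c c' =>
      congrArg (T.K c.1.1.1 c'.1.1.1 * ·) (h.cl.hK a _ _))) (funext fun c => ?_)
    exact (fb_u ..).trans ((h.u_cf b r e a c.1).trans (fb_u ..).symm)

theorem det_cf (h : Tr S S₁ p em k z x) (b : ι) (B : Matrix T.C T.C ℝ) {N : Matrix S.W S.W ℝ}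
    {N₁ : Matrix S₁.W S₁.W ℝ} (h1 : ∀ a w w', N (em a w) (em a w') = N₁ w w')
    (h2 : ∀ a a' w w', a ≠ a' → ¬ p w → ¬ p w' → N (em a w) (em a' w') = 0)
    (h3 : ∀ w w', p w → ¬ p w' → N₁ w w' = 0) :
    ((T.kw S B N).submatrix (Subtype.val : Kc T S k → _) Subtype.val).det =
      ((T.kw S₁ B N₁).submatrix (Subtype.val : Kc T S₁ z → _) Subtype.val).det *
        ((T.kw S₁ B N₁).submatrix (Subtype.val : Kc T S₁ x → _) Subtype.val).det ^
          Fintype.card ι := by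
  refine det_fac (h.eqv T b) (fun c c' => congrArg (B _ _ * ·) (h1 b _ _))
    (fun c q => mul_eq_zero_of_right _ ?_) (fun a c c' => congrArg (B _ _ * ·) (h1 a _ _))
    fun q q' n => mul_eq_zero_of_right _ (h2 _ _ _ _ n (h.xp _ q.2.2) (h.xp _ q'.2.2))
  change N (em b c.1.1.2) (em q.1 q.2.1.1.2) = 0
  rw [h.cl.com b q.1 _ (h.zp _ c.2), h1, h3 _ _ (h.zp _ c.2) (h.xp _ q.2.2)]

theorem Zc_cf (h : Tr S S₁ p em k z x) (b : ι) (hs : T.Stg st M) (o : S.Ok) (o₁ : S₁.Ok)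
    (y : T.Cw S₁ → ℤ) : (fb T S k st (tpw T S) 0).Zc = (fb T S₁ z st (tpw T S₁) 0).Zc *
      ∏ _a : ι, (fb T S₁ x st (tpw T S₁) y).Zc := by
  have pd := TS.kw_posDef (S := S₁) hs.cl.1.pd o₁.pd
  rw [fb_Zc hs (adm hs) o, fb_Zc hs (adm hs) o₁, fb_Zc hs (adm hs) o₁,
    h.det_cf b _ h.cl.hK h.cl.hK0 h.cl.sep, h.det_cf b _ (N₁ := 1)
      (fun a w w' => by simp only [one_apply, (h.cl.inj a).eq_iff])
      (fun a a' w w' n i _ => one_apply_ne fun e => n (h.cl.dis _ _ _ _ i e))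
      fun w w' i j => one_apply_ne fun e => j (e ▸ i),
    Real.sqrt_mul (pd.submatrix Subtype.val_injective).det_pos.le, ← card_univ, ← prod_const,
    Real.sqrt_prod _ fun _ _ => (pd.submatrix Subtype.val_injective).det_pos.le, abs_mul, abs_pow,
    prod_const, prod_const, div_pow, mul_div_mul_comm]

end Tr

theorem exists_fin {U : TS Unit} (h : U.Tri) {H : Set (U.C → ℤ)} {β : ℝ} (hβ : 0 < β)
    (k : β ≤ U.N (H.indicator 1)) :
    ∃ X : Finset (U.C → ℤ), (∀ r ∈ X, r ∈ H) ∧ β / 2 ≤ ∑ r ∈ X, U.wt r / U.Zc := by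
  classical
  obtain ⟨X, e⟩ := (((h.sm (Bb.ind H)).hasSum.div_const U.Zc).eventually
    (lt_mem_nhds (show β / 2 < _ from lt_of_lt_of_le (by linarith) k))).exists
  refine ⟨X.filter (· ∈ H), fun r i => (mem_filter.1 i).2, e.le.trans_eq ?_⟩
  rw [sum_filter]
  exact sum_congr rfl fun r _ => by by_cases i : r ∈ H <;> simp [i]

section grid
variable {s d Q n : ℕ}

theorem idl {D : Finset (Pt (Fin (d + 2)))} (V : ℕ → Pt (Fin (d + 2)) → ℝ) (i : Fin (d + 2)) :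
    (Br.tw s D V).Idl fun w => w.tr i = none := fun w m h r w' k => by
  by_contra n
  exact n ((((ite_ne_right_iff.1 r).1 : Rr w m).2.1 w' k i n).trans h)

theorem tr (hn : 0 < n) (v : ℕ → Finset (Fin (d + 2)) → ℝ) :
    Tr (R1 s d Q n v) (R1 s d Q 1 v) (fun w => w.tr 1 = none) (dcl1 d Q hn).em kw zw xw where
  cl := (dcl1 d Q hn).shcl (V := fun j w => v j (bl w)) fun j a w => congrArg (v j) (bl_rep 1 a w)
  kz a w := by
    change rep 1 a w.tr 0 = none ↔ _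
    rw [rep_ne Fin.zero_ne_one, zw, xw]; tauto
  zp _ h := h.2
  xp _ h := h.2
  iz w m h r w' k := ⟨idl (fun j w => v j (bl w)) 0 w m h.1 r w' k,
    idl (fun j w => v j (bl w)) 1 w m h.2 r w' k⟩

theorem em_lt (hs : 0 < s) (hn : 0 < n) (a : Fin n) (t : Fin d × Fin Q) :
    (dcl1 d Q hn).em a (lt s d Q hs 1 t) = lt s d Q hs n t :=
  wd_ext rfl (rep_eq (.inl (update_of_ne (a' := t.1.succ.succ)
    (fun e => Fin.succ_ne_zero _ (Fin.succ_injective _ e).symm) (some t.2.1) fun _ => none)))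

end grid

end Rx

open Po Tw Br N49.Top Ho Rx in
theorem regx (fx : FIBX) : REGX := by
  intro s d Q n M1 M2 hs T1 T2 st1 st2 D v1 v2 f Bl γ κ β R H hn _ h2 hv g0 k0 hβ _ hb ce hH hB
  classical
  have t1 := tr (s := s) (Q := Q) hn v1
  have t2 := tr (s := s) (Q := Q) hn v2
  have o : ∀ m, (R1 s d Q m v2).Ok := fun _ => gr_ok fun j B => (hv j B).2
  obtain ⟨Z, hZ, hz⟩ := exists_fin (fb_tri h2 (adm h2) (o 1) 0) hβ hH
  choose tx X hX hx using fun r : Kc T2 (R1 s d Q 1 v2) zw → ℤ =>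
    fx s d Q M2 T2 st2 v2 (gl T2 _ zw r 0) R h2 fun j B => (hv j B).2
  refine ⟨(Z.sigma fun r => (univ : Finset (Fin n → X r))).image
    fun σ => t2.cf ⟨0, hn⟩ σ.1 fun a => (σ.2 a).1, ?_⟩
  rw [sum_image (by
    rintro ⟨r, e⟩ - ⟨r', e'⟩ - i
    obtain ⟨rfl, j⟩ := t2.cf_inj _ i
    exact congrArg _ (funext fun a => Subtype.ext (congrFun j a))), sum_sigma, mul_assoc]
  refine (mul_le_mul_of_nonneg_right hz (by
    have := sub_nonneg.2 hb
    positivity)).trans ?_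
  rw [sum_mul]
  refine sum_le_sum fun r hr => ?_
  have := ce n (X r) (fun i => (fb T2 _ xw st2 (tpw T2 _) (gl T2 (R1 s d Q 1 v2) zw r 0)).wt i.1 /
      (fb T2 _ xw st2 (tpw T2 _) (gl T2 (R1 s d Q 1 v2) zw r 0)).Zc)
    (fun i => (D.rn (lt s d Q hs 1)).kap (R1 s d Q 1 v1)
      (gl T2 (R1 s d Q 1 v2) xw i.1 (gl T2 (R1 s d Q 1 v2) zw r 0)))
    (fun e => (D.rn (lt s d Q hs n)).kap (R1 s d Q n v1)
      (gl T2 (R1 s d Q n v2) kw (t2.cf ⟨0, hn⟩ r fun a => (e a).1) 0)) hn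
    (fun i => div_nonneg (TS.wt_pos _ _).le (tx r).Zc_pos.le)
    (fun i => hB _ (Set.mem_of_eq_of_mem (funext fun c =>
        (gl_neg (S := R1 s d Q 1 v2) (p := xw) _ _ fun j => j.2 c.2.2).trans (gl_val _ _ c))
        (hZ r hr)) ((qf_fb _ _).trans_le (hX r _ i.2)))
    (fun i i' c j => kap_idl t1.iz _ (fun c j => (gl_neg _ _ fun l => l.2 j.2).trans
      (gl_neg _ _ fun l => l.2 j.2).symm) c j)
    fun e a c _ => (kap_fc (S := R1 s d Q n v1) (S₁ := R1 s d Q 1 v1) D (t1.cl.cd a) (t1.cl.inj a)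
      (em_lt hs hn a) _ c (t1.cl.r a _) (t1.cl.loc a _)).trans
        (congrArg ((D.rn (lt s d Q hs 1)).kap (R1 s d Q 1 v1) · c) (t2.gl_cf ⟨0, hn⟩ r _ a))
  refine (mul_le_mul_of_nonneg_left (le_trans (mul_le_mul_of_nonneg_left (pow_le_pow_left₀
    (mul_nonneg g0 (sub_nonneg.2 hb)) (mul_le_mul_of_nonneg_left ?_ g0) n) k0) this)
    (div_nonneg (TS.wt_pos _ _).le (fb_tri h2 (adm h2) (o 1) 0).Zc_pos.le)).trans_eq ?_
  · rw [← sum_div, le_div_iff₀ (tx r).Zc_pos, sum_coe_sort (X r)]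
    exact hx r
  · rw [mul_sum]
    refine sum_congr rfl fun e _ => ?_
    rw [← mul_assoc, prod_div_distrib, div_mul_div_comm]
    exact congrArg (· * _) (congrArg₂ (· / ·) (t2.wt_cf ⟨0, hn⟩ h2.cl.1.pd (o n).pd r _).symm
      (t2.Zc_cf ⟨0, hn⟩ h2 (o n) (o 1) _).symm)

end Crest.Agent.N49.Sd

end
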