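import Crest.Agent.N49.Sd.Ed
import Crest.Agent.N49.Sd.Regx

/-!
# Row 49 (helper95): the words without the first block do not see the unit
-/

set_option autoImplicit false

open Matrix MvPolynomial Finset

noncomputable section

namespace Crest.Agent.N49.Sd

open Po Tw Br

variable {τ : Type} {S : Sh Unit τ} {p : S.W → Prop}

theorem Kw.cf_el (h : S.Idl p) {x : S.W → ℤ} (k : ∀ w, x w ≠ 0 → ¬ p w) {w : S.W} (hw : p w)
    (Q : MvPolynomial S.W ℝ) : S.cf ℝ w (S.el x * Q) = 0 := by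
  classical
  simp only [Sh.el, sum_mul, smul_mul_assoc, map_sum, map_zsmul]
  refine sum_eq_zero fun w' _ => by_contra fun z => ?_
  obtain ⟨m, a, b⟩ := Sh.cf_ne (right_ne_zero_of_smul z)
  rw [coeff_X_mul'] at a
  exact k w' (left_ne_zero_of_smul z) (h w m hw b w' (ite_ne_right_iff.1 a).1)

theorem Kw.u_eq (h : S.Idl p) (k : ∀ w, S.ε w ≠ 0 → ¬ p w) {T : TS Unit} (t : T.Tri)
    (y : T.Cw S → ℝ) (c : T.Cw S) (hc : p c.1.2) :
    (T.tw S (T.tw0 S)).u y c = (T.tw S (tpw T S)).u y c := by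
  rw [TS.tw_u, TS.tw_u, ← sub_eq_zero, ← map_sub, ← map_sub, eval_eq, map_sum]
  refine sum_eq_zero fun m _ => ?_
  rw [coeff_sub, TS.coeff_tw0, Rx.co_tpw]
  split_ifs with e
  · simp [e, smul_eq_C_mul]
  by_cases z : coeff m (T.Φ c.1.1) = 0
  · simp [z]
  obtain ⟨n, hn⟩ := Nat.exists_eq_add_one_of_ne_zero (Nat.sub_ne_zero_of_lt
    ((t.tri _ m (mem_support_iff.2 z)).lt_of_ne e))
  rw [hn, C_0, sub_zero, pow_succ', smul_mul_assoc, mul_assoc, map_smul, Kw.cf_el h k hc, smul_zero]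

theorem kwt : KWT := fun s d Dd V _ _ => ⟨Rx.idl V 0, fun T t => Kw.u_eq (Rx.idl V 0)
  (fun w z n => by
    obtain ⟨a, b⟩ : w.lv = 1 ∧ Fill ∅ (bl w.tr) := (ite_ne_right_iff.1 z).1
    obtain ⟨i, hi⟩ : (bl w.tr).Nonempty := card_pos.1 (lt_of_lt_of_eq (by simp) w.2.symm)
    rcases (Fin.zero_le i).eq_or_lt with rfl | l
    · exact (mem_filter.1 hi).2 n
    · exact (mem_filter.1 (b.2 i hi (notMem_empty _) 0 l)).2 n) t⟩

end Crest.Agent.N49.Sd

end
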