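import Crest.Agent.N49.Sd.Eb
import Crest.Agent.N49.Sd.Kwt

/-!
# Row 49 (helper95): the kept words are the symbol coordinates
-/

set_option autoImplicit false
set_option linter.unusedSectionVars false

open Matrix MvPolynomial Finset

noncomputable section

namespace Crest.Agent.N49.Sd

open Po Tw Br N49.Top Rm Md Ho

namespace Sk

variable {s d : ℕ} {D D' : Finset (Pt (Fin (d + 2)))} {V : ℕ → Pt (Fin (d + 2)) → ℝ} {T : TS Unit}
  (hD : ∀ t, t ∈ D' ↔ t ∈ D ∧ t 0 = none)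

/-- the kept words as words -/
def inc (w : Wd s D') : Wd s D := w.mk' w.tr ((hD _).1 w.mem).1 rfl

theorem inc_inj : Function.Injective (inc (s := s) hD) := fun _ _ e =>
  Wd.ext' (congrArg (Wd.lv (D := D)) e) (congrArg (Wd.tr (D := D)) e)

theorem inc_cd (w : Wd s D') : (Br.tw s D V).cd (inc hD w) = (Br.tw s D' V).cd w := rfl

variable (T V) in
/-- the kept coordinates -/
def ek : T.Cw (Br.tw s D' V) ≃ Kc T (Br.tw s D V) kw where
  toFun q := ⟨⟨(q.1.1, inc hD q.1.2), q.2⟩, ((hD _).1 (Wd.mem q.1.2)).2⟩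
  invFun c := ⟨(c.1.1.1, Wd.mk' c.1.1.2 _ ((hD _).2 ⟨Wd.mem _, c.2⟩) rfl), c.1.2⟩
  left_inv _ := rfl
  right_inv _ := rfl

theorem u_ek (y : T.Cw (Br.tw s D V) → ℝ) (q : T.Cw (Br.tw s D' V)) :
    (T.tw _ (tpw T _)).u y (ek V T hD q).1 =
      (T.tw _ (tpw T (Br.tw s D' V))).u (fun r => y (ek V T hD r).1) q := by
  have := u_fc (inc_cd hD) (inc_inj hD) (tpw T _) y q
    (fun m => if_congr (Rr_map (g := inc hD) fun _ _ => rfl) rfl rfl) fun m z w k =>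
      ⟨Wd.mk' w _ ((hD _).2 ⟨Wd.mem w, Rx.idl V 0 _ m ((hD _).1 (Wd.mem q.1.2)).2 z w k⟩) rfl, rfl⟩
  rw [Rx.tp_tpw] at this
  exact this

theorem u_sh {τ : Type} {S : Sh Unit τ} (y : T.Cw S → ℝ) (q : T.Cw S) :
    (T.tw S (T.tw0 S)).u y q = (T.sh S).u y q :=
  congrArg (eval y) (congrArg (S.cf _ q.1.2) (TS.eval₂_tw0 _ _))

theorem K_inv {st : T.C → ℕ} {Ψ : T.Twd (Br.tw s D V)} (k : T.K = 1)
    {a : Kc T (Br.tw s D V) kw → ℝ} (h : ∀ c, V (Wd.lv c.1.1.2) (Wd.tr c.1.1.2) * a c ^ 2 = 1) :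
    (fb T _ kw st Ψ 0).K⁻¹ = diagonal a * diagonal a := by
  have e : (fb T _ kw st Ψ 0).K =
      diagonal fun c : Kc T (Br.tw s D V) kw => V (Wd.lv c.1.1.2) (Wd.tr c.1.1.2) := by
    refine Matrix.ext fun (x x' : Kc T (Br.tw s D V) kw) => ?_
    change T.K x.1.1.1 x'.1.1.1 * diagonal (fun w : Wd s D => V w.lv w.tr) x.1.1.2 x'.1.1.2 = _
    rw [k, one_apply, diagonal_apply, diagonal_apply]
    by_cases a : x = x'
    · rw [if_pos a, if_pos (by rw [a]), if_pos (by rw [a]), one_mul]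
    · rw [if_neg a]
      by_cases b : x.1.1.1 = x'.1.1.1
      · rw [if_neg (c := x.1.1.2 = x'.1.1.2) fun c => a (Subtype.ext (Subtype.ext (Prod.ext b c))),
          mul_zero]
      · rw [if_neg b, zero_mul]
  refine inv_eq_right_inv ((congrArg₂ _ e (diagonal_mul_diagonal _ _)).trans
    ((diagonal_mul_diagonal _ _).trans (Eq.trans ?_ diagonal_one)))
  exact congrArg diagonal (funext fun x => (congrArg _ (sq _).symm).trans (h x))

variable {τ L : Type} [Fintype τ] [DecidableEq τ] [Fintype L] [DecidableEq L]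

include hD in
theorem core {lt : τ → Fin (d + 2) × ℕ} {W : Finset (Finset τ)} (blk : τ → L) {B : Bs L} {h : ℕ}
    (V : ℕ → Pt (Fin (d + 2)) → ℝ) (o : Lt 0 D' lt W) (k : B.Ok s h) :
    ∃ e : Kc B.T (Br.tw s D V) kw ≃ B.SC W,
      (∀ q, (e q).1 = (q.1.1.1, lw lt (Wd.tr q.1.1.2))) ∧
      (∀ (y : B.T.Cw (Br.tw s D V) → ℝ) ys ε q, (∀ q, ys (e q) = y q.1) →
        (B.SY W blk).Φ (Sum.elim ys ε) (e q) =
          (∏ a ∈ (e q).1.2, B.la (blk a)) * (B.T.tw _ (tpw B.T _)).u y q.1) ∧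
      ((∀ j, ∀ t ∈ D', V j t * (∏ a ∈ lw lt t, B.la (blk a)) ^ 2 = 1) → ∀ y,
        (B.SY W blk).wt (fun c => y (e.symm c)) =
          (fb B.T (Br.tw s D V) kw B.st (tpw B.T _) 0).wt y) := by
  have hT := k.old.ok.toTri
  have hp : ∀ c, B.st c < B.M + 1 := fun c => Nat.lt_succ_of_le (k.old.stg.le c).1
  let e : Kc B.T (Br.tw s D V) kw ≃ B.SC W := (ek V B.T hD).symm.trans
    (Equiv.ofBijective (o.fs s V hp) (o.fs_bij hp hT k.old.lev))
  have e2 : ∀ q, (e q).1 = (q.1.1.1, lw lt (Wd.tr q.1.1.2)) := fun _ => rfl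
  have e4 : ∀ (y : B.T.Cw (Br.tw s D V) → ℝ) ys ε q, (∀ q, ys (e q) = y q.1) →
      (B.SY W blk).Φ (Sum.elim ys ε) (e q) =
        (∏ a ∈ (e q).1.2, B.la (blk a)) * (B.T.tw _ (tpw B.T _)).u y q.1 := fun y ys ε q a => by
    obtain ⟨r, rfl⟩ := (ek V B.T hD).surjective q
    exact congrArg (_ * ·) (Eq.symm ((u_ek hD y r).trans ((Kw.u_eq (p := fun _ => True)
      (fun _ _ _ _ _ _ => trivial) (fun w z => absurd (congrFun o.eps w) z) hT _ r
        trivial).symm.trans ((u_sh _ _).trans ((congrArg ((B.T.sh _).u · r)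
          (funext fun r => (a (ek V B.T hD r)).symm)).trans (o.u_fs hp hT k.old.lev ys r))))))
  refine ⟨e, e2, e4, fun w y => Eq.trans ?_ (Sy.Swt.wt_dg (K_inv (a := fun q => ∏ a ∈ (e q).1.2,
    B.la (blk a)) k.old.K fun q => w _ _ ((hD _).2 ⟨Wd.mem q.1.1.2, q.2⟩)) y)⟩
  rw [Ir.wt, gs, Ir.qf_one, TT.wt, neg_mul, ← e.sum_comp]
  refine congrArg (fun t => Real.exp (-(Real.pi * t))) (sum_congr rfl fun q _ => ?_)
  exact congrArg (· ^ 2) ((e4 _ _ _ q fun q => congrArg Int.cast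
    ((congrArg y (e.symm_apply_apply q)).trans (Rx.gl_val y 0 q).symm)).trans
    (congrArg (_ * ·) (congrFun (Rx.fb_u' 0 y) q).symm))

end Sk

theorem syk : SYK := fun τ L _ _ _ _ s d Q h lt W blk x g B v o k _ => by
  have hD : ∀ t, t ∈ Dk d Q ↔ t ∈ grid (q1 d Q 1) ∧ t 0 = none := fun _ => mem_filter
  obtain ⟨e, e2, e4, a⟩ := Sk.core hD blk (fun j w => v j (bl w)) o.nm k
  have e1 : ∀ (R : Type) (y : B.T.Cw (R1 s d Q 1 v) → R) ys, Rd lt W B v y ys ↔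
      ∀ q, ys (e q) = y q.1 := fun R y ys => ⟨fun a q => a q.1 _ q.2 (e2 q), fun a q c b i =>
    (congrArg ys (Subtype.ext (i.trans (e2 ⟨q, b⟩).symm))).trans (a ⟨q, b⟩)⟩
  refine ⟨e, e1, e2, fun q => (iff_of_eq (congrArg (fun z : B.T.C × Finset τ =>
    x ∈ z.2.image blk) (e2 q))).trans (mem_image.trans ⟨fun ⟨a, i, j⟩ => ⟨q.2, ?_⟩, fun i => ?_⟩),
    fun y ys ε q r => e4 y ys ε q ((e1 _ _ _).1 r), fun w H => ?_⟩
  · have := mem_lw.1 i
    rw [o.g0 a ((o.gx a).2 j)] at this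
    exact fun n => nomatch this.symm.trans n
  · obtain ⟨a, j, l⟩ := o.nm.ex ((hD _).2 ⟨Wd.mem q.1.1.2, q.2⟩) i.2
    refine ⟨a, j, (o.gx a).1 (Option.eq_none_iff_forall_ne_some.2 fun t n => ?_)⟩
    rw [o.g1 a t n] at l
    exact Fin.succ_ne_zero _ (Fin.succ_injective _ l)
  · rw [TT.pr, ← (e.arrowCongr (.refl ℤ)).tsum_eq, ← (e.arrowCongr (.refl ℤ)).tsum_eq]
    refine congrArg₂ (· / ·) (tsum_congr fun y => Eq.trans ?_ (congrArg (· * _) (a w y)))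
      (tsum_congr (a w))
    by_cases m : (fun c => y (e.symm c)) ∈ H
    · exact (Set.indicator_of_mem m _).trans ((mul_one _).symm.trans
        (congrArg _ (if_pos m).symm))
    · exact (Set.indicator_of_notMem m _).trans ((mul_zero _).symm.trans
        (congrArg _ (if_neg m).symm))

end Crest.Agent.N49.Sd

end
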