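import Crest.Agent.N49.Sd.Fs
import Crest.Agent.N49.Sd.Syk
import Crest.Agent.N49.Sd.Cellp

/-!
# Row 49 (helper1): the cell of an origin, for the whitened tower
-/

set_option autoImplicit false

open Matrix MvPolynomial Finset

noncomputable section

namespace Crest.Agent.N49.Sd

open Po Tw Br N49.Top Rm Md

namespace Oc

theorem conj {ι : Type} [Fintype ι] [DecidableEq ι] {N K A : Matrix ι ι ℝ} (hN : N.det ≠ 0) :
    (∀ u, gs (N * K * Nᵀ)⁻¹ (N *ᵥ u) = gs K⁻¹ u) ∧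
      √(N * K * Nᵀ).det / |(N * A).det| = √K.det / |A.det| := by
  constructor
  · intro u
    have e : Nᵀ * (N * K * Nᵀ)⁻¹ * N = K⁻¹ := by
      rw [Matrix.mul_inv_rev, Matrix.mul_inv_rev, ← Matrix.mul_assoc,
        mul_nonsing_inv _ (by rwa [det_transpose, isUnit_iff_ne_zero]), Matrix.one_mul,
        Matrix.mul_assoc, nonsing_inv_mul _ hN.isUnit, Matrix.mul_one]
    rw [gs, gs, qf, qf, ← e, ← mulVec_mulVec, ← mulVec_mulVec, dotProduct_mulVec u,
      vecMul_transpose]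
  · rw [det_mul, det_mul, det_mul, det_transpose, mul_right_comm, ← sq,
      Real.sqrt_mul (sq_nonneg _), Real.sqrt_sq_eq_abs, abs_mul,
      mul_div_mul_left _ _ (abs_pos.2 hN).ne']

variable {T : TS Unit} {st : T.C → ℕ} {M : ℕ} {N : Matrix T.C T.C ℝ} (h : T.Stg st M)
  (w : Wh T st N)
include h w

theorem blv : Rw.Blk T.lev N := fun _ _ f => by_contra fun z => f (h.un_lev w.blk z)

theorem un_stg : (T.un N).Stg st M :=
  ⟨(h.cl.1.un (blv h w) w.e).cl, h.tri.un (T := T.stg st) (by rw [TS.stg_lev']; exact w.blk) w.e,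
    h.lev, h.le⟩

theorem un_top (F : T.C) : (T.un N).top.Φ F = (T.top.un N).Φ F := by
  refine MvPolynomial.ext _ _ fun m : T.C →₀ ℕ => ?_
  refine (TS.coeff_tΦ (T := T.un N) F m).trans (Eq.trans ?_ (TS.un_top_coeff F m).symm)
  refine (if_congr (show Finsupp.weight T.lev m = T.lev F ↔ _ from Iff.rfl) (TS.un_coeff F m)
    rfl).trans ?_
  rw [← sum_const_zero (s := (univ : Finset T.C)), ← sum_ite_irrel]
  refine sum_congr rfl fun j _ => ?_
  by_cases z : N F j = 0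
  · simp [z]
  · rw [TS.coeff_tΦ, h.un_lev w.blk z, mul_ite, mul_zero]

variable {τ : Type} {S : Sh Unit τ}

theorem un_tw0 : (T.un N).tw0 S = fun F : T.C => ∑ F', N F F' • T.tw0 S F' := by
  refine funext fun F : T.C => MvPolynomial.ext _ _ fun m : T.C →₀ ℕ => ?_
  refine (TS.coeff_tw0 (T := T.un N) F m).trans (Eq.trans ?_ (TS.un_tw_coeff F m).symm)
  refine (congrArg (· • S.el (R := ℝ) S.ε ^ (T.lev F - Finsupp.weight T.lev m))
    (TS.un_coeff F m)).trans ?_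
  rw [sum_smul]
  refine sum_congr rfl fun j _ => ?_
  by_cases z : N F j = 0
  · simp [z]
  · rw [TS.coeff_tw0, h.un_lev w.blk z, smul_smul]

omit h w in
theorem sh_u (T : TS Unit) (y : T.Cw S → ℝ) (c : T.Cw S) :
    (T.sh S).u y c = (T.tw S (T.tw0 S)).u y c :=
  (congrArg (MvPolynomial.eval y) (congrArg (S.cf _ c.1.2) (TS.eval₂_tw0 _ _))).symm

theorem un_sh (y : T.Cw S → ℝ) (c : T.Cw S) :
    ((T.un N).sh S).u y c = (T.kw S N 1 *ᵥ (T.sh S).u y) c := by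
  refine (sh_u (T.un N) y c).trans ((TS.tw_u (T := T.un N) y c).trans ?_)
  rw [un_tw0 h w, show (T.sh S).u y = (T.tw S (T.tw0 S)).u y from funext (sh_u T y)]
  exact TS.un_cf (fun F G z => unit_ext (h.un_lev w.blk z)) y c

/-- **whitening does not change the hidden sums** -/
theorem hid_un (o : S.Ok) (p : S.W → Prop) [DecidablePred p] (b : T.Cw S → ℤ)
    (G : (T.Cw S → ℤ) → ℝ) :
    hid (T.un N) S p st ((T.un N).tw0 S) b G = hid T S p st (T.tw0 S) b G := by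
  have bl : T.Bl N := fun F G z => unit_ext (h.un_lev w.blk z)
  have k : Rw.Blk (fun c : T.Cw S => if p c.1.2 then 0 else 1) (T.kw S N 1) := fun c c' e =>
    mul_eq_zero_of_right _ (one_apply_ne fun f => e (by simp only [f]))
  have hp : ∀ c c' : T.Cw S, (if p c.1.2 then 0 else 1) = (if p c'.1.2 then 0 else 1) →
      ¬ p c.1.2 → ¬ p c'.1.2 := fun c c' e a b => by simp [a, b] at e
  have k' : Rw.Blk (fun c : T.Cw S => if p c.1.2 then 0 else 1) (T.kw S N 1)ᵀ := Rw.Bk.tr k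
  set X := (T.kw S N 1).submatrix (Subtype.val : Kc T S (fun w => ¬ p w) → _) Subtype.val with hX
  have hN : N.det ≠ 0 := TS.un_det (T := T) h.cl.1.pd w.e
  have d : X.det ≠ 0 := by
    have e := Rw.Bk.sub_mul hp k (T.kw S N⁻¹ 1)
    rw [TS.kw_mul bl TS.one_cd, mul_nonsing_inv _ hN.isUnit, Matrix.mul_one,
      TS.kw_one, submatrix_one _ Subtype.val_injective] at e
    exact left_ne_zero_of_mul (by rw [← det_mul, ← e, det_one]; exact one_ne_zero)
  have e1 : (T.kw S 1 S.K).submatrix (Subtype.val : Kc T S (fun w => ¬ p w) → _) Subtype.val =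
      X * (T.kw S T.K S.K).submatrix Subtype.val Subtype.val * Xᵀ := by
    have a : T.kw S 1 S.K = T.kw S N 1 * (T.kw S N 1 * (T.kw S T.K S.K)ᵀ)ᵀ := by
      rw [transpose_mul, transpose_transpose, ← Matrix.mul_assoc, TS.kw_mul bl TS.one_cd,
        TS.kw_transpose, TS.mul_kw bl TS.one_cd, TS.un_K' (T := T) h.tri.pd w.e]
      simp
    rw [a, Rw.Bk.sub_mul hp k, ← transpose_submatrix, Rw.Bk.sub_mul hp k, transpose_mul,
      Matrix.mul_assoc]
    rfl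
  have e2 : (T.kw S (T.un N).A 1).submatrix (Subtype.val : Kc T S (fun w => ¬ p w) → _)
      Subtype.val = X * (T.kw S T.A 1).submatrix Subtype.val Subtype.val := by
    rw [← Rw.Bk.sub_mul hp k, TS.kw_mul bl TS.one_cd, Matrix.mul_one, TS.un_A (blv h w)]
  have c := conj (K := (T.kw S T.K S.K).submatrix Subtype.val Subtype.val)
    (A := (T.kw S T.A 1).submatrix Subtype.val Subtype.val) d
  rw [← e1, ← e2] at c
  refine (Ce.hid_eq (un_stg h w) o p b G).2.trans (Eq.trans ?_ (Ce.hid_eq h o p b G).2.symm)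
  refine congrArg₂ HDiv.hDiv (tsum_congr fun η => congrArg₂ HMul.hMul ?_ rfl) c.2
  refine Eq.trans ?_ (c.1 _)
  rw [hX, Rw.Bk.sub_mulVec hp k]
  exact congrArg _ (funext fun a => un_sh h w _ a.1)

/-- **cells under whitening** -/
theorem cwh {s d Q : ℕ} {v : ℕ → Finset (Fin (d + 2)) → ℝ} (hv : ∀ j A, 0 < v j A)
    {f : (T.C → ℤ) → ℝ} {Bl : Set (T.Cw (R1 s d Q 1 v) → ℤ)} {γ κ : ℝ}
    (c : Cell s d Q T st v f Bl γ κ) : Cell s d Q (T.un N) st v f Bl γ κ :=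
  fun n Y _ la x b n0 l0 hx hz hk => by
    have e : ∀ y, hid (T.un N) (R1 s d Q n v) kw st ((T.un N).tw0 _) y
        (PF (T.un N) s (q1 d Q n) v fun _ => f) = hid T (R1 s d Q n v) kw st (T.tw0 _) y
          (PF T s (q1 d Q n) v fun _ => f) := fun y => hid_un (S := R1 s d Q n v) h w
      (Br.tw_ok (V := fun j w => v j (bl w)) (dc_grid _) fun j t => hv j _) kw y (PF T s (q1 d Q n) v fun _ => f)
    simp only [e]
    exact c n Y la x b n0 l0 hx hz hk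

omit h w

theorem dk_eq {s d Q : ℕ} {T : TS Unit} {v : ℕ → Finset (Fin (d + 2)) → ℝ}
    (h : (gB 0 1 (fun _ => Q) s T v).Ok) : (gB 0 1 (fun _ => Q) s T v).D G0 = Dk d Q := by
  ext t
  rw [mem_gD h, Dk, mem_filter, Ho.mem_grid]
  refine ⟨fun ⟨a, b, c⟩ => ⟨fun i n e => ?_, a⟩, fun ⟨a, b⟩ => ⟨b, fun n e => ?_, fun i n e => ?_⟩⟩
  · rcases Fin.eq_zero_or_eq_succ i with rfl | ⟨i, rfl⟩
    · rw [a] at e; cases e
    · rcases Fin.eq_zero_or_eq_succ i with rfl | ⟨i, rfl⟩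
      · rw [b n e]; simp [q1]
      · simpa [q1, ss_ne i] using c i n e
  · simpa [q1] using a 1 n e
  · simpa [q1, ss_ne i] using a _ n e

/-- the letters of the grid -/
theorem lay {s d Q : ℕ} {T : TS Unit} {v : ℕ → Finset (Fin (d + 2)) → ℝ}
    (h : (gB 0 1 (fun _ => Q) s T v).Ok) : Lay d Q Br.gl (gW d Q) gk 0 id where
  nm := dk_eq h ▸ g_lt h
  gx a := (gk_eq a).symm
  g0 a e := by obtain rfl : a = none := e; rfl
  g1 a t e := by obtain rfl : a = some t := e; rfl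
  bk a a' := Fin.succ_inj.symm

end Oc

/-- **the cell of an origin** -/
theorem ogc {s d : ℕ} {o : Og s d} {ε δ : ℝ} (k : o.Ok ε) (e0 : 0 ≤ ε)
    {v : ℕ → Finset (Fin (d + 2)) → ℝ} (hv : ∀ j A, 0 < v j A)
    (h1 : ∀ j A, 0 ∈ A → v j A = if 1 ∈ A then o.g.v j A else o.g.v j A / o.cp)
    (hδ : δ ≤ 1 / 2 ^ o.cx.n) : Cell s d o.Q (o.g.V.T.un o.Nw) o.g.st v o.f
      (Bl0 s o.Q Br.gl (Wt d o.Q) 0 o.cx.B v o.cx.H o.cx.F δ) o.γ (1 / 2 ^ o.n) := by
  have g : Gq o.Q (gS s o.g o.Q) := gq_gB (fun _ _ _ => rfl) _ _ _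
  obtain ⟨b, -, -, -, hf⟩ := k.f
  have γ0 : 0 ≤ o.γ := le_trans (by positivity) k.γ.1
  have c := cell g o.h.ok o.h.stg hv (show 0 < o.cp by linarith [k.cp.1]) (V_gB h1) hf o.W
    (fun z => {x | (∀ a, fr (o.η a z) x ≤ 1 / 2 ^ o.n) ∧ qf (o.Mz z) (zc x) ≤ 1 / 2 ^ o.n}) γ0
    (show (0 : ℝ) ≤ 1 / 2 ^ o.n by positivity) fun z hz =>
      let ⟨r, a, b, c⟩ := k.pw z hz; ⟨r, a, b, fun x hx => c x hx.1 hx.2⟩
  refine Oc.cwh o.h.stg o.h.wh hv (c.mono ?_ γ0 le_rfl)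
  rintro y ⟨ys, hH, rd, hF, hu⟩
  have ez : g.rz o.h.ok v y = o.h.zy ys := funext fun p => (rd _ (o.h.E (.inl p))
    ((congrFun (g.co_tr o.h.ok v 1 _) 0).trans (g.pu0 o.h.ok _ _ _).1) ((o.h.E_z p).trans
      (Prod.ext (g.co_F o.h.ok v 1 ⟨.inl (), p⟩).symm (congrArg (lw Br.gl)
        (g.co_tr o.h.ok v 1 ⟨.inl (), p⟩).symm)))).symm
  have ex : g.rx o.h.ok v y = o.h.wy ys := funext fun p => (rd _ (o.h.E (.inr p))
    ((congrFun (g.co_tr o.h.ok v 1 _) 0).trans (g.pu0 o.h.ok _ _ _).1) ((o.h.E_x p).trans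
      (Prod.ext (g.co_F o.h.ok v 1 ⟨.inr (.inr (.inl 0)), p⟩).symm (congrArg (lw Br.gl)
        (g.co_tr o.h.ok v 1 ⟨.inr (.inr (.inl 0)), p⟩).symm)))).symm
  have n2 : (1 : ℝ) / 2 ^ o.cx.n = 1 / 2 ^ o.n * (1 / 2 ^ o.n) := by
    rw [show o.cx.n = o.n + o.n from two_mul _, pow_add]; field_simp
  have p : (1 : ℝ) ≤ 2 ^ o.n := one_le_pow₀ one_le_two
  have p1 : (1 : ℝ) / 2 ^ o.n ≤ 1 := div_le_one_of_le₀ p (by positivity)
  have dl : δ ≤ 1 / 2 ^ o.n := hδ.trans (n2.trans_le (mul_le_of_le_one_left (by positivity) p1))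
  change g.rz o.h.ok v y ∈ o.W ∧ _ ∧ _
  rw [ez, ex]
  refine ⟨hH, fun a => ?_, ?_⟩
  · obtain ⟨m, hm⟩ := hF a
    have e : o.cx.F a (c0 0 (zc ys)) = o.η a (o.h.zy ys) ⬝ᵥ zc (o.h.wy ys) :=
      o.h.F_eq (o.η a) (P := c0 0 (zc ys)) fun _ => rfl
    exact ((round_le _ m).trans ((congrArg (fun t => |t - (m : ℝ)|) e).symm.trans_le hm)).trans dl
  · obtain ⟨e, -, -, ty, ph, -⟩ := syk _ _ s d o.Q _ Br.gl (Wt d o.Q) gk 0 id o.cx.B v
      (Oc.lay o.h.ok) k.cx.ok hv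
    have q := o.h.qf_x (z := o.h.zy ys) (P := c0 0 (zc ys)) fun _ => rfl
    rw [qf_smul] at q
    have l : ∀ r : (gS s o.g o.Q).I, (o.cx.B.SY (Wt d o.Q) gk).Φ (c0 0 (zc ys)) (o.h.E (.inr r)) ^ 2 ≤
        (2 ^ o.n * 2 ^ o.n) * δ ^ 2 := fun r => by
      obtain ⟨a, ha⟩ := e.surjective (o.h.E (.inr r))
      have x := (ty a).1 (ha ▸ (o.h.mem_ty (.inr r)).2 rfl)
      have := ph (zc y) (zc ys) (fun ℓ => if ℓ = 0 then 0 else 1) a fun q c m n =>
        congrArg _ (rd q c m n)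
      rw [ha] at this
      refine (congrArg (· ^ 2) this).trans_le ((mul_pow _ _ _).trans_le (mul_le_mul ?_
        (sq_le_sq' (abs_le.1 (hu _ x)).1 (abs_le.1 (hu _ x)).2) (sq_nonneg _) (by positivity)))
      have hl := g_hl o.h.ok o.h.ρ0 o.h.c0 o.h.pv (o.h.ok.eC (Γ := G0) 1 1 (Bd.sj (.inr r))).1.2
      have lo : ∀ j t, 1 / 2 ^ o.n / 2 ^ o.n ≤ (gS s o.g o.Q).V 1 (2 ^ o.n) j t := fun j t => by
        have a : ∀ B, 1 / 2 ^ o.n / 2 ^ o.n ≤ o.g.v j B := fun B =>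
          (div_le_self (by positivity) p).trans (k.v j B).1
        rw [Bd.V]
        split_ifs
        exacts [a _, div_le_div_of_nonneg_right (k.v j _).1 (by positivity),
          (a _).trans_eq (div_one _).symm, a _]
      have := (mul_le_mul_of_nonneg_left (lo _ _) (sq_nonneg _)).trans_eq hl
      rw [div_div, mul_one_div, div_le_one (by positivity)] at this
      exact this
    have s1 := (q.symm.trans_le (sum_le_card_nsmul _ _ _ fun r _ => l r))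
    rw [card_univ, nsmul_eq_mul] at s1
    have cI : (Fintype.card (gS s o.g o.Q).I : ℝ) ≤ 2 ^ o.n := by
      exact_mod_cast le_trans (by nlinarith) k.I
    rcases isEmpty_or_nonempty (gS s o.g o.Q).I with n | ⟨⟨r⟩⟩
    · simp [qf, dotProduct]
    obtain ⟨a, ha⟩ := e.surjective (o.h.E (.inr r))
    have d0 : 0 ≤ δ := (abs_nonneg _).trans (hu _ ((ty a).1 (ha ▸ (o.h.mem_ty (.inr r)).2 rfl)))
    have d2 : δ ^ 2 ≤ (1 / 2 ^ o.n * (1 / 2 ^ o.n)) ^ 2 := pow_le_pow_left₀ d0 (n2 ▸ hδ) 2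
    have s2 := s1.trans (mul_le_mul cI (mul_le_mul_of_nonneg_left d2 (by positivity))
      (by positivity) (by positivity))
    refine (le_of_mul_le_mul_left s2 (by positivity)).trans ?_
    rw [← mul_pow_sub_one two_ne_zero, ← mul_assoc]
    refine (le_of_eq (b := 1 / 2 ^ o.n * (1 / 2 ^ o.n)) (by field_simp; norm_num)).trans ?_
    exact mul_le_of_le_one_left (by positivity) p1

end Crest.Agent.N49.Sd

end
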