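import Crest.Agent.N49.Sd.Ins
import Crest.Agent.N49.Rf.Ext

/-!
# Row 49 (helper95): triangular partitions of unity
-/

set_option autoImplicit false

open Matrix Finset MeasureTheory

noncomputable section

namespace Crest.Agent.N49.Sd

open Po

namespace Tl

variable {J : Type} [Fintype J] [DecidableEq J] {lev : J → ℕ} {M : Matrix J J ℝ}

/-- a bound for all the triangular sums -/
theorem bd (hM : M.PosDef) (hB : Rw.Blk lev M) : ∃ B : ℝ, ∀ θ : (J → ℤ) → J → ℝ, Rw.Tri lev θ →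
    ∀ x, (Summable fun n => gs M (zc n - θ n - x)) ∧ ∑' n, gs M (zc n - θ n - x) ≤ B := by
  refine ⟨∏ l ∈ range (univ.sup lev + 1), th (Rw.blk lev M l) 0, fun θ hθ x => ?_⟩
  have t : Rw.Tri lev fun n => θ n + x := fun y y' i h => by
    simp only [Pi.add_apply, hθ y y' i h]
  have e : ∀ n, gs M (zc n - θ n - x) = Rw.wt M (fun n => θ n + x) n := fun n => by
    rw [Rw.wt, sub_sub]
  simp only [e]
  exact ⟨Rw.summable_wt' t hB hM, (Rw.Z_eq fun i =>
    Nat.lt_succ_of_le (le_sup (mem_univ i))).trans_le (Rw.Zl_le t hB hM _)⟩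

theorem sm (hM : M.PosDef) (hB : Rw.Blk lev M) {Y : Type} {w : Y → ℝ} (hw : Summable w)
    {θ : Y → (J → ℤ) → J → ℝ} (hθ : ∀ y, Rw.Tri lev (θ y)) (x : J → ℝ) :
    Summable fun a : Y × (J → ℤ) => w a.1 * gs M (zc a.2 - θ a.1 a.2 - x) := by
  obtain ⟨B, h⟩ := bd hM hB
  have s : Summable fun a : Y × (J → ℤ) => |w a.1| * gs M (zc a.2 - θ a.1 a.2 - x) := by
    refine (summable_prod_of_nonneg
      (f := fun a : Y × (J → ℤ) => |w a.1| * gs M (zc a.2 - θ a.1 a.2 - x))
      fun a => mul_nonneg (abs_nonneg _) (gs_pos _ _).le).2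
      ⟨fun y => (h _ (hθ y) x).1.mul_left |w y|, ?_⟩
    refine Summable.of_nonneg_of_le
      (fun y => tsum_nonneg fun _ => mul_nonneg (abs_nonneg _) (gs_pos _ _).le)
      (fun y => ?_) (hw.abs.mul_right B)
    exact (tsum_mul_left (f := fun n => gs M (zc n - θ y n - x)) (a := |w y|)).trans_le
      (mul_le_mul_of_nonneg_left (h _ (hθ y) x).2 (abs_nonneg _))
  refine Summable.of_norm_bounded s fun a => ?_
  rw [norm_mul, Real.norm_of_nonneg (gs_pos _ _).le, Real.norm_eq_abs]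

end Tl

theorem tile : TILE := by
  intro J Y _ _ _ lev M w θ hM hw hθ hb
  have hB : Rw.Blk lev M := fun i j n => by_contra fun z => n (hb i j z)
  have ht : ∀ y, Rw.Tri lev (θ y) := fun y n n' j h => hθ y n n' j h
  refine ⟨Tl.sm hM hB hw ht, ?_⟩
  have i := fun y => Rf.tile_tsum (ht y) (integrable_gs hM)
  obtain ⟨x, hx⟩ := Rf.pick_cube (g := w) (I := fun _ => dt M)
    (fun y x => tsum_nonneg fun n => (gs_pos M (zc n - θ y n - x)).le) (fun y => (i y).1)
    (fun y => (i y).2.trans (integral_gs_real hM)) (hw.abs.mul_left _)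
  refine ⟨x, ?_⟩
  rw [(Tl.sm hM hB hw ht x).tsum_prod, mul_comm, ← tsum_mul_left]
  refine hx.trans_eq (tsum_congr fun y => ?_)
  simp only [tsum_mul_left]
  exact mul_comm _ _

end Crest.Agent.N49.Sd

end
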