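import Crest.Agent.N49.Sd.Ed
import Crest.Agent.N49.Md.Fw
import Crest.Agent.N49.Br.Tws
import Crest.Agent.N49.Rf.Rsn

/-!
# Row 49 (helper6): from the symbol tower of a frame to the top-word ring (statements)
-/

set_option autoImplicit false

open Matrix MvPolynomial Finset

noncomputable section

namespace Crest.Agent.N49.Sd

open Po Tw Br N49.Top Rm Md

/-- the kept transversals -/
def Dk (d Q : ℕ) : Finset (Pt (Fin (d + 2))) := {t ∈ grid (q1 d Q 1) | t 0 = none}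

/-- the fibre point: the marked letter is a direction -/
def c0 {L C : Type} [DecidableEq L] (x : L) (y : C → ℝ) : C ⊕ L → ℝ :=
  Sum.elim y fun ℓ => if ℓ = x then 0 else 1

/-- kill the letters with `g a = none` -/
def kl {τ Lt : Type} (g : τ → Option Lt) (R : Type) [CommRing R] :
    MvPolynomial τ R →ₐ[R] MvPolynomial Lt R := aeval fun a => (g a).elim 0 X

section
variable {τ L : Type} [Fintype τ] [DecidableEq τ] [Fintype L] [DecidableEq L]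

/-- the letters `τ` name the letters of the kept words, `x` is the block of the direction -/
structure Lay (d Q : ℕ) (lt : τ → Fin (d + 2) × ℕ) (W : Finset (Finset τ)) (blk : τ → L) (x : L)
    (g : τ → Option (Fin d × Fin Q)) : Prop where
  nm : Lt 0 (Dk d Q) lt W
  gx : ∀ a, g a = none ↔ blk a = x
  g0 : ∀ a, g a = none → lt a = (1, 0)
  g1 : ∀ a t, g a = some t → lt a = (t.1.succ.succ, t.2.1)
  bk : ∀ a a', blk a = blk a' ↔ (lt a).1 = (lt a').1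

variable {s d Q : ℕ} (lt : τ → Fin (d + 2) × ℕ) (W : Finset (Finset τ)) (blk : τ → L) (x : L)

/-- `ys` reads the kept words of `y` -/
def Rd (B : Bs L) (v : ℕ → Finset (Fin (d + 2)) → ℝ) {R : Type} (y : B.T.Cw (R1 s d Q 1 v) → R)
    (ys : B.SC W → R) : Prop := ∀ (q : B.T.Cw (R1 s d Q 1 v)) (c : B.SC W), kw q.1.2 →
  c.1 = (q.1.1, lw lt (Wd.tr q.1.2)) → ys c = y q

/-- the variances of the kept words are those of the symbol tower -/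
def Vw (Q : ℕ) (la : L → ℝ) (v : ℕ → Finset (Fin (d + 2)) → ℝ) : Prop :=
  ∀ j, ∀ t ∈ Dk d Q, v j (bl t) * (∏ a ∈ lw lt t, la (blk a)) ^ 2 = 1

variable (s Q) in
/-- **the ball**: background in `H0`, frequencies almost integral, short direction -/
def Bl0 (B : Bs L) (v : ℕ → Finset (Fin (d + 2)) → ℝ) (H0 : Set (B.SC W → ℤ)) {Dt : Type}
    (F : Dt → Fm L (B.SC W)) (δ : ℝ) : Set (B.T.Cw (R1 s d Q 1 v) → ℤ) :=
  {y | ∃ ys ∈ H0, Rd lt W B v y ys ∧ (∀ a, ∃ k : ℤ, |F a (c0 x (zc ys)) - k| ≤ δ) ∧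
    ∀ c : B.T.Cw (R1 s d Q 1 v), xw c.1.2 → |(B.T.tw _ (tpw B.T _)).u (zc y) c| ≤ δ}

/-- `D` is the export of the substitution `θ` with the multiplier `ν` -/
structure Xr {Lt : Type} (g : τ → Option Lt) {T1 T2 : TS Unit} (θ : Md.Tan T1 T2 τ) (ν : ℕ)
    (fam : T2.C → T1.C) (mon : T2.C → MvPolynomial Lt ℤ) (be : T1.C → MvPolynomial Lt ℤ) :
    Prop where
  sm : ∀ G F, θ.fam G = some F → fam G = F ∧ mon G = ν ^ T2.lev G • kl g ℤ (θ.mon G)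
  no : ∀ G, θ.fam G = none → mon G = 0
  be : ∀ F, be F = kl g ℤ (θ.be F)
end

/-- the kept words are the symbol coordinates -/
def SYK : Prop := ∀ (τ L : Type) [Fintype τ] [DecidableEq τ] [Fintype L] [DecidableEq L]
  (s d Q h : ℕ) (lt : τ → Fin (d + 2) × ℕ) (W : Finset (Finset τ)) (blk : τ → L) (x : L)
  (g : τ → Option (Fin d × Fin Q)) (B : Bs L) (v : ℕ → Finset (Fin (d + 2)) → ℝ),
  Lay d Q lt W blk x g → B.Ok s h → (∀ j A, 0 < v j A) →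
  ∃ e : Kc B.T (R1 s d Q 1 v) kw ≃ B.SC W,
    (∀ (R : Type) (y : B.T.Cw (R1 s d Q 1 v) → R) ys, Rd lt W B v y ys ↔ ∀ q, ys (e q) = y q.1) ∧
    (∀ q, (e q).1 = (q.1.1.1, lw lt (Wd.tr q.1.1.2))) ∧
    (∀ q, x ∈ (B.SY W blk).ty (e q) ↔ xw q.1.1.2) ∧
    (∀ (y : B.T.Cw (R1 s d Q 1 v) → ℝ) ys ε q, Rd lt W B v y ys →
      (B.SY W blk).Φ (Sum.elim ys ε) (e q) =
        (∏ a ∈ (e q).1.2, B.la (blk a)) * (B.T.tw _ (tpw B.T _)).u y q.1) ∧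
    (Vw lt blk Q B.la v → ∀ H, (B.SY W blk).pr H =
      (fb B.T (R1 s d Q 1 v) kw B.st (tpw B.T _) 0).P {y | (fun c => y (e.symm c)) ∈ H})

/-- the mass of the backgrounds -/
def MASZ : Prop := ∀ (s d Q M C n : ℕ) (T : TS Unit) (st : T.C → ℕ) (xs : T.C → ℝ)
  (v v' : ℕ → Finset (Fin (d + 2)) → ℝ) (a η β : ℝ) (H' : Set (Kc T (R1 s d Q 1 v) kw → ℤ))
  (H : Set (Kc (T.scl xs) (R1 s d Q 1 v') zw → ℤ)), MAST M C → T.Stg st M → T.RgS st M C n a η →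
  0 < η → η ≤ 1 → (∀ j A, a ≤ v j A ∧ 0 < v' j A) → (∀ j A, 0 ∉ A → 1 ∉ A → v j A = v' j A) →
  (∀ c, xs c ≠ 0) → 1 ≤ n → s * #(grid (q1 d Q 1)) ≤ n →
  (∀ y ∈ H', (fun c : Kc (T.scl xs) (R1 s d Q 1 v') zw => y ⟨c.1, c.2.1⟩) ∈ H) →
  β ≤ (fb T (R1 s d Q 1 v) kw st (tpw T _) 0).P H' →
  β - 3 * η ≤ (fb (T.scl xs) (R1 s d Q 1 v') zw st (tpw _ _) 0).N (H.indicator 1)

/-- a trivial form is almost integral at short directions -/
def RELB : Prop := ∀ (L C : Type) [Fintype L] [DecidableEq L] [Fintype C] [DecidableEq C]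
  (T : TT L C) (x : L) (y y' : C → ℤ) (G : Fm L C) (B t : ℝ), T.Ok → T.Dat univ {x} G →
  T.Rel univ {x} y 1 B G → (∀ c, x ∉ T.ty c → y' c = y c) → 0 < t →
  (∀ c, x ∈ T.ty c → |T.Φ (c0 x (zc y')) c| ≤ t) → ∃ k : ℤ, |G (c0 x (zc y')) - k| ≤ t * B

/-- `kap = ka` on the kept words -/
def KAP : Prop := ∀ (τ L : Type) [Fintype τ] [DecidableEq τ] [Fintype L] [DecidableEq L]
  (s d Q h h' ν : ℕ) (hs : 0 < s) (lt : τ → Fin (d + 2) × ℕ) (W : Finset (Finset τ)) (blk : τ → L)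
  (x : L) (g : τ → Option (Fin d × Fin Q)) (B : Bs L) (f : Fr B.T τ L)
  (D : Tan B.T f.T (Fin d × Fin Q)) (v v' : ℕ → Finset (Fin (d + 2)) → ℝ),
  Lay d Q lt W blk x g → B.Ok s h → f.Ok s h' → f.m = (fun _ => ν) → (∀ j A, 0 < v j A) →
  Xr g f.θ ν D.fam D.mon D.be → ∀ (y : f.T.Cw (R1 s d Q 1 v') → ℤ) ys zs, Rd lt W f.toBs v' y ys →
    Rd lt W B v ((D.rn (Sd.lt s d Q hs 1)).kap (R1 s d Q 1 v) y) zs →
    ka B W blk f (c0 x (zc ys)) = c0 x (zc zs)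

/-- short directions stay short -/
def SML : Prop := ∀ (s d Q M1 M2 : ℕ) (hs : 0 < s) (T1 T2 : TS Unit) (st1 : T1.C → ℕ)
  (st2 : T2.C → ℕ) (D : Tan T1 T2 (Fin d × Fin Q)) (v v' : ℕ → Finset (Fin (d + 2)) → ℝ)
  (X R t : ℝ) (y : T2.Cw (R1 s d Q 1 v') → ℤ), T1.Stg st1 M1 → T2.Stg st2 M2 →
  D.Ok (fun _ => 1) st1 st2 0 → D.Id → D.Nb X → (∀ j A, 0 < v j A ∧ 0 < v' j A) → 0 ≤ t →
  (∀ j A, 0 ∉ A → 1 ∈ A → R * v' j A ≤ t ^ 2) →
  qf (fb T2 (R1 s d Q 1 v') xw st2 (tpw T2 _) y).K⁻¹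
    (fun c => (T2.tw (R1 s d Q 1 v') (tpw T2 _)).u (zc y) c.1) ≤ R →
  (∀ c : T2.Cw (R1 s d Q 1 v'), xw c.1.2 → (T2.tw (R1 s d Q 1 v') (tpw T2 _)).u (zc y) c ^ 2 ≤
    R * (T2.K c.1.1 c.1.1 * v' (Wd.lv c.1.2) (bl (Wd.tr c.1.2)))) ∧
  ∀ c : T1.Cw (R1 s d Q 1 v), xw c.1.2 →
    |(T1.tw _ (tpw T1 _)).u (zc ((D.rn (Sd.lt s d Q hs 1)).kap (R1 s d Q 1 v) y)) c| ≤
      X * (s * #(grid (q1 d Q 1))) * Fintype.card T2.C * t

end Crest.Agent.N49.Sd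

end
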