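import Crest.Agent.N49.Tw.Defs

/-!
# Row 49 (helper60): bracket systems typed by clone letters
-/

set_option autoImplicit false

open MvPolynomial Finset

noncomputable section

namespace Crest.Agent.N49.Sd

/-- brackets `a : N` of word `wd a`; `Θ a` uses the coordinates and the brackets of lower rank -/
structure Bk (C Λ : Type) where
  N : Type
  [fin : Fintype N]
  [dec : DecidableEq N]
  wd : N → Λ →₀ ℕ
  rk : N → ℕ
  Θ : N → MvPolynomial (C ⊕ N) ℝ

attribute [instance] Bk.fin Bk.dec

theorem wt_le {V Λ : Type} {w : V → Λ →₀ ℕ} {P : MvPolynomial V ℝ} {n : Λ →₀ ℕ}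
    (h : P.IsWeightedHomogeneous w n) {v : V} (hv : v ∈ P.vars) : w v ≤ n := by
  classical
  obtain ⟨m, hm, k⟩ := (mem_vars_iff_mem_support v).1 hv
  rw [← h (mem_support_iff.1 hm), Finsupp.weight_apply, Finsupp.sum]
  refine le_trans ?_ (single_le_sum (f := fun i => m i • w i) (fun _ _ => zero_le) k)
  obtain ⟨j, e⟩ := Nat.exists_eq_succ_of_ne_zero (Finsupp.mem_support_iff.1 k)
  rw [e, succ_nsmul]
  exact le_add_self

theorem eval_congr {V : Type} {P : MvPolynomial V ℝ} {x x' : V → ℝ}
    (h : ∀ v ∈ P.vars, x v = x' v) : eval x P = eval x' P := by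
  classical
  exact eval₂Hom_congr' rfl (fun v hv _ => h v hv) rfl

namespace Bk

variable {C Λ : Type} (B : Bk C Λ)

/-- the words of all the variables -/
def wg (dg : C → Λ →₀ ℕ) : C ⊕ B.N → Λ →₀ ℕ := Sum.elim dg B.wd

/-- only brackets of lower rank occur -/
def Tri : Prop := ∀ a a', Sum.inr a' ∈ (B.Θ a).vars → B.rk a' < B.rk a

/-- typed systems -/
structure Ok (dg : C → Λ →₀ ℕ) : Prop where
  ne : ∀ a, B.wd a ≠ 0
  hom : ∀ a, (B.Θ a).IsWeightedHomogeneous (B.wg dg) (B.wd a)
  live : ∀ a c, Sum.inl c ∈ (B.Θ a).vars → dg c ≠ 0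
  tri : B.Tri

/-- iterated rounding -/
def omI (y : C → ℝ) : ℕ → B.N → ℤ
  | 0 => 0
  | k + 1 => fun a => round (eval (Sum.elim y fun a' => (omI y k a' : ℝ)) (B.Θ a))

/-- **the bracket functions** -/
def om (y : C → ℝ) (a : B.N) : ℤ := B.omI y (B.rk a + 1) a

/-- the point with its brackets -/
def lf (y : C → ℝ) : C ⊕ B.N → ℝ := Sum.elim y fun a => (B.om y a : ℝ)

/-- evaluation of a polynomial in coordinates and brackets -/
def ev (y : C → ℝ) (P : MvPolynomial (C ⊕ B.N) ℝ) : ℝ := eval (B.lf y) P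

/-- on `H` the rounding errors stay in cells of radius `ε` -/
def Cell (H : Set (C → ℤ)) (ε : ℝ) : Prop := ∃ o : B.N → ℝ, ∀ y ∈ H, ∀ a,
  |B.ev (fun c => (y c : ℝ)) (B.Θ a) - B.om (fun c => (y c : ℝ)) a - o a| ≤ ε

@[simp] theorem wg_inl (dg : C → Λ →₀ ℕ) (c : C) : B.wg dg (.inl c) = dg c := rfl
@[simp] theorem wg_inr (dg : C → Λ →₀ ℕ) (a : B.N) : B.wg dg (.inr a) = B.wd a := rfl
@[simp] theorem lf_inl (y : C → ℝ) (c : C) : B.lf y (.inl c) = y c := rfl
@[simp] theorem lf_inr (y : C → ℝ) (a : B.N) : B.lf y (.inr a) = B.om y a := rfl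

variable {B}

theorem Cell.mono {H H' : Set (C → ℤ)} {ε ε' : ℝ} (h : B.Cell H ε) (e : H' ⊆ H) (e' : ε ≤ ε') :
    B.Cell H' ε' := let ⟨o, k⟩ := h; ⟨o, fun y hy a => (k y (e hy) a).trans e'⟩

theorem Tri.omI_eq (h : B.Tri) (y : C → ℝ) : ∀ k a, B.rk a < k → B.omI y k a = B.om y a := by
  have : ∀ r a k k', B.rk a < r → B.rk a < k → B.rk a < k' → B.omI y k a = B.omI y k' a := by
    intro r
    induction r with
    | zero => intro a k k' h0; omega
    | succ r ih =>
      intro a k k' h0 h1 h2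
      obtain ⟨k, rfl⟩ := Nat.exists_eq_succ_of_ne_zero (by omega : k ≠ 0)
      obtain ⟨k', rfl⟩ := Nat.exists_eq_succ_of_ne_zero (by omega : k' ≠ 0)
      refine congrArg round (eval_congr fun v hv => ?_)
      cases v with
      | inl c => rfl
      | inr a' =>
        have := h a a' hv
        exact congrArg Int.cast (ih a' k k' (by omega) (by omega) (by omega))
  exact fun k a hk => this _ a k _ (Nat.lt_succ_self _) hk (Nat.lt_succ_self _)

theorem Tri.om_spec (h : B.Tri) (y : C → ℝ) (a : B.N) : B.om y a = round (B.ev y (B.Θ a)) := by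
  refine congrArg round (eval_congr fun v hv => ?_)
  cases v with
  | inl c => rfl
  | inr a' => exact congrArg Int.cast (h.omI_eq y _ a' (h a a' hv))

theorem Tri.abs_le (h : B.Tri) (y : C → ℝ) (a : B.N) : |B.ev y (B.Θ a) - B.om y a| ≤ 1 / 2 := by
  rw [h.om_spec]; exact abs_sub_round _

/-- the recursion determines the brackets -/
theorem Tri.om_uniq (h : B.Tri) (y : C → ℝ) {n : B.N → ℤ}
    (hn : ∀ a, n a = round (eval (Sum.elim y fun a' => (n a' : ℝ)) (B.Θ a))) : n = B.om y := by
  have : ∀ r a, B.rk a < r → n a = B.om y a := by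
    intro r
    induction r with
    | zero => intro a h0; omega
    | succ r ih =>
      intro a h0
      rw [hn, h.om_spec]
      refine congrArg round (eval_congr fun v hv => ?_)
      cases v with
      | inl c => rfl
      | inr a' =>
        have := h a a' hv
        exact congrArg Int.cast (ih a' (by omega))
  exact funext fun a => this _ a (Nat.lt_succ_self _)

/-- integers that are close to the forms are the brackets -/
theorem Tri.om_of_lt (h : B.Tri) (y : C → ℝ) {n : B.N → ℤ}
    (hn : ∀ a, |eval (Sum.elim y fun a' => (n a' : ℝ)) (B.Θ a) - n a| < 1 / 2) : n = B.om y :=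
  h.om_uniq y fun a => by
    have := abs_lt.1 (hn a)
    rw [eq_comm, round_eq, Int.floor_eq_iff]
    constructor <;> linarith

/-- the brackets are typed -/
theorem Ok.om_congr {dg : C → Λ →₀ ℕ} (h : B.Ok dg) {y y' : C → ℝ} {w : Λ →₀ ℕ}
    (e : ∀ c, dg c ≠ 0 → dg c ≤ w → y c = y' c) : ∀ a, B.wd a ≤ w → B.om y a = B.om y' a := by
  have : ∀ r a, B.rk a < r → B.wd a ≤ w → B.om y a = B.om y' a := by
    intro r
    induction r with
    | zero => intro a h0; omega
    | succ r ih =>
      intro a h0 hw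
      rw [h.tri.om_spec, h.tri.om_spec]
      refine congrArg round (eval_congr fun v hv => ?_)
      have k := (wt_le (h.hom a) hv).trans hw
      cases v with
      | inl c => exact e c (h.live a c hv) k
      | inr a' =>
        have := h.tri a a' hv
        exact congrArg Int.cast (ih a' (by omega) k)
  exact fun a => this _ a (Nat.lt_succ_self _)

/-- typed polynomials are typed functions -/
theorem Ok.ev_congr {dg : C → Λ →₀ ℕ} (h : B.Ok dg) {y y' : C → ℝ} {w : Λ →₀ ℕ}
    (e : ∀ c, dg c ≠ 0 → dg c ≤ w → y c = y' c) {P : MvPolynomial (C ⊕ B.N) ℝ}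
    (hP : P.IsWeightedHomogeneous (B.wg dg) w) (hl : ∀ c, Sum.inl c ∈ P.vars → dg c ≠ 0) :
    B.ev y P = B.ev y' P := eval_congr fun v hv => by
  have k := wt_le hP hv
  cases v with
  | inl c => exact e c (hl c hv) k
  | inr a => exact congrArg Int.cast (h.om_congr e a k)

/-- the law in which the brackets are free words of width one -/
def ext (T : Tw.TS Λ) (B : Bk T.C Λ) : Tw.TS Λ where
  C := T.C ⊕ B.N
  deg := B.wg T.deg
  Φ := Sum.elim (fun c => rename .inl (T.Φ c)) fun a => X (.inr a) - B.Θ a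
  K := Matrix.fromBlocks T.K 0 0 1

end Bk

end Crest.Agent.N49.Sd

end
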