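import Crest.Agent.N49.Sd.Ik
import Crest.Agent.N49.Md.Defs

/-!
# Row 49 (helper6): the stages along a frame (statements)
-/

set_option autoImplicit false

open Matrix MvPolynomial Finset

noncomputable section

namespace Crest.Agent.N49

open Po Tw

/-- a grading for which the tower is triangular up to the linear terms inside a stage -/
def Md.Gr (T : TS Unit) (st γ : T.C → ℕ) : Prop := (∀ c c', st c = st c' → γ c = γ c') ∧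
  ∀ c, ∀ m ∈ (T.Φ c).support, (∃ c', st c' = st c ∧ m = Finsupp.single c' 1) ∨
    ∀ c' ∈ m.support, γ c' < γ c

/-- **compatibility of a substitution with the stages** -/
structure Md.Tan.St {T1 T2 : TS Unit} {τ : Type} (θ : Md.Tan T1 T2 τ) (st1 : T1.C → ℕ)
    (st2 : T2.C → ℕ) : Prop where
  adq : ∀ (F : T1.C) (μ : T2.C →₀ ℕ) (g : T2.C → T1.C), (∀ G ∈ μ.support, θ.fam G = some (g G)) →
    Finsupp.weight (fun G => st1 (g G)) μ ≤ st1 F →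
    Finsupp.weight (fun G => T1.lev (g G)) μ < T1.lev F → Finsupp.weight st2 μ ≤ st2 (θ.top F)
  pu : ∀ F G, st2 G = st2 (θ.top F) ↔ ∃ F', G = θ.top F' ∧ st1 F' = st1 F
  gr : ∀ γ, Md.Gr T1 st1 γ → ∃ γ', Md.Gr T2 st2 γ' ∧ ∀ G F, θ.fam G = some F → γ' G = γ F

theorem Md.Tan.St.id' (T : TS Unit) (τ : Type) (st : T.C → ℕ) : (Md.Tan.id' T τ).St st st where
  adq F μ g h a _ := by
    refine le_trans (le_of_eq ?_) a
    simp only [Finsupp.weight_apply]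
    exact Finsupp.sum_congr fun G k => by rw [← Option.some.inj (h G k)]
  pu F G := ⟨fun e => ⟨G, rfl, e⟩, fun ⟨_, a, b⟩ => a ▸ b⟩
  gr γ h := ⟨γ, h, fun G F e => by rw [Option.some.inj e]⟩

namespace Sd

/-- composition -/
def STC : Prop := ∀ (τ : Type) (T1 T2 T3 : TS Unit) (θ : Md.Tan T1 T2 τ) (θ' : Md.Tan T2 T3 τ)
  (m : τ → ℤ) (x : ℝ) (st1 : T1.C → ℕ) (st2 : T2.C → ℕ) (st3 : T3.C → ℕ), θ.Ok x → θ.St st1 st2 →
  θ'.St st2 st3 → (θ.comp θ' m).St st1 st3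

/-- tangent frames -/
def STT : Prop := ∀ (τ L : Type) [Fintype τ] [DecidableEq τ] [Fintype L] [DecidableEq L]
  (B : Md.Bs L) (blk : τ → L) (lam : L → ℝ) (s : ℕ) (J : Finset L)
  (b : B.T.Cw (Md.bg blk lam s J) → ℤ) (h : ∀ c, 0 < B.T.lev c) (la' : L → ℝ) (m : L → ℕ),
  Old B.T B.st B.M s → (∀ l, 0 < lam l) →
  (Md.tf B blk lam s J b h la' m).θ.St B.st (Md.tf B blk lam s J b h la' m).st

/-- new families -/
def STN : Prop := ∀ (τ : Type) (T0 : TS Unit) (st0 : T0.C → ℕ) (M0 s : ℕ) (E : Nw T0)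
  (θ : Md.Tan T0 E.T τ), Old T0 st0 M0 s → E.Wf s →
  θ.fam = Sum.elim some (fun _ => none) → θ.top = Sum.inl → θ.St st0 (E.st st0 M0 s)

/-- the lower terms are admissible -/
def Tan.Adq {T1 T2 : TS Unit} {Lt : Type} (D : Tan T1 T2 Lt) (st1 : T1.C → ℕ) (st2 : T2.C → ℕ) :
    Prop := ∀ (F : T1.C) (μ : T2.C →₀ ℕ), (∀ G ∈ μ.support, D.mon G ≠ 0) →
  Finsupp.weight (fun G => st1 (D.fam G)) μ ≤ st1 F →
  Finsupp.weight (fun G => T1.lev (D.fam G)) μ < T1.lev F → Finsupp.weight st2 μ ≤ st2 (D.bs F)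

/-- `ITW` with `Adq` -/
def ITW2 : Prop := ∀ (τ : Type) (T1 T2 : TS Unit) (S : Sh Unit τ) (p : S.W → Prop)
  (st1 : T1.C → ℕ) (st2 : T2.C → ℕ) (M1 M2 : ℕ) (D : Tan T1 T2 S.W) (Ψ1 : T1.Twd S), S.Ok →
  T1.Stg st1 M1 → T2.Stg st2 M2 → D.Ok S.dg st1 st2 0 → D.Adq st1 st2 → D.Rid S →
  T1.Adm S st1 Ψ1 → (∀ y (c : T1.Cw S), p c.1.2 → (T1.tw S Ψ1).u y c = (T1.tw S (tpw T1 S)).u y c) →
  ∃ Ψ, T2.Adm S st2 Ψ ∧ ∀ y : T2.Cw S → ℝ,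
    (∀ c : T2.Cw S, c.1.1 ∉ Set.range D.bs ∨ p c.1.2 →
      (T2.tw S Ψ).u y c = (T2.tw S (tpw T2 S)).u y c) ∧
    (T1.tw S Ψ1).u (fun c => (S.cf ℤ c.1.2 (D.be c.1.1) : ℤ) + D.L S y c) =
      fun c => S.cf ℝ c.1.2 (D.bu c.1.1) + D.L S ((T2.tw S Ψ).u y) c

/-- `INS` with `Adq` -/
def INS2 : Prop := ∀ (τ : Type) (T1 T2 : TS Unit) (S : Sh Unit τ) (p : S.W → Prop) [DecidablePred p]
  (st1 : T1.C → ℕ) (st2 : T2.C → ℕ) (M1 M2 : ℕ) (D : Tan T1 T2 S.W) (Ψ1 : T1.Twd S)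
  (K2 K' : Matrix S.W S.W ℝ) (Y : Finset (Kc T2 S p → ℤ))
  (G : (Kc T2 S p → ℤ) → (T1.Cw S → ℤ) → ℝ) (B : ℝ), S.Ok → (S.setK K2).Ok → (S.setK K').Ok →
  S.Idl p → T1.Stg st1 M1 → T2.Stg st2 M2 → D.Ok S.dg st1 st2 0 → D.Adq st1 st2 → D.Rid S →
  T1.Adm S st1 Ψ1 → (∀ y (c : T1.Cw S), p c.1.2 → (T1.tw S Ψ1).u y c = (T1.tw S (tpw T1 S)).u y c) →
  (∀ u : T2.Cw S → ℝ, 2 * (qf (fb T2 (S.setK K2) p st2 (tpw T2 _) 0).K⁻¹ (fun c => u c.1) +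
    qf (fb T1 S (fun w => ¬ p w) st1 Ψ1 0).K⁻¹ fun c => D.L S u c.1) ≤
      qf (T2.kw S T2.K K')⁻¹ u) → (∀ b z, |G b z| ≤ B) →
  ∃ (Ψ : T2.Twd (S.setK K')) (r : T1.Cw S → ℤ), T2.Adm (S.setK K') st2 Ψ ∧
    (∀ c, p c.1.2 → r c = 0) ∧
    ∑ b ∈ Y, (fb T2 (S.setK K2) p st2 (tpw T2 _) 0).wt b / (fb T2 (S.setK K2) p st2 (tpw T2 _) 0).Zc *
        hid T1 S p st1 Ψ1 (D.kap S (gl T2 S p b 0)) (G b) ≤
      (T2.lw (S.setK K') st2 Ψ).N fun y =>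
        if (fun c : Kc T2 S p => y c.1) ∈ Y then G (fun c => y c.1) (r + D.kap S y) else 0

end Sd

end Crest.Agent.N49

end
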