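import Crest.Agent.N49.Sd.Stc
import Crest.Agent.N49.Un.Pre

/-!
# Row 49 (helper6): the end of a step in the top-word rings (statements)
-/

set_option autoImplicit false

open Matrix MvPolynomial Finset

noncomputable section

namespace Crest.Agent.N49.Sd

open Po Tw Br N49.Top Un

/-- whitened data: `T1.K = 1`, `T2.K` diagonal, bounded coefficients -/
def Tan.Nb {T1 T2 : TS Unit} {Lt : Type} (D : Tan T1 T2 Lt) (X : ℝ) : Prop :=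
  T1.K = 1 ∧ ∃ sc : T2.C → ℝ, T2.K = diagonal (fun G => sc G ^ 2) ∧
    ∀ G, sc G ≠ 0 ∧ |sc G| * l1 (MvPolynomial.map (Int.castRingHom ℝ) (D.mon G)) ≤ X

/-- the norm bound in a top-word ring -/
def NRM : Prop := ∀ (ι Lt : Type) [Fintype ι] [LinearOrder ι] (s : ℕ) (Dd : Finset (Pt ι))
  (V1 V2 : ℕ → Pt ι → ℝ) (T1 T2 : TS Unit) (D : Tan T1 T2 Lt) (f : Lt → Wd s Dd)
  (p : Wd s Dd → Prop) [DecidablePred p] (st1 : T1.C → ℕ) (st2 : T2.C → ℕ)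
  (Ψ1 : T1.Twd (Br.tw s Dd V1)) (Ψ2 : T2.Twd (Br.tw s Dd V2)) (X a lam : ℝ), D.Nb X → 0 < lam →
  (∀ j w, a ≤ V1 j w ∧ a ≤ V2 j w) →
  2 * lam * (1 + X ^ 2 * (s * #Dd) ^ 2 * Fintype.card T2.C) ≤ a →
  ∀ u : T2.Cw (Br.tw s Dd V1) → ℝ,
    2 * (qf (fb T2 (Br.tw s Dd V2) p st2 Ψ2 0).K⁻¹ (fun c => u c.1) +
      qf (fb T1 (Br.tw s Dd V1) (fun w => ¬ p w) st1 Ψ1 0).K⁻¹
        fun c => (D.rn f).L (Br.tw s Dd V1) u c.1) ≤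
      qf (T2.sh (Br.tw s Dd fun _ _ => lam)).K⁻¹ u

/-- the words without the first block -/
def KWT : Prop := ∀ (s d : ℕ) (Dd : Finset (Pt (Fin (d + 2)))) (V : ℕ → Pt (Fin (d + 2)) → ℝ),
  Dc Dd → (∀ j w, 0 < V j w) → (Br.tw s Dd V).Idl kw ∧ ∀ (T : TS Unit), T.Tri →
    ∀ y (c : T.Cw (Br.tw s Dd V)), kw c.1.2 →
      (T.tw _ (T.tw0 (Br.tw s Dd V))).u y c = (T.tw _ (tpw T (Br.tw s Dd V))).u y c

/-- the clones of the new grid -/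
def q0 (d Q n : ℕ) : Fin (d + 1) → ℕ := fun i => if i = 0 then n else Q

/-- the points seen from the new tower -/
def POS : Prop := ∀ (s d Q n N : ℕ) (T1 T2 : TS Unit) (st1 : T1.C → ℕ) (st2 : T2.C → ℕ)
  (v : ℕ → Finset (Fin (d + 2)) → ℝ) (D : Tan T1 T2 (R1 s d Q n v).W) (π : T1.C → ℤ) (c : ℤ)
  (A : Finset ℕ) (α lam : ℝ) (r : T1.Cw (R1 s d Q n v) → ℤ), (∀ j B, 0 < v j B) → T2.Tri →
  D.Ok (R1 s d Q n v).dg st1 st2 N → (∀ F, π F ≠ 0 → T1.lev F = 1) →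
  ∃ x : Pt (Fin (d + 1)) → ℤ, ∀ y : T2.Cw (R1 s d Q n v) → ℤ,
    PF T1 s (q1 d Q n) v (fun _ => fA ⟨T1, π, c⟩ A α) (r + D.kap _ y) =
      ∏ ω ∈ pts (q0 d Q n), fA ⟨T2, D.pi π, x ω⟩ A α (T2.pw (R1 s d Q n fun _ _ => lam)
        (chi (fun _ _ => lam) (Function.extend Fin.succ ω fun _ => some 0)) y)

/-- **the end of the step**, semantic form -/
def ENDA : Prop := ∀ (s d Q n M1 M2 C n' : ℕ) (hs : 0 < s) (T1 T2 : TS Unit) (st1 : T1.C → ℕ)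
  (st2 : T2.C → ℕ) (D : Tan T1 T2 (Fin d × Fin Q)) (v1 v2 : ℕ → Finset (Fin (d + 2)) → ℝ)
  (π : T1.C → ℤ) (c : ℤ) (A : Finset ℕ) (α : ℝ) (Bl : Set (T1.Cw (R1 s d Q 1 v1) → ℤ))
  (γ κ β R X a lam η : ℝ) (H : Set (Kc T2 (R1 s d Q 1 v2) zw → ℤ)), MAST M2 C → 0 < n →
  T1.Stg st1 M1 → T2.Stg st2 M2 → D.Ok (fun _ => 1) st1 st2 0 → D.Adq st1 st2 → D.Id → D.Nb X →
  (∀ F, π F ≠ 0 → T1.lev F = 1) → 0 < α → 0 < lam → (∀ j B, a ≤ v1 j B ∧ a ≤ v2 j B) →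
  2 * lam * (1 + X ^ 2 * (s * #(grid (q1 d Q n))) ^ 2 * Fintype.card T2.C) ≤ a →
  T2.RgS st2 M2 C n' lam η → 0 < η → η ≤ 1 / 2 → 1 ≤ n' → s * #(grid (q1 d Q n)) ≤ n' →
  0 ≤ γ → 0 ≤ κ → 0 < β → bz (Kc T2 (R1 s d Q 1 v2) xw) R ≤ 1 →
  Cell s d Q T1 st1 v1 (fA ⟨T1, π, c⟩ A α) Bl γ κ →
  β ≤ (fb T2 (R1 s d Q 1 v2) zw st2 (tpw T2 _) 0).N (H.indicator 1) →
  (∀ y : T2.Cw (R1 s d Q 1 v2) → ℤ, (fun c => y c.1) ∈ H →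
    qf (fb T2 (R1 s d Q 1 v2) xw st2 (tpw T2 _) y).K⁻¹
      (fun c => (T2.tw (R1 s d Q 1 v2) (tpw T2 _)).u (zc y) c.1) ≤ R →
    (D.rn (lt s d Q hs 1)).kap (R1 s d Q 1 v1) y ∈ Bl) →
  ∃ (Ψ : T2.Twd (R1 s d Q n fun _ _ => lam)) (x : Pt (Fin (d + 1)) → ℤ), T2.Adm _ st2 Ψ ∧
    β / 4 * κ * (γ * (1 - bz (Kc T2 (R1 s d Q 1 v2) xw) R)) ^ n ≤
      EP T2 (R1 s d Q n fun _ _ => lam) Ψ
        (fun ω => chi (fun _ _ => lam) (Function.extend Fin.succ ω fun _ => some 0))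
        (pts (q0 d Q n)) fun ω => fA ⟨T2, D.pi π, x ω⟩ A α

end Crest.Agent.N49.Sd

end
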