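import Crest.Agent.N49.Sd.Cor
import Crest.Agent.N49.Sd.Ed
import Crest.Agent.N49.Top.Zst
import Crest.Agent.N49.Top.Pl
import Crest.Agent.N49.Un.Visx

/-!
# Row 49 (helper20): the last link of a step
-/

set_option autoImplicit false

open Finset

namespace Crest.Agent.N49.Sd

open Po Tw Br N49.Top

/-- the state before the insertion -/
def Ea (s d : ℕ) (ε : ℝ) : Sta (Cx d) := fun c M n β Y => 0 < c.α ∧
  ∃ (hs : 0 < s) (Q M1 M2 : ℕ) (T1 T2 : TS Unit) (st1 : T1.C → ℕ) (st2 : T2.C → ℕ)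
    (D : Tan T1 T2 (Fin d × Fin Q)) (v1 v2 : ℕ → Finset (Fin (d + 2)) → ℝ) (π : T1.C → ℤ) (x : ℤ)
    (Bl : Set (T1.Cw (R1 s d Q 1 v1) → ℤ)) (γ R : ℝ) (H : Set (Kc T2 (R1 s d Q 1 v2) zw → ℤ)),
    T1.Stg st1 M1 ∧ T2.Stg st2 M2 ∧ M2 ≤ M ∧ D.Ok (fun _ => 1) st1 st2 0 ∧ D.Adq st1 st2 ∧ D.Id ∧
    D.Nb (2 ^ n) ∧ (∀ F, π F ≠ 0 → T1.lev F = 1) ∧ Co.Up s Y c.g.V.T c.g.V.π T2 (D.pi π) ∧
    1 ≤ Q ∧ Q ≤ n ∧ Fintype.card T2.C ≤ 2 ^ n ∧ (∀ j B, 1 / 2 ^ n ≤ v1 j B ∧ 1 / 2 ^ n ≤ v2 j B) ∧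
    T2.RgS st2 M2 1 β (1 / 2 ^ β) (1 / 2 ^ β) ∧ 0 ≤ γ ∧
    (1 + ε) ^ Q ^ d ≤ γ * (1 - bz (Kc T2 (R1 s d Q 1 v2) xw) R) ∧
    Cell s d Q T1 st1 v1 (fA ⟨T1, π, x⟩ c.A c.α) Bl γ (1 / 2 ^ n) ∧
    1 / 2 ^ n ≤ (fb T2 (R1 s d Q 1 v2) zw st2 (tpw T2 _) 0).N (H.indicator 1) ∧
    ∀ y : T2.Cw (R1 s d Q 1 v2) → ℤ, (fun c => y c.1) ∈ H →
      qf (fb T2 (R1 s d Q 1 v2) xw st2 (tpw T2 _) y).K⁻¹
        (fun c => (T2.tw (R1 s d Q 1 v2) (tpw T2 _)).u (zc y) c.1) ≤ R →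
      (D.rn (lt s d Q hs 1)).kap (R1 s d Q 1 v1) y ∈ Bl

variable {s d : ℕ} {ε : ℝ}

theorem mon_ea : Mon (Ea s d ε) := fun _ _ _ _ _ _ _ h k ⟨a0, hs, Q, M1, M2, T1, T2, st1, st2, D,
    v1, v2, π, x, Bl, γ, R, H, s1, s2, a1, a2, a3, a4, a5, a6, u, a7, a8, a9, a10, r, o⟩ =>
  ⟨a0, hs, Q, M1, M2, T1, T2, st1, st2, D, v1, v2, π, x, Bl, γ, R, H, s1, s2, a1, a2, a3, a4, a5,
    a6, u.mono k, a7, a8, a9, a10, Un.rg_mono s2 r h, o⟩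

theorem card_grid_le {ι : Type} [Fintype ι] [LinearOrder ι] {q : ι → ℕ} {b k : ℕ}
    (h : ∀ i, q i ≤ b) (hk : Fintype.card ι ≤ k) : #(grid q) ≤ (b + 1) ^ k := by
  rw [card_grid]
  exact (prod_le_pow_card _ _ _ fun i _ => Nat.add_le_add_right (h i) 1).trans
    (Nat.pow_le_pow_right (by omega) hk)

theorem clones (e0 : 0 < ε) : ∃ u, 1 ≤ u ∧ ∀ (n P : ℕ) (g : ℝ), 1 ≤ P → (1 + ε) ^ P ≤ g →
    (1 + ε / 2) ^ (u * (2 * n + 2) * P) ≤ 1 / 2 ^ n / 4 * (1 / 2 ^ n) * g ^ (u * (2 * n + 2)) := by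
  have r : 1 < (1 + ε) / (1 + ε / 2) := by rw [one_lt_div (by positivity)]; linarith
  obtain ⟨u, hu⟩ := pow_unbounded_of_one_lt 2 r
  refine ⟨u, Nat.pos_of_ne_zero fun e => by rw [e] at hu; norm_num at hu, fun n P g p h => ?_⟩
  have a : (2 : ℝ) ^ (2 * n + 2) ≤ ((1 + ε) / (1 + ε / 2)) ^ (u * (2 * n + 2) * P) :=
    ((pow_le_pow_left₀ zero_le_two hu.le _).trans_eq (pow_mul _ _ _).symm).trans
      (pow_le_pow_right₀ r.le (Nat.le_mul_of_pos_right _ p))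
  have b : (1 + ε) ^ (u * (2 * n + 2) * P) ≤ g ^ (u * (2 * n + 2)) := by
    rw [pow_mul']; exact pow_le_pow_left₀ (by positivity) h _
  rw [div_pow, le_div_iff₀ (by positivity)] at a
  have c : (1 : ℝ) / 2 ^ n / 4 * (1 / 2 ^ n) = (2 ^ (2 * n + 2))⁻¹ := by
    rw [pow_add, pow_mul']; field_simp; norm_num
  rw [c, ← div_eq_inv_mul, le_div_iff₀' (by positivity)]
  exact a.trans b

theorem lam_le {n G c l : ℕ} (hc : c ≤ 2 ^ n) (h : 4 * n + 2 * G + 2 ≤ l) :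
    2 * (1 / 2 ^ l : ℝ) * (1 + (2 ^ n) ^ 2 * G ^ 2 * c) ≤ 1 / 2 ^ n := by
  have a : (1 + (2 ^ n) ^ 2 * G ^ 2 * c) * 2 ≤ 2 ^ (3 * n + 2 * G + 2) := by
    have b := Nat.mul_le_mul (Nat.mul_le_mul_left ((2 ^ n) ^ 2)
      (Nat.pow_le_pow_left (Nat.lt_two_pow_self (n := G)).le 2)) hc
    have e : (2 ^ n) ^ 2 * (2 ^ G) ^ 2 * 2 ^ n = 2 ^ (3 * n + 2 * G) := by ring
    have f : 0 < 2 ^ (3 * n + 2 * G) := by positivity
    rw [pow_add 2 (3 * n + 2 * G) 2]; omega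
  have := Un.half_mul (a := n) (b := l) a (by omega)
  push_cast at this
  linarith

/-- **the last link** -/
theorem endl (he : ENDA) (hm : ∀ M, ∃ C, MAST M C) (e0 : 0 < ε) :
    Lk (Ea s d ε) (Out s d (ε / 2)) := fun M => by
  obtain ⟨C, hC⟩ := unif_C hm (fun _ _ _ => MAST.mono) M
  obtain ⟨u, u1, hu⟩ := clones e0
  obtain ⟨e, e1, h⟩ := (show Pl fun n => 4 * n + 2 * (s * (u * (2 * n + 2) + n + 1) ^ (d + 2)) + 2 +
    u * (2 * n + 2) by pl).ge 1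
  refine ⟨e, M, fun K' => ⟨(e + 1) * C + e * K' + e, fun c n Y n2 ⟨a0, hs, Q, M1, M2, T1, T2, st1,
    st2, D, v1, v2, π, x, Bl, γ, R, H, s1, s2, a1, a2, a3, a4, a5, a6, up, Q1, Qn, cd, hv, rg, g0,
    hg, ce, hH, bl⟩ => ?_⟩⟩
  have h := h n n2
  beta_reduce at h
  have hu := hu n _ _ (Nat.one_le_pow d Q Q1) hg
  have k1 : 1 ≤ u * (2 * n + 2) := Nat.mul_pos u1 (by omega)
  generalize u * (2 * n + 2) = k at h hu k1
  have G1 : s * #(grid (q1 d Q k)) ≤ s * (k + n + 1) ^ (d + 2) := Nat.mul_le_mul_left _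
    (card_grid_le (fun i => by unfold q1; split_ifs <;> omega) (by simp))
  have hq : ∀ i, 1 ≤ q0 d Q k i ∧ q0 d Q k i ≤ k + n := fun i => by unfold q0; split_ifs <;> omega
  have G0 : s * #(grid (q0 d Q k)) ≤ s * (k + n + 1) ^ (d + 2) := Nat.mul_le_mul_left _
    (card_grid_le (fun i => (hq i).2) (by simp))
  have b1 : bz (Kc T2 (R1 s d Q 1 v2) xw) R ≤ 1 := by
    by_contra z
    have := mul_nonneg g0 (sub_nonneg.2 (not_le.1 z).le)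
    have : (0 : ℝ) < (1 + ε) ^ Q ^ d := by positivity
    linarith
  obtain ⟨Ψ, y, ad, ex⟩ := he s d Q k M1 M2 C (n ^ e) hs T1 T2 st1 st2 D v1 v2 π x c.A c.α Bl γ _ _ R
    _ _ (1 / 2 ^ n ^ e) (1 / 2) H (hC _ a1) k1 s1 s2 a2 a3 a4 a5 a6 a0 (by positivity) hv
    (by exact_mod_cast lam_le (G := s * #(grid (q1 d Q k))) cd (by omega))
    (rg_of rg s2 (by omega) (Un.pw_one n2 e) (by omega) (ex_le (by omega) (by omega))
      (ex_half (by omega))) (by norm_num) le_rfl (by omega) (by omega) g0 (by positivity)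
    (by positivity) b1 ce hH bl
  obtain ⟨τ0, S0, χ0, vs, vm⟩ := Un.visx _ s (n ^ e) (q0 d Q k) (fun i => (hq i).1) hs (by omega)
  refine ⟨n ^ e, by omega, le_rfl, T2, D.pi π, st2, M2, q0 d Q k, _, _, _, _, S0, χ0, Ψ, y,
    up.mono (le_trans (by omega) (Nat.le_self_pow (by omega) _)), s2, a1,
    Un.rg_mono s2 rg (by rw [← pow_mul]; exact Un.pw_le n2 (by omega)),
    fun i => ⟨(hq i).1, (hq i).2.trans (by omega)⟩,
    tw_sz (dc_grid _) (by positivity) (fun _ _ => le_rfl) (by omega) (by omega), ad, vs,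
    vm _ Fin.succ (q1 d Q k) (fun _ _ => 1 / 2 ^ n ^ e) (Fin.succ_injective _) (fun i => by
      simp only [q1, q0, Fin.succ_ne_zero, if_false, ← Fin.succ_zero_eq_one, Fin.succ_inj])
      (fun i z => by
        rcases i.eq_zero_or_eq_succ with rfl | ⟨j, rfl⟩
        exacts [rfl, absurd ⟨j, rfl⟩ z]) (fun _ _ => by positivity) (by omega), le_trans ?_ ex⟩
  simpa [q0, Fin.prod_univ_succ, Fin.succ_ne_zero] using hu

end Crest.Agent.N49.Sd
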