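import Crest.Agent.N49.Sd.Fs
import Crest.Agent.N49.Sd.Edl
import Crest.Agent.N49.Mv.Defs
import Crest.Agent.N49.Md.Idf

/-!
# Row 49 (helper43): the links of the spine (FROZEN statements) and their glue
-/

set_option autoImplicit false

open Finset

noncomputable section

namespace Crest.Agent.N49.Sd

open Tw Rm Md Mv

/-- after the symmetrisation: symbols up to trivial forms -/
def PR (s d : ℕ) : Pp d := fun c f H n => ∃ (P : Bk f.T.C Unit) (q : ℕ)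
  (Pi : Fin c.D → Finset (Lx d c.Q) → MvPolynomial (Bk.ext f.T P).C ℝ), Pn f.toBs P n s ∧ 1 ≤ q ∧
  q ≤ 2 ^ n ∧ (∀ a U, (Pi a U).IsWeightedHomogeneous (Bk.ext f.T P).lev #U) ∧
  RP f.toBs (Wt d c.Q) bk 0 P H q n f.F Pi

/-- pending families of level at most `l` -/
def PS (d l : ℕ) : Pp d := fun c f H n => ∃ (P : Bk f.T.C Unit) (q : ℕ), Pn f.toBs P n l ∧ 1 ≤ q ∧
  q ≤ 2 ^ n ∧ RS f.toBs (Wt d c.Q) bk 0 P H q n f.F

variable (s d : ℕ)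

/-- the start -/
def OG : Prop := ∀ ε ε0 : ℝ, 0 < ε → 0 < ε0 → ∃ ε1 : ℝ, 0 < ε1 ∧ ε1 ≤ ε0 ∧
  Lk (In s d ε) (Os s ε1 (A0 s d))
/-- the top call -/
def TOPL : Prop := ∃ ε0 : ℝ, 0 < ε0 ∧ ∀ ε ≤ ε0, 0 < ε →
  Lk (Oa (s := s) ε (A0 s d)) (Oa ε (Fs s (MH d)))
/-- splitting, dilation, symmetrisation -/
def SYML : Prop := ∃ ε0 : ℝ, 0 < ε0 ∧ ∀ ε ≤ ε0, 0 < ε →
  Lk (Oa (s := s) ε (Fs s (MH d))) (Oa ε (Fs s (PR s d)))
/-- absorption of the symbols -/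
def ABSL : Prop := Lk (Fs s (PR s d)) (Fs s (PS d s))
/-- removal of the pending families -/
def MOVL : Prop := Lk (Fs s (PS d s)) (Fs s (RL d))
/-- the bridge to the last state -/
def ENDB : Prop := ∀ ε : ℝ, 0 < ε → ∃ ε' : ℝ, 0 < ε' ∧ Lk (Os s ε (Fs s (RL d))) (Ea s d ε')

variable {s d}

theorem Kx.wf {c : Kx d} (o : c.Ok s) : Wf s (Wt d c.Q) bk := Br.gW_wf o.ds

theorem mon_fs (P : Pp d) : Mon (Fs s P) :=
  fun _ _ _ _ _ _ _ a b ⟨o, e, f, H, k, m, r, t⟩ => ⟨o, e, f, H,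
    ⟨Idf.fr_mono o.ok.old.ok.toTri k.ok b, k.st, k.fw, k.C⟩, m,
    Un.rg_mono k.ok.old.stg r a, t⟩

theorem mon_a0 : Mon (A0 s d) := fun _ _ _ _ _ _ _ a _ ⟨o, e, m, r, t⟩ =>
  ⟨o, e, m, Un.rg_mono o.ok.old.stg r a, t⟩

theorem mon_oa {ε : ℝ} {A : Sta (Kx d)} (m : Mon A) : Mon (Oa (s := s) ε A) :=
  fun _ _ _ _ _ _ _ a b h => ⟨h.1, m _ _ _ _ _ _ _ a b h.2⟩

theorem mon_os {ε : ℝ} {A : Sta (Kx d)} (m : Mon A) : Mon (Os s ε A) :=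
  fun _ _ _ _ _ _ _ a b ⟨o, h, k⟩ => ⟨o, h, mon_oa m _ _ _ _ _ _ _ a b k⟩

theorem Lk.oa {ε : ℝ} {A B : Sta (Kx d)} (h : Lk A B) : Lk (Oa (s := s) ε A) (Oa ε B) := fun M => by
  obtain ⟨e, M', h⟩ := h M
  refine ⟨e, M', fun K' => (h K').imp fun K h o n Y h2 a => ?_⟩
  obtain ⟨n', b1, b2, b3⟩ := h o.cx n Y h2 a.2
  exact ⟨n', b1, b2, a.1, b3⟩

theorem Lk.os {ε : ℝ} {A B : Sta (Kx d)} (h : Lk (Oa (s := s) ε A) (Oa ε B)) :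
    Lk (Os s ε A) (Os s ε B) := fun M => by
  obtain ⟨e, M', h⟩ := h M
  refine ⟨e, M', fun K' => (h K').imp fun K h c n Y h2 ⟨o, a, b⟩ => ?_⟩
  obtain ⟨n', b1, b2, b3⟩ := h o n Y h2 b
  exact ⟨n', b1, b2, o, a, b3⟩

/-- **the spine** -/
theorem core (og : OG s d) (tp : TOPL s d) (sy : SYML s d) (ab : ABSL s d) (mv : MOVL s d)
    (eb : ENDB s d) (ea : ENDA) (hm : ∀ M, ∃ C, MAST M C) : Un.CORE s d := by
  refine core_of fun ε e0 => ?_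
  obtain ⟨a, a0, tp⟩ := tp
  obtain ⟨b, b0, sy⟩ := sy
  obtain ⟨ε1, c0, c1, og⟩ := og ε (min a b) e0 (lt_min a0 b0)
  obtain ⟨ε2, d0, eb⟩ := eb ε1 c0
  have k1 := (tp ε1 (c1.trans (min_le_left _ _)) c0).trans (sy ε1 (c1.trans (min_le_right _ _)) c0)
    (mon_oa mon_a0) (mon_oa (mon_fs _))
  have k2 := k1.trans (ab.trans mv (mon_fs _) (mon_fs _)).oa (mon_oa mon_a0) (mon_oa (mon_fs _))
  exact ⟨ε2 / 2, by positivity, ((og.trans k2.os mon_in (mon_os (mon_fs _))).trans eb mon_in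
    mon_ea).trans (endl ea hm d0) mon_in mon_out⟩

end Crest.Agent.N49.Sd

end
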