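import Crest.Agent.N49.Sd.Cor
import Crest.Agent.N49.Sd.Stc
import Crest.Agent.N49.Md.Fw
import Crest.Agent.N49.Br.Tg
import Crest.Agent.N49.Br.S1p
import Crest.Agent.N49.Co.Up
import Crest.Agent.N49.Un.Pre

/-!
# Row 49 (helper43): the contexts and the states of a step (FROZEN definitions)
-/

set_option autoImplicit false

open Matrix Finset

noncomputable section

namespace Crest.Agent.N49.Sd

open Po Tw Br Rm Md N49.Top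

/-- the letters: the marked letter `none` and `Q` clones in each of `d` blocks -/
abbrev Lx (d Q : ℕ) : Type := Gt d Q
/-- the blocks; `0` is the block of the marked letter -/
abbrev Lb (d : ℕ) : Type := Fin (d + 1)
/-- the block of a letter -/
abbrev bk {d Q : ℕ} : Lx d Q → Lb d := gk
/-- the transversal words -/
abbrev Wt (d Q : ℕ) : Finset (Finset (Lx d Q)) := gW d Q

/-- **contexts**: a base tower, a set, data on the fibres of the marked letter, a size -/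
structure Kx (d : ℕ) where
  Q : ℕ
  B : Bs (Lb d)
  H : Set (B.SC (Wt d Q) → ℤ)
  D : ℕ
  F : Fin D → Fm (Lb d) (B.SC (Wt d Q))
  n : ℕ

namespace Kx
variable {d : ℕ} (c : Kx d)

/-- frames over the base -/
abbrev Fr : Type 1 := Md.Fr c.B.T (Lx d c.Q) (Lb d)
/-- the symbol tower of the base -/
abbrev SY : TT (Lb d) (c.B.SC (Wt d c.Q)) := c.B.SY (Wt d c.Q) bk
variable {c}
/-- the coordinates of a frame -/
abbrev Fr.X (f : c.Fr) : Type := f.SC (Wt d c.Q)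
/-- its symbol tower -/
abbrev Fr.S (f : c.Fr) : TT (Lb d) f.X := f.SY (Wt d c.Q) bk
/-- its morphism -/
abbrev Fr.k (f : c.Fr) : (f.X ⊕ Lb d → ℝ) → c.B.SC (Wt d c.Q) ⊕ Lb d → ℝ :=
  ka c.B (Wt d c.Q) bk f
/-- the data seen from a frame -/
def Fr.F (f : c.Fr) (a : Fin c.D) : Fm (Lb d) f.X := fun p => c.F a (f.k p)

variable (c) in
structure Ok (s : ℕ) : Prop where
  ds : d + 1 ≤ s
  n2 : 2 ≤ c.n
  ok : c.B.Ok s c.n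
  τ : Fintype.card (Lx d c.Q) ≤ c.n
  C : Fintype.card c.B.T.C ≤ 2 ^ c.n
  D : c.D ≤ c.n
  dat : ∀ a, c.SY.Dat univ {0} (c.F a)

/-- valid frames: forward size `n`, cost `Y` -/
structure Fr.Fo (f : c.Fr) (s n Y : ℕ) : Prop where
  ok : f.Ok s Y
  st : f.θ.St c.B.st f.st
  fw : ∃ ν, f.Fw ν n
  C : Fintype.card f.T.C ≤ 2 ^ n
end Kx

/-- properties of a frame with a set -/
abbrev Pp (d : ℕ) : Type 1 := (c : Kx d) → (f : c.Fr) → Set (f.X → ℤ) → ℕ → Prop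

/-- **frame states** -/
def Fs (s : ℕ) {d : ℕ} (P : Pp d) : Sta (Kx d) := fun c M n β Y => c.Ok s ∧ c.n ≤ n ∧
  ∃ (f : c.Fr) (H : Set (f.X → ℤ)), f.Fo s n Y ∧ f.M ≤ M ∧ f.Rg 1 β (1 / 2 ^ β) (1 / 2 ^ β) ∧
    Rm.Sz n f.S H ∧ Ov f.k H c.H ∧ P c f H n

/-- the first state -/
def A0 (s d : ℕ) : Sta (Kx d) := fun c M n β _ => c.Ok s ∧ c.n = n ∧ c.B.M ≤ M ∧
  c.B.Rg 1 β (1 / 2 ^ β) (1 / 2 ^ β) ∧ Rm.Sz n c.SY c.H

/-- the output of the multi-homomorphism theorem -/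
def MH (d : ℕ) : Pp d := fun _ f H n => Mh f.S (univ.erase 0) {0} H n f.F

/-- the last property: the data are trivial on the fibres -/
def RL (d : ℕ) : Pp d := fun _ f H n => ∀ y ∈ H, ∀ a, f.S.Rel univ {0} y 1 (2 ^ n) (f.F a)

/-- **the origin**: a grid state, its whitened base, the output of the Kelley–Meka step -/
structure Og (s d : ℕ) where
  g : Gs (d + 1)
  Q : ℕ
  n : ℕ
  Nw : Matrix g.V.T.C g.V.T.C ℝ
  ρ : ℝ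
  h : Gc s g Q Nw ρ (2 ^ n)
  N : ℕ
  A : Finset ℕ
  α : ℝ
  cp : ℝ
  γ : ℝ
  W : Set (gS s g Q).Zc
  D : ℕ
  η : Fin D → (gS s g Q).Zc → (gS s g Q).I → ℝ

namespace Og
variable {s d : ℕ} (o : Og s d)

/-- the function on the points -/
def f : (o.g.V.T.C → ℤ) → ℝ := fA o.g.V o.A o.α
/-- the function on the fibre over `z` -/
def G (z : (gS s o.g o.Q).Zc) : ((gS s o.g o.Q).I → ℤ) → ℝ :=
  o.h.ok.av ((gS s o.g o.Q).eg (zp 0 1 fun _ => o.Q) o.f) z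
/-- the form on the fibre -/
def Mz (z : (gS s o.g o.Q).Zc) : Matrix (gS s o.g o.Q).I (gS s o.g o.Q).I ℝ := o.h.ok.M z
/-- the law of the location -/
def μ (z : (gS s o.g o.Q).Zc) : ((gS s o.g o.Q).I → ℤ) → ℝ := gd (o.cp • o.Mz z) (o.h.ok.ce z)
/-- the context -/
def cx : Kx d where
  Q := o.Q
  B := gBs o.g o.Nw o.ρ (2 ^ o.n)
  H := o.h.H o.W
  D := o.D
  F a := o.h.F (o.η a)
  n := 2 * o.n

/-- **valid origins** with excess `ε` -/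
structure Ok (ε : ℝ) : Prop where
  cx : o.cx.Ok s
  cs : Cs0 s o.N o.g.V o.g.c
  Q : 1 ≤ o.Q ∧ ε⁻¹ ≤ o.Q
  α : 0 < o.α
  ρ : 1 / 2 ^ o.n ≤ o.ρ ∧ o.ρ ≤ 1
  v : ∀ j B, 1 / 2 ^ o.n ≤ o.g.v j B ∧ o.g.v j B ≤ 1
  f : ∃ b : ℝ, 1 ≤ b ∧ b ^ o.Q ^ d ≤ 2 ^ o.n ∧ b ≤ 2 ^ o.n ∧ ∀ y, 0 ≤ o.f y ∧ o.f y ≤ b
  I : (Fintype.card (gS s o.g o.Q).I + 2) ^ 2 ≤ 2 ^ o.n
  cp : 1 / 8 ≤ o.cp ∧ o.cp ≤ 1
  γ : (1 + ε) ^ o.Q ^ d ≤ o.γ ∧ o.γ ≤ 2 ^ o.n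
  /-- plain witnesses -/
  sm : ∃ lam : ℝ, 1 ≤ lam ∧ lam ≤ 2 ^ o.n ∧ ∀ z ∈ o.W,
    th ((2 : ℝ) • lam • o.Mz z)⁻¹ 0 ≤ 11 / 10 ∧ ∃ S : Set ((gS s o.g o.Q).I → ℤ),
      1 / 2 ^ o.n ≤ ∑' p, S.indicator (gz (mp (o.Mz z) (o.Mz z)) (o.h.ok.ce z)) p ∧
      ∀ a, ∀ p ∈ S, 1 / 2 ^ o.n ≤ ‖∑' w, (gz (lam • o.Mz z) 0 w : ℂ) *
        (o.G z (p + w) * ee (-(o.η a z ⬝ᵥ zc w)))‖
  /-- robust witnesses -/
  wit : ∀ z ∈ o.W, ∀ a (σ : ((gS s o.g o.Q).I → ℤ) → ℝ), Pz σ →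
    (∀ ξ, σ ξ ≠ 0 → qf (o.Mz z) (zc ξ) ≤ 1 / 2 ^ (o.n / 4)) → 1 / 2 ^ o.n ≤ ∑' p, o.μ z p *
      ‖∑' ξ, (σ ξ : ℂ) * (o.G z (p + ξ) * ee (-(o.η a z ⬝ᵥ zc ξ)))‖
  /-- first moments -/
  up : ∀ z ∈ o.W, ∑' p, gd ((cw (gS s o.g o.Q).I * o.cp) • o.Mz z) (o.h.ok.ce z) p * o.G z p ≤
    2 ^ o.n
  /-- cells -/
  pw : ∀ z ∈ o.W, ∃ r : ((gS s o.g o.Q).I → ℤ) → ℝ, Pz r ∧ (∀ p, 1 / 2 ^ o.n * r p ≤ o.μ z p) ∧
    ∀ x, (∀ a, fr (o.η a z) x ≤ 1 / 2 ^ o.n) → qf (o.Mz z) (zc x) ≤ 1 / 2 ^ o.n →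
      o.γ ≤ ∑' p, r p * o.G z (p + x)
  Qn : o.Q ≤ o.n
end Og

/-- a state together with its origin -/
def Oa {s d : ℕ} (ε : ℝ) (A : Sta (Kx d)) : Sta (Og s d) :=
  fun o M n β Y => o.Ok ε ∧ A o.cx M n β Y

/-- the origin belongs to the context of the step -/
structure Og.Of {s d : ℕ} (o : Og s d) (c : Cx d) : Prop where
  N : o.N = c.N
  A : o.A = c.A
  α : o.α = c.α
  g : o.g = c.g

/-- **the states of the spine** -/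
def Os (s : ℕ) {d : ℕ} (ε : ℝ) (A : Sta (Kx d)) : Sta (Cx d) :=
  fun c M n β Y => ∃ o : Og s d, o.Of c ∧ Oa ε A o M n β Y

end Crest.Agent.N49.Sd

end
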