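import Crest.Agent.N49.Sd.Ed
import Crest.Agent.N49.Rn.L1
import Crest.Agent.N49.Tw.Sa

/-!
# Row 49 (helper11): the norm bound in a top-word ring (leaf NRM)
-/

set_option autoImplicit false

open Matrix MvPolynomial Finset

noncomputable section

namespace Crest.Agent.N49.Sd

open Po Tw Br

namespace Nr

theorem qf_dg {C : Type} [Fintype C] [DecidableEq C] {K : Matrix C C ℝ} {d : C → ℝ}
    (h : ∀ c c', K c c' = if c = c' then d c else 0) (hd : ∀ c, d c ≠ 0) (x : C → ℝ) :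
    qf K⁻¹ x = ∑ c, x c ^ 2 / d c := by
  have e : K⁻¹ = diagonal fun c => (d c)⁻¹ := by
    refine inv_eq_left_inv ?_
    rw [show K = diagonal d from Matrix.ext fun c c' => by rw [h, diagonal_apply],
      diagonal_mul_diagonal, ← diagonal_one]
    exact congrArg _ (funext fun c => inv_mul_cancel₀ (hd c))
  rw [e, qf, dotProduct]
  exact sum_congr rfl fun c _ => by rw [mulVec_diagonal]; ring

theorem sum_sub_le {C : Type} [Fintype C] (p : C → Prop) [DecidablePred p] {g : C → ℝ}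
    (h : ∀ c, 0 ≤ g c) : ∑ c : {c // p c}, g c.1 ≤ ∑ c, g c := by
  rw [← Fintype.sum_subtype_add_sum_subtype p g]
  exact le_add_of_nonneg_right (sum_nonneg fun _ _ => h _)

theorem cf_le {τ : Type} {S : Sh Unit τ} (h : ∀ w m, |S.r w m| ≤ 1) (w : S.W)
    (P : MvPolynomial S.W ℝ) : |S.cf ℝ w P| ≤ l1 P := by
  rw [Sh.cf_eq]
  refine (abs_sum_le_sum_abs _ _).trans (sum_le_sum fun m _ => ?_)
  rw [abs_mul]
  exact mul_le_of_le_one_right (abs_nonneg _) (by exact_mod_cast h w m)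

theorem L_le {τ : Type} {S : Sh Unit τ} (h : ∀ w m, |S.r w m| ≤ 1) {T1 T2 : TS Unit}
    (D : Tan T1 T2 S.W) {sc : T2.C → ℝ} {X : ℝ} (h0 : ∀ G, sc G ≠ 0)
    (hX : ∀ G, |sc G| * l1 (MvPolynomial.map (Int.castRingHom ℝ) (D.mon G)) ≤ X)
    (u : T2.Cw S → ℝ) (c : T1.Cw S) :
    |D.L S u c| ≤ ∑ c' : T2.Cw S with D.fam c'.1.1 = c.1.1, X * |u c' / sc c'.1.1| := by
  refine (cf_le h _ _).trans ((l1_sum _ _).trans ?_)
  rw [← sum_fiberwise_of_maps_to (s := univ.filter fun c' : T2.Cw S => D.fam c'.1.1 = c.1.1)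
    (t := univ.filter fun G => D.fam G = c.1.1) (g := fun c' => c'.1.1)
    fun c' k => mem_filter.2 ⟨mem_univ _, (mem_filter.1 k).2⟩]
  refine sum_le_sum fun G k => ?_
  rw [TS.Yw, mul_sum]
  refine (l1_sum _ _).trans (le_of_le_of_eq (sum_le_sum fun c' k' => ?_) (sum_congr ?_
    fun _ _ => rfl))
  · refine (l1_mul _ _).trans ?_
    rw [l1_C_mul, l1_X, mul_one]
    have e := (mem_filter.1 k').2
    have : |u c'| = |sc G| * |u c' / sc c'.1.1| := by
      rw [← abs_mul, e, mul_div_cancel₀ _ (h0 G)]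
    rw [this, ← mul_assoc, mul_comm (l1 _)]
    exact mul_le_mul_of_nonneg_right (hX G) (abs_nonneg _)
  · ext c'
    simp only [mem_filter, mem_univ, true_and]
    exact ⟨fun a => ⟨by rw [a]; exact (mem_filter.1 k).2, a⟩, fun a => a.2⟩

theorem L_sq {τ : Type} {S : Sh Unit τ} (h : ∀ w m, |S.r w m| ≤ 1) {T1 T2 : TS Unit}
    (D : Tan T1 T2 S.W) {sc : T2.C → ℝ} {X : ℝ} (h0 : ∀ G, sc G ≠ 0)
    (hX : ∀ G, |sc G| * l1 (MvPolynomial.map (Int.castRingHom ℝ) (D.mon G)) ≤ X)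
    (u : T2.Cw S → ℝ) : ∑ c, D.L S u c ^ 2 ≤ X ^ 2 * (Fintype.card S.W : ℝ) ^ 2 *
      Fintype.card T2.C * ∑ c', (u c' / sc c'.1.1) ^ 2 := by
  obtain ⟨g, hg⟩ : ∃ g : T1.C → ℝ, g = fun F => ∑ c' : T2.Cw S with D.fam c'.1.1 = F,
      (u c' / sc c'.1.1) ^ 2 := ⟨_, rfl⟩
  have g0 : ∀ F, 0 ≤ g F := fun F => hg ▸ sum_nonneg fun _ _ => sq_nonneg _
  have hc : (Fintype.card (T2.Cw S) : ℝ) ≤ Fintype.card T2.C * Fintype.card S.W := by
    exact_mod_cast (Fintype.card_subtype_le _).trans_eq (Fintype.card_prod _ _)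
  have h1 : ∀ c : T1.Cw S, D.L S u c ^ 2 ≤
      X ^ 2 * (Fintype.card T2.C * Fintype.card S.W) * g c.1.1 := fun c => by
    rw [← sq_abs]
    refine (pow_le_pow_left₀ (abs_nonneg _) (L_le h D h0 hX u c) 2).trans ?_
    rw [← mul_sum, mul_pow, mul_assoc]
    refine mul_le_mul_of_nonneg_left (sq_sum_le_card_mul_sum_sq.trans ?_) (sq_nonneg _)
    simp only [sq_abs, hg]
    exact mul_le_mul_of_nonneg_right (le_trans (by exact_mod_cast card_le_univ _) hc)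
      (sum_nonneg fun _ _ => sq_nonneg _)
  refine (sum_le_sum fun c _ => h1 c).trans ?_
  rw [← mul_sum]
  have h2 : ∑ c : T1.Cw S, g c.1.1 ≤ Fintype.card S.W * ∑ c', (u c' / sc c'.1.1) ^ 2 := by
    refine (sum_sub_le _ (g := fun c : T1.C × S.W => g c.1) fun c => g0 _).trans_eq ?_
    rw [Fintype.sum_prod_type]
    simp only [sum_const, card_univ, nsmul_eq_mul, ← mul_sum, hg]
    rw [sum_fiberwise]
  refine (mul_le_mul_of_nonneg_left h2 (by positivity)).trans_eq (by ring)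

section
variable {τ : Type} {S : Sh Unit τ} {V : S.W → ℝ} {T : TS Unit} {d : T.C → ℝ}

theorem sh_K (hS : S.K = diagonal V) (hT : T.K = diagonal d) (c c' : T.Cw S) :
    (T.sh S).K c c' = if c = c' then d c.1.1 * V c.1.2 else 0 := by
  change T.K c.1.1 c'.1.1 * S.K c.1.2 c'.1.2 = _
  rw [hS, hT, diagonal_apply, diagonal_apply, ite_zero_mul_ite_zero]
  exact if_congr (Prod.ext_iff.symm.trans Subtype.ext_iff.symm) rfl rfl

theorem qf_sh (hS : S.K = diagonal V) (hT : T.K = diagonal d) (hV : ∀ w, V w ≠ 0)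
    (hd : ∀ F, d F ≠ 0) (u : T.Cw S → ℝ) :
    qf (T.sh S).K⁻¹ u = ∑ c, u c ^ 2 / (d c.1.1 * V c.1.2) :=
  qf_dg (C := T.Cw S) (sh_K hS hT) (fun _ => mul_ne_zero (hd _) (hV _)) u

theorem qf_fb_le (hS : S.K = diagonal V) (hT : T.K = diagonal d) {a : ℝ} (a0 : 0 < a)
    (hV : ∀ w, a ≤ V w) (hd : ∀ F, 0 < d F) (p : S.W → Prop) [DecidablePred p] (st : T.C → ℕ)
    (Ψ : T.Twd S) (b : T.Cw S → ℤ) (u : T.Cw S → ℝ) :
    qf (fb T S p st Ψ b).K⁻¹ (fun c => u c.1) ≤ (∑ c, u c ^ 2 / d c.1.1) / a := by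
  refine (qf_dg (C := Kc T S p) (d := fun c => d c.1.1.1 * V c.1.1.2)
    (fun c c' => (sh_K hS hT c.1 c'.1).trans (if_congr Subtype.ext_iff.symm rfl rfl))
    (fun c => mul_ne_zero (hd _).ne' (a0.trans_le (hV _)).ne') _).trans_le ?_
  rw [sum_div]
  refine le_trans (sum_le_sum fun c _ => ?_) (sum_sub_le (C := T.Cw S)
    (fun c => p c.1.2) (g := fun c => u c ^ 2 / d c.1.1 / a) fun c => by
      have := hd c.1.1; positivity)
  rw [← div_div]
  exact div_le_div_of_nonneg_left (div_nonneg (sq_nonneg _) (hd _).le) a0 (hV _)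
end

end Nr
open Nr

theorem nrm : NRM := by
  intro ι Lt _ _ s Dd V1 V2 T1 T2 D f p _ st1 st2 Ψ1 Ψ2 X a lam ⟨hK1, sc, hK2, hs⟩ hl hV ha u
  have a0 : 0 < a := lt_of_lt_of_le (by positivity) ha
  obtain ⟨N, hN⟩ : ∃ N, N = ∑ c', (u c' / sc c'.1.1) ^ 2 := ⟨_, rfl⟩
  have N0 : 0 ≤ N := hN ▸ sum_nonneg fun _ _ => sq_nonneg _
  have d0 : ∀ G, 0 < sc G ^ 2 := fun G => sq_pos_of_ne_zero (hs G).1
  have e0 : qf (T2.sh (Br.tw s Dd fun _ _ => lam)).K⁻¹ u = N / lam := by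
    refine (qf_sh (S := Br.tw s Dd fun _ _ => lam) rfl hK2 (fun _ => hl.ne') (fun G => (d0 G).ne')
      u).trans ?_
    rw [hN, sum_div]
    exact sum_congr rfl fun c _ => by rw [div_pow, div_div]
  have e1 : qf (fb T2 (Br.tw s Dd V2) p st2 Ψ2 0).K⁻¹ (fun c => u c.1) ≤ N / a := by
    refine (qf_fb_le (S := Br.tw s Dd V2) rfl hK2 a0 (fun _ => (hV _ _).2) d0 p st2 Ψ2 0
      u).trans_eq ?_
    simp only [hN, div_pow]
    rfl
  have hW : (Fintype.card (Wd s Dd) : ℝ) ≤ s * #Dd := by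
    exact_mod_cast (Fintype.card_subtype_le _).trans_eq (by simp)
  have e2 : qf (fb T1 (Br.tw s Dd V1) (fun w => ¬ p w) st1 Ψ1 0).K⁻¹
      (fun c => (D.rn f).L (Br.tw s Dd V1) u c.1) ≤
      X ^ 2 * (s * #Dd) ^ 2 * Fintype.card T2.C * N / a := by
    refine (qf_fb_le (S := Br.tw s Dd V1) rfl (hK1.trans diagonal_one.symm) a0
      (fun _ => (hV _ _).1) (fun _ => one_pos) (fun w => ¬ p w) st1 Ψ1 0 _).trans ?_
    simp only [div_one]
    refine div_le_div_of_nonneg_right ((L_sq (S := Br.tw s Dd V1) (fun w m => ?_) (D.rn f)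
      (fun G => (hs G).1) (fun G => le_trans ?_ (hs G).2) u).trans ?_) a0.le
    · change |if Rr w m then (1 : ℤ) else 0| ≤ 1
      split_ifs <;> simp
    · change _ * l1 (MvPolynomial.map _ (rename f (D.mon G))) ≤ _
      rw [map_rename]
      exact mul_le_mul_of_nonneg_left (l1_rename _ _) (abs_nonneg _)
    · rw [← hN]
      gcongr
  rw [e0, le_div_iff₀ hl]
  calc _ ≤ 2 * (N / a + X ^ 2 * (s * #Dd) ^ 2 * Fintype.card T2.C * N / a) * lam := by gcongr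
    _ = 2 * lam * (1 + X ^ 2 * (s * #Dd) ^ 2 * Fintype.card T2.C) * N / a := by ring
    _ ≤ a * N / a := by gcongr
    _ = N := mul_div_cancel_left₀ _ a0.ne'

end Crest.Agent.N49.Sd

end
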