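import Crest.Agent.N49.Sd.Ins

/-!
# Row 49 (helper68): the tangent identity in the ring of a shape (`TANR`)
-/

set_option autoImplicit false

open Matrix MvPolynomial Finset

noncomputable section

namespace Crest.Agent.N49.Sd

open Po Tw

namespace Tr

variable {τ : Type} {S : Sh Unit τ}

/-- the relations of the ring of a shape -/
def kr (o : S.Ok) : Ideal (MvPolynomial S.W ℝ) where
  carrier := {P | coeff 0 P = 0 ∧ ∀ w, S.cf ℝ w P = 0}
  add_mem' := fun a b => ⟨by rw [coeff_add, a.1, b.1, add_zero],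
    fun w => by rw [map_add, a.2, b.2, add_zero]⟩
  zero_mem' := ⟨coeff_zero _, fun _ => map_zero _⟩
  smul_mem' := fun Q P a => by
    rw [smul_eq_mul, mul_comm]
    refine ⟨?_, fun w => ?_⟩
    · rw [← constantCoeff_eq, map_mul, constantCoeff_eq, a.1, zero_mul]
    · rw [o.cf_mul, a.1, zero_mul, zero_add]
      exact sum_eq_zero fun w' _ => by rw [a.2, zero_mul]

theorem cf_cg (o : S.Ok) {P Q : MvPolynomial S.W ℝ}
    (h : Ideal.Quotient.mk (kr o) P = Ideal.Quotient.mk (kr o) Q) (w : S.W) :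
    S.cf ℝ w P = S.cf ℝ w Q := by
  rw [← sub_eq_zero, ← map_sub]; exact (Ideal.Quotient.eq.1 h).2 w

theorem unit_ext {a b : Unit →₀ ℕ} (h : a.degree = b.degree) : a = b := by
  rw [Finsupp.unique_single a, Finsupp.unique_single b] at h ⊢
  simp only [Finsupp.degree_single] at h
  rw [h]

theorem cf_off (o : S.Ok) {P : MvPolynomial S.W ℝ} {n : ℕ} (h : P.IsWeightedHomogeneous S.dg n)
    {w : S.W} (e : S.dg w ≠ n) : S.cf ℝ w P = 0 := of_not_not fun z => by
  obtain ⟨m, a, b⟩ := Sh.cf_ne z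
  exact e ((o.gr_dg b).symm.trans (h a))

/-- a homogeneous element is congruent to its reduction -/
theorem red (o : S.Ok) {T : TS Unit} (h : T.Tri) {Z : T.C → MvPolynomial S.W ℝ}
    (hZ : ∀ F, (Z F).IsWeightedHomogeneous S.dg (T.lev F)) (F : T.C) :
    Ideal.Quotient.mk (kr o) (T.Yw S (fun p => S.cf ℝ p.1.2 (Z p.1.1)) F) =
      Ideal.Quotient.mk (kr o) (Z F) := by
  have l : Finsupp.weight S.dg (0 : S.W →₀ ℕ) ≠ T.lev F := fun e =>
    h.ne F ((Finsupp.degree_eq_zero_iff _).1 (e.symm.trans (map_zero _)))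
  refine Ideal.Quotient.eq.2 ⟨?_, fun w => ?_⟩
  · rw [coeff_sub, (TS.Yw_dg _ F).coeff_eq_zero _ l, (hZ F).coeff_eq_zero _ l, sub_zero]
  · rw [map_sub, sub_eq_zero]
    by_cases e : S.dg w = T.lev F
    · exact TS.cf_Yw o _ ⟨(F, w), unit_ext ((Sh.cd_degree w).trans e)⟩
    · rw [cf_off o (TS.Yw_dg _ F) e, cf_off o (hZ F) e]

theorem ev_cg {R C : Type} [CommRing R] (I : Ideal R) {Y Z : C → R}
    (h : ∀ c, Ideal.Quotient.mk I (Y c) = Ideal.Quotient.mk I (Z c)) (P : MvPolynomial C R) :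
    Ideal.Quotient.mk I (eval Y P) = Ideal.Quotient.mk I (eval Z P) := by
  induction P using MvPolynomial.induction_on with
  | C a => simp
  | add p q a b => simp only [map_add, a, b]
  | mul_X p c a => simp only [map_mul, a, eval_X, h]

theorem hom_rn {A B R : Type} [CommRing R] (f : A → B) {w : B → ℕ} {P : MvPolynomial A R} {n : ℕ}
    (h : P.IsWeightedHomogeneous (fun a => w (f a)) n) : (rename f P).IsWeightedHomogeneous w n :=
  fun m z => by
    obtain ⟨u, rfl, k⟩ := coeff_rename_ne_zero f P m z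
    rw [TS.weight_map]; exact h k

theorem hom_map {A : Type} {w : A → ℕ} {P : MvPolynomial A ℤ} {n : ℕ}
    (h : P.IsWeightedHomogeneous w n) :
    (MvPolynomial.map (Int.castRingHom ℝ) P).IsWeightedHomogeneous w n := fun m z =>
  h fun e => z (by rw [coeff_map, e, map_zero])

theorem hom_ev {C A : Type} {w : A → ℕ} {l : C → ℕ} {P : MvPolynomial C ℝ} {n : ℕ}
    (h : P.IsWeightedHomogeneous l n) {Y : C → MvPolynomial A ℝ}
    (hY : ∀ c, (Y c).IsWeightedHomogeneous w (l c)) :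
    (eval Y (MvPolynomial.map MvPolynomial.C P)).IsWeightedHomogeneous w n := by
  rw [eval_map, eval₂_eq]
  refine IsWeightedHomogeneous.sum _ _ _ fun m hm => ?_
  rw [← h (mem_support_iff.1 hm), ← zero_add (Finsupp.weight l m)]
  refine (isWeightedHomogeneous_C w _).mul ?_
  rw [Finsupp.weight_apply, Finsupp.sum]
  exact IsWeightedHomogeneous.prod _ _ _ fun c _ => (hY c).pow _

variable {Lt : Type} {T1 T2 : TS Unit} {D : Tan T1 T2 Lt} {st1 : T1.C → ℕ} {st2 : T2.C → ℕ} {s : ℕ}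

theorem ok_rn {Lt' : Type} (f : Lt → Lt') {dg : Lt' → ℕ} (h : D.Ok (fun t => dg (f t)) st1 st2 s) :
    (D.rn f).Ok dg st1 st2 s :=
  have z : ∀ G, (D.rn f).mon G ≠ 0 → D.mon G ≠ 0 := fun G a e =>
    a (show rename f (D.mon G) = 0 by rw [e, map_zero])
  { hm := fun G => hom_rn f (h.hm G)
    le := fun G a => h.le G (z G a)
    hb := fun F => hom_rn f (h.hb F)
    hu := fun F => hom_rn f (h.hu F)
    fb := h.fb
    mb := fun F => show rename f (D.mon (D.bs F)) = _ by rw [h.mb, rename_C]; rfl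
    np := h.np
    lb := h.lb
    ab := h.ab
    sg := fun F G a => h.sg F G (z G a)
    g0 := h.g0
    g1 := h.g1
    g2 := fun G a => h.g2 G (z G a) }

theorem id_hom (h : D.Id) {R : Type} [CommRing R] (ρ : MvPolynomial T2.C (MvPolynomial Lt ℝ) →+* R)
    (F : T1.C) : eval₂ (ρ.comp (MvPolynomial.C.comp MvPolynomial.C))
      (fun F' => ρ (MvPolynomial.C (MvPolynomial.map (Int.castRingHom ℝ) (D.be F'))) +
        ∑ G with D.fam G = F',
          ρ (MvPolynomial.C (MvPolynomial.map (Int.castRingHom ℝ) (D.mon G))) * ρ (X G))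
      (T1.tΦ F) = ρ (MvPolynomial.C (D.bu F)) + ∑ G with D.fam G = F,
        ρ (MvPolynomial.C (MvPolynomial.map (Int.castRingHom ℝ) (D.mon G))) *
          ρ (MvPolynomial.map MvPolynomial.C (T2.tΦ G)) := by
  have k : eval₂ (MvPolynomial.C.comp MvPolynomial.C)
      (fun F' => MvPolynomial.C (MvPolynomial.map (Int.castRingHom ℝ) (D.be F')) +
        ∑ G with D.fam G = F', MvPolynomial.C (MvPolynomial.map (Int.castRingHom ℝ) (D.mon G)) * X G)
      (T1.tΦ F) = (MvPolynomial.C (D.bu F) + ∑ G with D.fam G = F,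
        MvPolynomial.C (MvPolynomial.map (Int.castRingHom ℝ) (D.mon G)) *
          MvPolynomial.map MvPolynomial.C (T2.tΦ G) : MvPolynomial T2.C (MvPolynomial Lt ℝ)) := h F
  have := congrArg ρ k
  rw [eval₂_comp_left] at this
  simpa only [Function.comp_def, map_add, map_sum, map_mul] using this

theorem id_rn {Lt' : Type} (f : Lt → Lt') (h : D.Id) : (D.rn f).Id := fun F => by
  obtain ⟨ρ, e, k⟩ : ∃ ρ : MvPolynomial Lt ℝ →+* MvPolynomial Lt' ℝ,
      ρ.comp MvPolynomial.C = MvPolynomial.C ∧ ∀ P, ρ P = rename f P :=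
    ⟨(rename (R := ℝ) f).toRingHom, by ext1 a; simp, fun _ => rfl⟩
  have := id_hom h (MvPolynomial.map ρ) F
  have e' : (MvPolynomial.map (σ := T2.C) ρ).comp
      (MvPolynomial.C.comp MvPolynomial.C) = MvPolynomial.C.comp MvPolynomial.C := by
    ext1 a; simp [k]
  simp only [e', MvPolynomial.map_map, e, map_C, map_X, k, ← map_rename] at this
  exact this

/-- tangent data with letters in the ring -/
theorem rid {D : Tan T1 T2 S.W} (o : S.Ok) (h1 : T1.Tri) (h2 : T2.Tri) (h : D.Ok S.dg st1 st2 s)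
    (e : D.Id) : D.Rid S := fun y => by
  refine funext fun p : T1.Cw S => ?_
  let Z : T1.C → MvPolynomial S.W ℝ := fun F => MvPolynomial.map (Int.castRingHom ℝ) (D.be F) +
    ∑ G with D.fam G = F, MvPolynomial.map (Int.castRingHom ℝ) (D.mon G) * T2.Yw S y G
  have hZ : ∀ F, (Z F).IsWeightedHomogeneous S.dg (T1.lev F) := fun F => by
    refine (hom_map (h.hb F)).add (IsWeightedHomogeneous.sum _ _ _ fun G hG => ?_)
    by_cases z : D.mon G = 0
    · rw [z, map_zero, zero_mul]; exact isWeightedHomogeneous_zero _ _ _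
    · rw [← (mem_filter.1 hG).2, ← Nat.sub_add_cancel (h.le G z)]
      exact (hom_map (h.hm G)).mul (TS.Yw_dg y G)
  have a : (fun p : T1.Cw S => ((S.cf ℤ p.1.2 (D.be p.1.1) : ℤ) : ℝ) + D.L S y p) =
      fun p => S.cf ℝ p.1.2 (Z p.1.1) := funext fun p => by
    rw [map_add, Sh.cf_map]; rfl
  have b : (T2.tw S (tpw T2 S)).u y = fun q : T2.Cw S =>
      S.cf ℝ q.1.2 (eval (T2.Yw S y) (tpw T2 S q.1.1)) := funext fun q => TS.tw_u y q
  have c : eval Z (tpw T1 S p.1.1) = D.bu p.1.1 + ∑ G with D.fam G = p.1.1,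
      MvPolynomial.map (Int.castRingHom ℝ) (D.mon G) * eval (T2.Yw S y) (tpw T2 S G) := by
    have := id_hom e (eval (T2.Yw S y)) p.1.1
    have e' : (eval (T2.Yw S y)).comp (MvPolynomial.C.comp MvPolynomial.C) =
        (MvPolynomial.C : ℝ →+* _) := by ext1 a; simp
    simp only [e', eval_C, eval_X] at this
    exact (eval_map _ _ _).trans this
  refine (congrArg (fun z => (T1.tw S (tpw T1 S)).u z p) a).trans ((TS.tw_u _ p).trans ?_)
  rw [Tan.L, ← map_add, b]
  refine cf_cg o ?_ _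
  rw [ev_cg _ (red o h1 hZ), c]
  simp only [map_add, map_sum, map_mul]
  exact congrArg _ (sum_congr rfl fun G _ => congrArg _ (red o h2
    (Z := fun G => eval (T2.Yw S y) (tpw T2 S G))
    (fun G => hom_ev (T2.top_hom G) (TS.Yw_dg y)) G).symm)

end Tr

theorem tanr : TANR := fun _ _ _ _ _ _ f _ _ _ o h1 h2 h =>
  ⟨Tr.ok_rn f h, fun e => Tr.rid o h1 h2 (Tr.ok_rn f h) (Tr.id_rn f e)⟩

end Crest.Agent.N49.Sd

end
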