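import Crest.Agent.N49.Sd.Stc

/-!
# Row 49 (helper16): stages along a composition
-/

set_option autoImplicit false

open Finset

noncomputable section

namespace Crest.Agent.N49.Sd

open Po Tw

namespace Sc

theorem w_map {α β : Type} (g : α → β) (w : β → ℕ) (μ : α →₀ ℕ) :
    Finsupp.weight w (μ.mapDomain g) = Finsupp.weight (fun a => w (g a)) μ := by
  simp only [Finsupp.weight_apply]
  exact Finsupp.sum_mapDomain_index (by simp) fun _ _ _ => add_smul _ _ _

theorem w_le {α : Type} {w w' : α → ℕ} {μ : α →₀ ℕ} (h : ∀ a ∈ μ.support, w a ≤ w' a) :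
    Finsupp.weight w μ ≤ Finsupp.weight w' μ := by
  simp only [Finsupp.weight_apply]
  exact sum_le_sum fun a k => Nat.mul_le_mul_left _ (h a k)

end Sc

open Sc in
/-- **STC** -/
theorem stc : STC := by
  classical
  intro τ T1 T2 T3 θ θ' m x st1 st2 st3 ok h h'
  refine ⟨fun F μ g hg a b => ?_, fun F G => ?_, fun γ k => ?_⟩
  · let g' : T3.C → T2.C := fun G => (θ'.fam G).getD (θ.top F)
    have e : ∀ G ∈ μ.support, θ'.fam G = some (g' G) ∧ θ.fam (g' G) = some (g G) := fun G k => by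
      obtain ⟨G', p, q⟩ := Option.bind_eq_some_iff.1 (hg G k)
      simp only [g', p, Option.getD_some, q, and_self]
    refine h'.adq (θ.top F) μ g' (fun G k => (e G k).1) ?_ ?_
    · rw [← w_map]
      refine h.adq F _ (fun G => (θ.fam G).getD F) (fun G k => ?_) ?_ ?_
      · obtain ⟨G', p, rfl⟩ := mem_image.1 (Finsupp.mapDomain_support k)
        rw [(e G' p).2, Option.getD_some]
      · rw [w_map]
        exact (w_le fun G k => by rw [(e G k).2, Option.getD_some]).trans a
      · rw [w_map]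
        exact (w_le fun G k => by rw [(e G k).2, Option.getD_some]).trans_lt b
    · rw [(ok.top F).2.2.2]
      exact (w_le fun G k => (ok.le _ _ (e G k).2).1).trans_lt b
  · refine (h'.pu _ G).trans ⟨fun ⟨F₂, p, q⟩ => ?_, fun ⟨F', p, q⟩ => ⟨_, p, (h.pu _ _).2 ⟨_, rfl, q⟩⟩⟩
    obtain ⟨F', rfl, r⟩ := (h.pu _ _).1 q
    exact ⟨F', p, r⟩
  · obtain ⟨γ', p, q⟩ := h.gr γ k
    obtain ⟨γ'', p', q'⟩ := h'.gr γ' p
    refine ⟨γ'', p', fun G F e => ?_⟩
    obtain ⟨G', a, b⟩ := Option.bind_eq_some_iff.1 e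
    rw [q' G G' a, q G' F b]

end Crest.Agent.N49.Sd

end
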