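import Crest.Agent.N49.Un.Defs
import Crest.Agent.N49.Ho.Adm
import Crest.Agent.N49.Ho.Grid
import Crest.Agent.N49.Rf.New
import Crest.Agent.N49.Rf.Pid

/-!
# Row 49 (helper6): tangent data, insertion of the hidden words, the end of a step (statements)
-/

set_option autoImplicit false

open Matrix MvPolynomial Finset

noncomputable section

namespace Crest.Agent.N49.Sd

open Po Tw Br Top

/-- tangent data with coefficients in the letters `Lt`: `Y¹_F = be F + ∑ mon G * Y²_G` -/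
structure Tan (T1 T2 : TS Unit) (Lt : Type) where
  fam : T2.C → T1.C
  mon : T2.C → MvPolynomial Lt ℤ
  be : T1.C → MvPolynomial Lt ℤ
  bu : T1.C → MvPolynomial Lt ℝ
  bs : T1.C → T2.C
  nu : T1.C → ℕ
  gr : T2.C → ℕ

/-- the top part as a twist -/
def tpw {τ : Type} (T : TS Unit) (S : Sh Unit τ) : T.Twd S :=
  fun F => MvPolynomial.map MvPolynomial.C (T.top.Φ F)

namespace Tan

variable {T1 T2 : TS Unit} {Lt τ : Type} (D : Tan T1 T2 Lt)

/-- the combinatorial conditions (the letter `t` has degree `dg t`) -/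
structure Ok (dg : Lt → ℕ) (st1 : T1.C → ℕ) (st2 : T2.C → ℕ) (s : ℕ) : Prop where
  hm : ∀ G, (D.mon G).IsWeightedHomogeneous dg (T1.lev (D.fam G) - T2.lev G)
  le : ∀ G, D.mon G ≠ 0 → T2.lev G ≤ T1.lev (D.fam G)
  hb : ∀ F, (D.be F).IsWeightedHomogeneous dg (T1.lev F)
  hu : ∀ F, (D.bu F).IsWeightedHomogeneous dg (T1.lev F)
  fb : ∀ F, D.fam (D.bs F) = F
  mb : ∀ F, D.mon (D.bs F) = MvPolynomial.C (D.nu F : ℤ)
  np : ∀ F, 0 < D.nu F
  lb : ∀ F, T2.lev (D.bs F) = T1.lev F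
  ab : ∀ F F', (D.nu F : ℝ) * (T2.stg st2).A (D.bs F) (D.bs F') = (T1.stg st1).A F F' * D.nu F'
  sg : ∀ F G, D.mon G ≠ 0 → st1 (D.fam G) < st1 F → s * st2 G ≤ st2 (D.bs F)
  g0 : ∀ G G', st2 G = st2 G' → D.gr G = D.gr G'
  g1 : ∀ G, G ∉ Set.range D.bs → ∀ m ∈ (T2.top.Φ G).support,
    (∃ G', G' ∉ Set.range D.bs ∧ st2 G' = st2 G ∧ m = Finsupp.single G' 1) ∨
      ∀ G' ∈ m.support, D.gr G' < D.gr G
  g2 : ∀ G, D.mon G ≠ 0 → D.gr G = D.gr (D.bs (D.fam G))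

/-- the polynomial identity -/
def Id : Prop := ∀ F, eval₂ (MvPolynomial.C.comp MvPolynomial.C)
    (fun F' => MvPolynomial.C (MvPolynomial.map (Int.castRingHom ℝ) (D.be F')) +
      ∑ G with D.fam G = F', MvPolynomial.C (MvPolynomial.map (Int.castRingHom ℝ) (D.mon G)) * X G)
    (T1.top.Φ F) = (MvPolynomial.C (D.bu F) + ∑ G with D.fam G = F,
      MvPolynomial.C (MvPolynomial.map (Int.castRingHom ℝ) (D.mon G)) *
        MvPolynomial.map MvPolynomial.C (T2.top.Φ G) : MvPolynomial T2.C (MvPolynomial Lt ℝ))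

/-- rename the letters -/
def rn {Lt' : Type} (f : Lt → Lt') : Tan T1 T2 Lt' where
  fam := D.fam
  mon G := rename f (D.mon G)
  be F := rename f (D.be F)
  bu F := rename f (D.bu F)
  bs := D.bs
  nu := D.nu
  gr := D.gr

/-- the pulled-back linear form -/
def pi (π : T1.C → ℤ) : T2.C → ℤ := fun G => coeff 0 (D.mon G) * π (D.fam G)

variable (S : Sh Unit τ) (D : Tan T1 T2 S.W)

/-- the linear part on configurations (the letters are words of `S`) -/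
def L {R : Type} [CommRing R] (y : T2.Cw S → R) : T1.Cw S → R := fun p => S.cf R p.1.2
  (∑ G with D.fam G = p.1.1, MvPolynomial.map (Int.castRingHom R) (D.mon G) * T2.Yw S y G)

/-- the map of configurations -/
def kap (y : T2.Cw S → ℤ) : T1.Cw S → ℤ := fun p => S.cf ℤ p.1.2 (D.be p.1.1) + L S D y p

/-- the identity in the ring of `S` -/
def Rid : Prop := ∀ y : T2.Cw S → ℝ,
  (T1.tw S (tpw T1 S)).u (fun p => (S.cf ℤ p.1.2 (D.be p.1.1) : ℤ) + L S D y p) =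
    fun p => S.cf ℝ p.1.2 (D.bu p.1.1) + L S D ((T2.tw S (tpw T2 S)).u y) p

end Tan

section laws
variable {τ : Type} (T : TS Unit) (S : Sh Unit τ) (p : S.W → Prop) [DecidablePred p]
  (st : T.C → ℕ) (Ψ : T.Twd S)

/-- the coordinates on the words `p` -/
abbrev Kc : Type := {c : T.Cw S // p c.1.2}
/-- the law of the words `p`, the other words being `b` -/
def fb (b : T.Cw S → ℤ) : TS Unit := (T.lw S st Ψ).cut (fun c : T.Cw S => p c.1.2) b
/-- put `z` on the words `p` -/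
def gl {R : Type} (z : Kc T S p → R) (b : T.Cw S → R) : T.Cw S → R :=
  glue (fun c : T.Cw S => p c.1.2) z b
/-- the normalised sum over the words outside `p` -/
def hid (b : T.Cw S → ℤ) (G : (T.Cw S → ℤ) → ℝ) : ℝ :=
  (fb T S (fun w => ¬ p w) st Ψ b).N fun z => G (gl T S (fun w => ¬ p w) z b)
end laws

/-- triangular partitions of unity -/
def TILE : Prop := ∀ (J Y : Type) [Fintype J] [DecidableEq J] [Countable Y] (lev : J → ℕ)
  (M : Matrix J J ℝ) (w : Y → ℝ) (θ : Y → (J → ℤ) → J → ℝ), M.PosDef → Summable w →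
  (∀ y n n' j, (∀ j', lev j' < lev j → n j' = n' j') → θ y n j = θ y n' j) →
  (∀ i j, M i j ≠ 0 → lev i = lev j) →
  (∀ x, Summable fun a : Y × (J → ℤ) => w a.1 * gs M (zc a.2 - θ a.1 a.2 - x)) ∧
  ∃ x, (∑' y, w y) * dt M ≤ ∑' a : Y × (J → ℤ), w a.1 * gs M (zc a.2 - θ a.1 a.2 - x)

/-- a Gaussian weight is a mixture of narrower ones -/
def MIXP : Prop := ∀ (C Y : Type) [Fintype C] [DecidableEq C] [Countable Y] (P P' : Matrix C C ℝ)
  (a : Y → C → ℝ) (g : Y → ℝ) (B : ℝ), P.PosDef → P'.PosDef → (∀ u, qf P u ≤ qf P' u) →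
  (Summable fun y => gs P (a y)) → (∀ y, |g y| ≤ B) →
  ∃ x, (∑' y, gs P (a y) * g y) / dt P ≤ (∑' y, gs P' (a y - x) * g y) / dt P'

/-- the polynomial identity holds in every ring -/
def TANR : Prop := ∀ (Lt τ : Type) (T1 T2 : TS Unit) (D : Tan T1 T2 Lt) (S : Sh Unit τ)
  (f : Lt → S.W) (st1 : T1.C → ℕ) (st2 : T2.C → ℕ) (s : ℕ), S.Ok → T1.Tri → T2.Tri →
  D.Ok (fun t => S.dg (f t)) st1 st2 s → (D.rn f).Ok S.dg st1 st2 s ∧ (D.Id → (D.rn f).Rid S)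

/-- **insertion** (exact): the words `p` of `T2` are kept, the other words of `T1` are summed -/
def INS : Prop := ∀ (τ : Type) (T1 T2 : TS Unit) (S : Sh Unit τ) (p : S.W → Prop) [DecidablePred p]
  (st1 : T1.C → ℕ) (st2 : T2.C → ℕ) (M1 M2 s : ℕ) (D : Tan T1 T2 S.W) (Ψ1 : T1.Twd S)
  (K2 K' : Matrix S.W S.W ℝ) (Y : Finset (Kc T2 S p → ℤ))
  (G : (Kc T2 S p → ℤ) → (T1.Cw S → ℤ) → ℝ) (B : ℝ), S.Ok → (S.setK K2).Ok → (S.setK K').Ok →
  S.Idl p → T1.Stg st1 M1 → T2.Stg st2 M2 → (∀ F, T1.lev F ≤ s) → D.Ok S.dg st1 st2 s → D.Rid S →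
  T1.Adm S st1 Ψ1 → (∀ y (c : T1.Cw S), p c.1.2 → (T1.tw S Ψ1).u y c = (T1.tw S (tpw T1 S)).u y c) →
  (∀ u : T2.Cw S → ℝ, 2 * (qf (fb T2 (S.setK K2) p st2 (tpw T2 _) 0).K⁻¹ (fun c => u c.1) +
    qf (fb T1 S (fun w => ¬ p w) st1 Ψ1 0).K⁻¹ fun c => D.L S u c.1) ≤
      qf (T2.kw S T2.K K')⁻¹ u) → (∀ b z, |G b z| ≤ B) →
  ∃ (Ψ : T2.Twd (S.setK K')) (r : T1.Cw S → ℤ), T2.Adm (S.setK K') st2 Ψ ∧
    (∀ c, p c.1.2 → r c = 0) ∧
    ∑ b ∈ Y, (fb T2 (S.setK K2) p st2 (tpw T2 _) 0).wt b / (fb T2 (S.setK K2) p st2 (tpw T2 _) 0).Zc *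
        hid T1 S p st1 Ψ1 (D.kap S (gl T2 S p b 0)) (G b) ≤
      (T2.lw (S.setK K') st2 Ψ).N fun y =>
        if (fun c : Kc T2 S p => y c.1) ∈ Y then G (fun c => y c.1) (r + D.kap S y) else 0

section grid
variable (s d Q : ℕ)

/-- one location, `n` clones of the direction, `Q` clones in the other blocks -/
def q1 (n : ℕ) : Fin (d + 2) → ℕ := fun i => if i = 0 then 1 else if i = 1 then n else Q

theorem dcl1 {n : ℕ} (h : 0 < n) : Ho.Dcl (grid (q1 d Q n)) (grid (q1 d Q 1)) 1 n := by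
  have := Ho.dcl_grid (q := q1 d Q n) (q₁ := q1 d Q 1) (i := 1) (by simpa [q1] using h)
    (by simp [q1]) fun j k => by simp [q1, k]
  simpa [q1] using this

/-- the ring of the end of a step -/
abbrev R1 (n : ℕ) (v : ℕ → Finset (Fin (d + 2)) → ℝ) : Sh Unit Unit := gr s (q1 d Q n) v

variable {s d Q}
/-- the symbol words, the words in the blocks `≥ 2`, the words of the direction -/
def kw {D : Finset (Pt (Fin (d + 2)))} (w : Wd s D) : Prop := w.tr 0 = none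
/-- words in the blocks `≥ 2` -/
def zw {D : Finset (Pt (Fin (d + 2)))} (w : Wd s D) : Prop := w.tr 0 = none ∧ w.tr 1 = none
/-- words of the direction -/
def xw {D : Finset (Pt (Fin (d + 2)))} (w : Wd s D) : Prop := w.tr 0 = none ∧ w.tr 1 ≠ none

instance {D : Finset (Pt (Fin (d + 2)))} : DecidablePred (kw (s := s) (D := D)) := fun _ => by
  unfold kw; infer_instance
instance {D : Finset (Pt (Fin (d + 2)))} : DecidablePred (zw (s := s) (D := D)) := fun _ => by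
  unfold zw; infer_instance
instance {D : Finset (Pt (Fin (d + 2)))} : DecidablePred (xw (s := s) (D := D)) := fun _ => by
  unfold xw; infer_instance

/-- the configuration seen by the clone `a` -/
def cl (T : TS Unit) {n : ℕ} (v : ℕ → Finset (Fin (d + 2)) → ℝ) (a : Fin n)
    (y : T.Cw (R1 s d Q n v) → ℤ) : T.Cw (R1 s d Q 1 v) → ℤ :=
  fun c => y (Ho.fc T ((dcl1 d Q a.pos).cd (fun j w => v j (bl w)) a) c)

variable (s d Q)
/-- **cells**: every law carried by `Bl` has a large average, with any number of clones -/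
def Cell (T : TS Unit) (st : T.C → ℕ) (v : ℕ → Finset (Fin (d + 2)) → ℝ) (f : (T.C → ℤ) → ℝ)
    (Bl : Set (T.Cw (R1 s d Q 1 v) → ℤ)) (γ κ : ℝ) : Prop :=
  ∀ (n : ℕ) (Y : Type) [Fintype Y] (la : Y → ℝ) (x : Y → T.Cw (R1 s d Q 1 v) → ℤ)
    (b : (Fin n → Y) → T.Cw (R1 s d Q n v) → ℤ), 0 < n → (∀ i, 0 ≤ la i) → (∀ i, x i ∈ Bl) →
    (∀ i i' c, zw c.1.2 → x i c = x i' c) → (∀ e a c, kw c.1.2 → cl T v a (b e) c = x (e a) c) →
    κ * (γ * ∑ i, la i) ^ n ≤ ∑ e, (∏ a, la (e a)) *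
      hid T (R1 s d Q n v) kw st (T.tw0 _) (b e) (PF T s (q1 d Q n) v fun _ => f)

/-- the letters of the blocks `≥ 2` as words -/
def lt (h : 0 < s) (n : ℕ) (t : Fin d × Fin Q) : Wd s (grid (q1 d Q n)) :=
  ⟨(⟨0, h⟩, ⟨Function.update (fun _ => none) t.1.succ.succ (some t.2), by
    rw [Ho.mem_grid]
    intro i a e
    by_cases k : i = t.1.succ.succ
    · subst k
      have : t.1.succ.succ ≠ 1 := fun e => Fin.succ_ne_zero _ (Fin.succ_injective _ e)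
      simp only [Function.update_self, Option.some.injEq] at e
      simp [q1, this, ← e]
    · simp [k] at e⟩), by
    have : bl (Function.update (fun _ => none) t.1.succ.succ (some (t.2 : ℕ))) = {t.1.succ.succ} := by
      ext i; by_cases k : i = t.1.succ.succ <;> simp [bl, k]
    simp [this]⟩

end grid

/-- the fibre of the direction is a centred lattice Gaussian -/
def FIBX : Prop := ∀ (s d Q M : ℕ) (T : TS Unit) (st : T.C → ℕ) (v : ℕ → Finset (Fin (d + 2)) → ℝ)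
  (b : T.Cw (R1 s d Q 1 v) → ℤ) (R : ℝ), T.Stg st M → (∀ j B, 0 < v j B) →
  let U := fb T (R1 s d Q 1 v) xw st (tpw T _) b
  U.Tri ∧ ∃ X : Finset (U.C → ℤ), (∀ a ∈ X, qf U.K⁻¹ (U.u (zc a)) ≤ R) ∧
    (1 - bz U.C R) * U.Zc ≤ ∑ a ∈ X, U.wt a

/-- many clones of the direction: the left side of `INS` -/
def REGX : Prop := ∀ (s d Q n M1 M2 : ℕ) (hs : 0 < s) (T1 T2 : TS Unit) (st1 : T1.C → ℕ)
  (st2 : T2.C → ℕ) (D : Tan T1 T2 (Fin d × Fin Q)) (v1 v2 : ℕ → Finset (Fin (d + 2)) → ℝ)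
  (f : (T1.C → ℤ) → ℝ) (Bl : Set (T1.Cw (R1 s d Q 1 v1) → ℤ)) (γ κ β R : ℝ)
  (H : Set (Kc T2 (R1 s d Q 1 v2) zw → ℤ)), 0 < n → T1.Stg st1 M1 → T2.Stg st2 M2 →
  (∀ j B, 0 < v1 j B ∧ 0 < v2 j B) → 0 ≤ γ → 0 ≤ κ → 0 < β → (∀ y, 0 ≤ f y) →
  bz (Kc T2 (R1 s d Q 1 v2) xw) R ≤ 1 → Cell s d Q T1 st1 v1 f Bl γ κ →
  β ≤ (fb T2 (R1 s d Q 1 v2) zw st2 (tpw T2 _) 0).N (H.indicator 1) →
  (∀ y : T2.Cw (R1 s d Q 1 v2) → ℤ, (fun c => y c.1) ∈ H →
    qf (fb T2 (R1 s d Q 1 v2) xw st2 (tpw T2 _) y).K⁻¹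
      (fun c => (T2.tw (R1 s d Q 1 v2) (tpw T2 _)).u (zc y) c.1) ≤ R →
    (D.rn (lt s d Q hs 1)).kap (R1 s d Q 1 v1) y ∈ Bl) →
  ∃ Y : Finset (Kc T2 (R1 s d Q n v1) kw → ℤ),
    β / 2 * κ * (γ * (1 - bz (Kc T2 (R1 s d Q 1 v2) xw) R)) ^ n ≤
    ∑ b ∈ Y, (fb T2 (R1 s d Q n v2) kw st2 (tpw T2 _) 0).wt b /
        (fb T2 (R1 s d Q n v2) kw st2 (tpw T2 _) 0).Zc *
      hid T1 (R1 s d Q n v1) kw st1 (T1.tw0 _)
        ((D.rn (lt s d Q hs n)).kap (R1 s d Q n v1) (gl T2 (R1 s d Q n v1) kw b 0))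
        (PF T1 s (q1 d Q n) v1 fun _ => f)

end Crest.Agent.N49.Sd

end
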