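import Crest.Agent.N49.Sd.Ik
import Crest.Agent.N49.Po.Lin
import Crest.Agent.N49.Rf.Ext

/-!
# Row 49 (helper11): the Gaussian algebra of the insertion lemma (leaf IGA)
-/

set_option autoImplicit false
set_option linter.unusedSectionVars false

open Matrix Finset

noncomputable section

namespace Crest.Agent.N49.Sd

open Po

namespace Ig

variable {a b C : Type} [Fintype a] [DecidableEq a] [Fintype b] [DecidableEq b] [Fintype C]
  [DecidableEq C]

theorem qf_fb (S : Matrix a a ℝ) (D : Matrix b b ℝ) (x : a ⊕ b → ℝ) :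
    qf (fromBlocks S 0 0 D) x = qf S (x ∘ .inl) + qf D (x ∘ .inr) := by
  simp [qf, fromBlocks_mulVec, dotProduct, Fintype.sum_sum_type]

theorem pd_fb {S : Matrix a a ℝ} {D : Matrix b b ℝ} (hS : S.PosDef) (hD : D.PosDef) :
    (fromBlocks S 0 0 D).PosDef := by
  refine PosDef.of_dotProduct_mulVec_pos (hS.1.fromBlocks (by simp) hD.1) fun x hx => ?_
  change 0 < qf _ x
  rw [qf_fb]
  by_cases h : x ∘ Sum.inl = 0
  · have h' : x ∘ Sum.inr ≠ 0 := fun h' => hx (funext fun i => by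
      rcases i with i | i
      exacts [congrFun h i, congrFun h' i])
    exact add_pos_of_nonneg_of_pos (qf_nonneg hS _) (hD.dotProduct_mulVec_pos h')
  · exact add_pos_of_pos_of_nonneg (hS.dotProduct_mulVec_pos h) (qf_nonneg hD _)

theorem dt_fb {S : Matrix a a ℝ} (D : Matrix b b ℝ) (hS : S.PosDef) :
    dt (fromBlocks S 0 0 D) = dt S * dt D := by
  rw [dt, dt, dt, det_fromBlocks_zero₁₂, Real.sqrt_mul hS.det_pos.le, mul_inv]

/-- the marginal precision is below the precision -/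
theorem marg {K : Matrix C C ℝ} (hK : K.PosDef) (j : C → Prop) [DecidablePred j] (u : C → ℝ) :
    qf (K.submatrix (Subtype.val : {c // j c} → C) Subtype.val)⁻¹ (fun c => u c.1) ≤ qf K⁻¹ u := by
  have hJ : (K.submatrix (Subtype.val : {c // j c} → C) Subtype.val).PosDef :=
    hK.submatrix Subtype.val_injective
  obtain ⟨B, hB⟩ : ∃ B : Matrix C {c // j c} ℝ,
      B = (1 : Matrix C C ℝ).submatrix id Subtype.val := ⟨_, rfl⟩
  have e1 : K.submatrix (Subtype.val : {c // j c} → C) Subtype.val = Bᵀ * K * B := by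
    ext c c'
    simp [hB, mul_apply, one_apply]
  have e2 : ∀ w : {c // j c} → ℝ, u ⬝ᵥ B *ᵥ w = (fun c => u c.1) ⬝ᵥ w := fun w => by
    rw [dotProduct_mulVec]
    congr 1
    ext c
    simp [hB, vecMul, dotProduct, one_apply]
  obtain ⟨w, hw⟩ : ∃ w, w = (K.submatrix (Subtype.val : {c // j c} → C) Subtype.val)⁻¹ *ᵥ
      (fun c : {c // j c} => u c.1) := ⟨_, rfl⟩
  have e3 : qf K (B *ᵥ w) = (fun c => u c.1) ⬝ᵥ w := by
    rw [← qf_conj, ← e1, qf, hw, mulVec_mulVec, mul_nonsing_inv _ hJ.det_pos.ne'.isUnit,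
      one_mulVec, dotProduct_comm]
  have e4 : K⁻¹ *ᵥ K *ᵥ B *ᵥ w = B *ᵥ w := by
    rw [mulVec_mulVec, nonsing_inv_mul _ hK.det_pos.ne'.isUnit, one_mulVec]
  have h := qf_nonneg hK.inv (u - K *ᵥ B *ᵥ w)
  have e5 : qf K⁻¹ (K *ᵥ B *ᵥ w) = qf K (B *ᵥ w) := by rw [qf, e4, dotProduct_comm, qf]
  rw [qf_sub hK.inv, e4, e2, e5, e3] at h
  rw [qf, ← hw]
  linarith

end Ig
open Ig

theorem iga : IGA := by
  intro C H _ _ _ _ p j _ _ β ν L Q1 Q2 K v x hP hν hL h1 h2 hK hle Q3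
  have h3 : Q3.PosDef := (hK.submatrix Subtype.val_injective).inv.smul (by norm_num)
  let f : ({c // p c} ⊕ {c // j c}) ⊕ H → C := Sum.elim (Sum.elim Subtype.val Subtype.val) β
  have fi : Function.Injective f := by
    rintro ((a | a) | a) ((b | b) | b) e <;> simp only [f, Sum.elim_inl, Sum.elim_inr] at e
    · rw [Subtype.ext e]
    · exact absurd (e ▸ b.2) (hP.pj _ a.2)
    · exact absurd (e ▸ a.2) (hP.pb _)
    · exact absurd (e ▸ a.2) (hP.pj _ b.2)
    · rw [Subtype.ext e]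
    · exact absurd (e ▸ a.2) (hP.jb _)
    · exact absurd (e ▸ b.2) (hP.pb _)
    · exact absurd (e ▸ b.2) (hP.jb _)
    · rw [hP.inj e]
  have fs : Function.Surjective f := fun c => by
    rcases hP.cov c with h | h | ⟨h, e⟩
    exacts [⟨.inl (.inl ⟨c, h⟩), rfl⟩, ⟨.inl (.inr ⟨c, h⟩), rfl⟩, ⟨.inr h, e⟩]
  let e := Equiv.ofBijective f ⟨fi, fs⟩
  have he : ∀ i, e i = f i := fun _ => rfl
  let Λ : Matrix (({c // p c} ⊕ {c // j c}) ⊕ H) C ℝ :=
    Matrix.of fun i c => Sum.elim (fun i => if f (.inl i) = c then 1 else 0) (fun h => L h c) i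
  let Q := fromBlocks (fromBlocks Q1 0 0 Q3) 0 0 Q2
  have hQ : Q.PosDef := pd_fb (pd_fb h1 h3) h2
  have hl : ∀ i c, Λ (.inl i) c = if f (.inl i) = c then 1 else 0 := fun _ _ => rfl
  have hr : ∀ h c, Λ (.inr h) c = L h c := fun _ _ => rfl
  have hΛ : ∀ u : C → ℝ, Λ *ᵥ u =
      Sum.elim (Sum.elim (fun c => u c.1) fun c => u c.1) (L *ᵥ u) := fun u => by
    have : ∀ i, (Λ *ᵥ u) (.inl i) = u (f (.inl i)) := fun i => by
      simp [mulVec, dotProduct, hl]
    ext ((a | a) | a)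
    exacts [this _, this _, rfl]
  have hd : (Λ.submatrix e.symm id).det = ∏ h, (ν h : ℝ) := by
    rw [← det_submatrix_equiv_self e]
    have : (Λ.submatrix e.symm id).submatrix e e = fromBlocks 1 0
        (L.submatrix id fun i => f (.inl i)) (diagonal fun h => (ν h : ℝ)) := by
      ext a b
      rw [submatrix_apply, submatrix_apply, e.symm_apply_apply, id, he]
      rcases a with a | a <;> rcases b with b | b
      · simp [hl, one_apply, fi.eq_iff]
      · simp [hl, fi.eq_iff]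
      · simp [hr]
      · rw [hr, fromBlocks_apply₂₂, diagonal_apply]; exact hL a b
    rw [this, det_fromBlocks_zero₁₂, det_one, one_mul, det_diagonal]
  have hp : 0 < ∏ h, (ν h : ℝ) := prod_pos fun h _ => Nat.cast_pos.2 (hν h)
  have hu : IsUnit (Λ.submatrix e.symm id).det := by rw [hd]; exact hp.ne'.isUnit
  have hm : ∀ u, (Λ.submatrix e.symm id) *ᵥ u = (Λ *ᵥ u) ∘ e.symm := fun u => rfl
  have hP' : Λᵀ * Q * Λ =
      (Λ.submatrix e.symm id)ᵀ * Q.submatrix e.symm e.symm * Λ.submatrix e.symm id := by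
    rw [transpose_submatrix, submatrix_mul_equiv, submatrix_mul_equiv, submatrix_id_id]
  have hq : ∀ u, qf (Λᵀ * Q * Λ) u =
      qf Q1 (fun c => u c.1) + qf Q3 (fun c => u c.1) + qf Q2 (L *ᵥ u) := fun u => by
    rw [qf_conj, hΛ, qf_fb, qf_fb]; rfl
  obtain ⟨u0, h0⟩ : ∃ u0, Λ *ᵥ u0 = Sum.elim (Sum.elim (0 : {c // p c} → ℝ) x) (-v) := by
    refine ⟨(Λ.submatrix e.symm id)⁻¹ *ᵥ
      (Sum.elim (Sum.elim (0 : {c // p c} → ℝ) x) (-v) ∘ e.symm), ?_⟩
    refine e.symm.surjective.injective_comp_right ?_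
    change (_ ∘ e.symm) = _ ∘ e.symm
    rw [← hm, mulVec_mulVec, mul_nonsing_inv _ hu, one_mulVec]
  rw [hΛ] at h0
  have a1 : ∀ c : {c // p c}, u0 c.1 = 0 := fun c => congrFun h0 (.inl (.inl c))
  have a2 : ∀ c : {c // j c}, u0 c.1 = x c := fun c => congrFun h0 (.inl (.inr c))
  have a3 : L *ᵥ u0 = -v := funext fun h => congrFun h0 (.inr h)
  refine ⟨Λᵀ * Q * Λ, u0, ?_, fun u => ?_, ?_, fun u => ?_⟩
  · rw [hP']
    exact posDef_conj (hQ.submatrix e.symm.injective)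
      (mulVec_injective_iff_isUnit.2 ((isUnit_iff_isUnit_det _).2 hu))
  · rw [hq, qf_smul]
    linarith [hle u, marg hK j u]
  · rw [hP', Rf.dt_conj, hd, abs_of_pos hp, div_mul_cancel₀ _ hp.ne', dt,
      det_submatrix_equiv_self, ← dt, dt_fb _ (pd_fb h1 h3), dt_fb _ h1]
    ring
  · simp only [gs, ← Real.exp_add, hq, mulVec_sub, a3, Pi.sub_apply, a1, a2, sub_zero,
      sub_neg_eq_add]
    congr 1
    rw [add_comm v, show ((fun c : {c // j c} => u c.1) - x) = fun c => u c.1 - x c from rfl]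
    ring

end Crest.Agent.N49.Sd

end
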