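import Crest.Agent.N49.Sd.Ins
import Crest.Agent.N49.Br.Lin
import Crest.Agent.N49.Br.Hom

/-!
# Row 49 (helper19): the fibre of the direction is a centred lattice Gaussian
-/

set_option autoImplicit false

open Matrix MvPolynomial Finset

noncomputable section

namespace Crest.Agent.N49.Sd

open Po Tw Br Top

namespace Fx

/-- the top part is an admissible twist -/
theorem adm_tpw {τ : Type} {T : TS Unit} {st : T.C → ℕ} {M : ℕ} (h : T.Stg st M) (S : Sh Unit τ) :
    T.Adm S st (tpw T S) := by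
  have e : ∀ F m, coeff m (tpw T S F) = MvPolynomial.C
      (if Finsupp.weight T.lev m = T.lev F then coeff m (T.Φ F) else 0) := fun F m =>
    (coeff_map _ _ _).trans (congrArg _ (coeff_weightedHomogeneousComponent _ _ _))
  refine ⟨fun F m => ?_, fun F m hm => ?_, fun F m k => by rw [e, if_pos k]⟩
  · rw [e]
    split_ifs with k
    · rw [k, Nat.sub_self]; exact isWeightedHomogeneous_C _ _
    · rw [map_zero]; exact isWeightedHomogeneous_zero _ _ _
  · have := mem_support_iff.1 hm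
    rw [e] at this
    split_ifs at this with k
    · exact ⟨k.le, h.wt F (mem_support_iff.2 fun z => this (by rw [z, map_zero]))⟩
    · exact absurd (map_zero _) this

/-- polynomials of degree one in the coordinates `p` -/
theorem lin_of {C : Type} [Fintype C] [DecidableEq C] (p : C → Prop) [DecidablePred p]
    [Fintype {c // p c}] (b : C → ℝ) {P : MvPolynomial C ℝ}
    (h : ∀ m ∈ P.support, Finsupp.weight (fun c => if p c then 1 else 0) m = 1) :
    ∃ L : {c // p c} → ℝ, ∀ y, eval (glue p y b) P = L ⬝ᵥ y := by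
  classical
  have k : ∀ m ∈ P.support, ∃ L : {c // p c} → ℝ, ∀ y,
      ∏ c ∈ m.support, glue p y b c ^ m c = L ⬝ᵥ y := fun m hm => by
    have w := h m hm
    rw [Finsupp.weight_apply, Finsupp.sum] at w
    obtain ⟨c, hc, n⟩ := exists_ne_zero_of_sum_ne_zero (w.trans_ne one_ne_zero)
    have pc : p c := by by_contra a; simp [a] at n
    rw [← add_sum_erase _ _ hc, if_pos pc, smul_eq_mul, mul_one] at w
    have m0 := Finsupp.mem_support_iff.1 hc
    have m1 : m c = 1 := by omega
    have z : ∀ c' ∈ m.support.erase c, ¬ p c' := fun c' h' a => by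
      have := sum_eq_zero_iff.1 (show ∑ x ∈ m.support.erase c, m x • (if p x then 1 else 0) = 0 by
        omega) c' h'
      rw [if_pos a, smul_eq_mul, mul_one] at this
      exact Finsupp.mem_support_iff.1 (mem_of_mem_erase h') this
    refine ⟨Pi.single ⟨c, pc⟩ (∏ c' ∈ m.support.erase c, b c' ^ m c'), fun y => ?_⟩
    rw [single_dotProduct, ← mul_prod_erase _ _ hc, m1, pow_one, mul_comm, glue_pos _ _ pc]
    exact congrArg (· * _) (prod_congr rfl fun c' h' => by rw [glue_neg _ _ (z c' h')])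
  choose! L hL using k
  refine ⟨∑ m ∈ P.support, coeff m P • L m, fun y => ?_⟩
  rw [eval_eq, sum_dotProduct]
  exact sum_congr rfl fun m hm => by rw [hL m hm, smul_dotProduct, smul_eq_mul]

section
variable {ι : Type} [Fintype ι] [LinearOrder ι] {s : ℕ} {D : Finset (Pt ι)}

/-- a product that gives a word without the first block is a disjoint union -/
theorem rr_one {w : Wd s D} {m : Wd s D →₀ ℕ} (h : Rr w m) {o : ι} (ho : ∀ i, o ≤ i)
    (h0 : w.tr o = none) {x : ι} (hx : w.tr x ≠ none) :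
    (∀ v ∈ m.support, v.tr o = none) ∧
      Finsupp.weight (fun v : Wd s D => if v.tr x ≠ none then 1 else 0) m = 1 := by
  obtain ⟨k1, k2, k3⟩ := h
  have n : ∀ v ∈ m.support, v.tr o = none := fun v hv => by
    by_contra e; exact e ((k2 v hv o e).trans h0)
  refine ⟨n, ?_⟩
  have c2 : bl w.tr ⊆ m.support.biUnion fun v => bl v.tr := fun i hi => by
    by_contra c
    rcases (ho i).eq_or_lt with e | e
    · exact mem_bl.1 hi (e ▸ h0)
    · exact mem_bl.1 (k3.2 i hi c o e) h0
  obtain ⟨a, ha, xa⟩ := mem_biUnion.1 (c2 (mem_bl.2 hx))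
  have c4 := w.card_eq h0
  have c5 := card_le_card c2
  have c3 : ∀ v ∈ m.support, #(bl v.tr) ≤ m v • v.lv := fun v hv => by
    rw [v.card_eq (n v hv)]
    exact Nat.le_mul_of_pos_left _ (Nat.pos_of_ne_zero (Finsupp.mem_support_iff.1 hv))
  rw [Finsupp.weight_apply, Finsupp.sum] at k1 ⊢
  have c6 := sum_le_sum c3
  rw [sum_eq_single a, if_pos (mem_bl.1 xa), smul_eq_mul, mul_one]
  · have c7 := card_biUnion_le (s := m.support) (t := fun v => bl v.tr)
    have c8 := (sum_eq_sum_iff_of_le c3).1 (by omega) a ha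
    rw [a.card_eq (n a ha), smul_eq_mul] at c8
    have := a.lv_pos
    exact Nat.eq_of_mul_eq_mul_right this (by omega)
  · intro v hv ne
    rw [if_neg, smul_zero]
    intro xv
    have := card_bU (f := fun v : Wd s D => bl v.tr) ha hv ne xa (mem_bl.2 xv)
    omega
  · exact fun k => absurd ha k

end

/-- linear errors: a centred Gaussian -/
theorem cen {σ : Type} {U : TS σ} (h : U.Tri) (L : Matrix U.C U.C ℝ)
    (hL : ∀ a : U.C → ℤ, U.u (zc a) = L *ᵥ zc a) (R : ℝ) :
    ∃ X : Finset (U.C → ℤ), (∀ a ∈ X, qf U.K⁻¹ (U.u (zc a)) ≤ R) ∧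
      (1 - bz U.C R) * U.Zc ≤ ∑ a ∈ X, U.wt a := by
  have d : L.det = U.A.det := by
    refine Eq.trans (congrArg det (Matrix.ext fun p p' => ?_)) (Li.det_lin h)
    rw [of_apply, hL, hL, zc_zero, mulVec_zero, Pi.zero_apply, sub_zero,
      show zc (Pi.single p' 1) = Pi.single p' 1 from funext fun c => by
        simp [zc, Pi.single_apply], mulVec_single_one, col_apply]
  have i : Function.Injective L.mulVec :=
    mulVec_injective_iff_isUnit.2 ((isUnit_iff_isUnit_det _).2 (d ▸ h.unit))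
  have p := posDef_conj h.pd.inv i
  have q : ∀ a : U.C → ℤ, qf U.K⁻¹ (U.u (zc a)) = qf (Lᵀ * U.K⁻¹ * L) (zc a - 0) := fun a => by
    rw [hL, sub_zero, qf_conj]
  have f := finite_ell p 0 R
  refine ⟨f.toFinset, fun a ha => (q a).trans_le (f.mem_toFinset.1 ha), ?_⟩
  have w : ∀ a, U.wt a = gs (Lᵀ * U.K⁻¹ * L) (zc a - 0) := fun a => by rw [TS.wt, gs, q, gs]
  have z : U.Zc = dt (Lᵀ * U.K⁻¹ * L) := by
    rw [TS.Zc, h.D_inv, dt, dt, det_mul, det_mul, det_mul, det_mul, det_transpose, det_transpose, d]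
  have t := trunc p 0 (R := R) (S := f.toFinset) (f := fun _ => 1)
    (fun n a => f.mem_toFinset.2 a.le) fun _ => by simp
  simp only [mul_one] at t
  rw [← Complex.ofReal_tsum, ← Complex.ofReal_sum, ← Complex.ofReal_sub, Complex.norm_real,
    Real.norm_eq_abs] at t
  have t2 := (le_abs_self _).trans t
  simp only [w, z]
  rcases le_total (bz U.C R) 1 with e | e
  · have := mul_le_mul_of_nonneg_left (dt_le_th p) (sub_nonneg.2 e)
    rw [th] at this t2
    linarith
  · exact (mul_nonpos_of_nonpos_of_nonneg (sub_nonpos.2 e) (dt_pos p).le).trans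
      (sum_nonneg fun _ _ => (gs_pos _ _).le)

/-- cuts along coordinates that occur linearly -/
theorem cut_lin {σ : Type} (U : TS σ) (p : U.C → Prop) [DecidablePred p] (b : U.C → ℤ)
    (h : ∀ c, p c → ∀ m ∈ (U.Φ c).support, Finsupp.weight (fun c => if p c then 1 else 0) m = 1) :
    ∃ L : Matrix (U.cut p b).C (U.cut p b).C ℝ, ∀ y, (U.cut p b).u y = L *ᵥ y := by
  have k : ∀ c : (U.cut p b).C, ∃ L : (U.cut p b).C → ℝ, ∀ y, (U.cut p b).u y c = L ⬝ᵥ y :=
    fun c => by
      obtain ⟨L, hL⟩ := @lin_of _ _ _ p _ (U.cut p b).fin (zc b) _ (h c.1 c.2)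
      exact ⟨L, fun y => (U.u_cut p b y c).trans (hL y)⟩
  choose L hL using k
  exact ⟨Matrix.of L, fun y => funext fun c => hL c y⟩

section
variable {τ : Type} {T : TS Unit} {st : T.C → ℕ} {M : ℕ} {S : Sh Unit τ} (p : S.W → Prop)
  [DecidablePred p]

theorem fb_tri (hs : T.Stg st M) (o : S.Ok) {Ψ : T.Twd S} (a : T.Adm S st Ψ) (b : T.Cw S → ℤ) :
    (fb T S p st Ψ b).Tri :=
  (TS.lw_tri hs a o).cut _ b (.inl fun c hc c' hc' => (congrFun (congrFun (TS.lw_A hs a o) c) c').trans
    (mul_eq_zero_of_right _ (one_apply_ne fun e => hc' (e ▸ hc))))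

/-- words `p` that occur linearly -/
theorem fb_lin
    (hp : ∀ w m, p w → S.r w m ≠ 0 → Finsupp.weight (fun v => if p v then 1 else 0) m = 1)
    (b : T.Cw S → ℤ) : ∃ L : Matrix (fb T S p st (tpw T S) b).C (fb T S p st (tpw T S) b).C ℝ,
      ∀ y, (fb T S p st (tpw T S) b).u y = L *ᵥ y :=
  cut_lin (T.lw S st (tpw T S)) (fun c : T.Cw S => p c.1.2) b fun (c : T.Cw S) hc m hm => by
    obtain ⟨ν, n, r⟩ := TS.tw_mon (Ψ := tpw T S) c (mem_support_iff.1 hm)
    obtain rfl : ν = 0 := by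
      by_contra e
      refine n ((congrArg (coeff ν) (coeff_map _ _ _)).trans ?_)
      rw [coeff_C, if_neg (Ne.symm e)]
    rw [add_zero] at r
    exact (TS.weight_map (fun q : T.Cw S => q.1.2) _ m).symm.trans (hp _ _ hc r)

end

theorem xw_lin {s d : ℕ} {D : Finset (Pt (Fin (d + 2)))} {w : Wd s D} {m : Wd s D →₀ ℕ} (h : xw w)
    (r : Rr w m) : Finsupp.weight (fun v : Wd s D => if xw v then 1 else 0) m = 1 := by
  obtain ⟨e1, e2⟩ := rr_one r Fin.zero_le h.1 h.2
  refine Eq.trans ?_ e2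
  rw [Finsupp.weight_apply, Finsupp.weight_apply]
  exact Finsupp.sum_congr fun q hq => congrArg _ (if_congr ⟨fun e => e.2, fun e => ⟨e1 _ hq, e⟩⟩ rfl rfl)

end Fx

theorem fibx : FIBX := fun s d Q _ T st v b R hs hv =>
  have t := @Fx.fb_tri _ T _ _ (R1 s d Q 1 v) xw (fun _ => instDecidableAnd) hs (Ho.gr_ok hv) _
    (Fx.adm_tpw hs _) b
  ⟨t, (@Fx.fb_lin _ T st (R1 s d Q 1 v) xw (fun _ => instDecidableAnd)
    (fun _ _ h r => Fx.xw_lin h ((tw_r (V := fun j w => v j (bl w))).1 r)) b).elim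
      fun L hL => Fx.cen t L (fun _ => hL _) R⟩

end Crest.Agent.N49.Sd

end
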