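import Crest.Agent.N49.Sd.Ik

/-!
# Row 49 (helper24): determinants of the inserted words (`IDT`)
-/

set_option autoImplicit false

open Matrix MvPolynomial Finset

noncomputable section

namespace Crest.Agent.N49.Sd

open Po Tw Br Top

namespace Idt

theorem det3 {C H : Type} [Fintype C] [DecidableEq C] [Fintype H] [DecidableEq H] {p j : C → Prop}
    [DecidablePred p] [DecidablePred j] {β : H → C} (h : Prt p j β) (M : Matrix C C ℝ)
    (h1 : ∀ c c', ¬ p c → p c' → M c c' = 0) (h2 : ∀ c a, j c → M c (β a) = 0) :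
    M.det = (M.submatrix (Subtype.val : {c // p c} → C) Subtype.val).det * (M.submatrix β β).det *
      (M.submatrix (Subtype.val : {c // j c} → C) Subtype.val).det := by
  let e : {c // p c} ⊕ (H ⊕ {c // j c}) ≃ C :=
    Equiv.ofBijective (Sum.elim Subtype.val (Sum.elim β Subtype.val)) ⟨by
      rintro (x | x | x) (y | y | y) k <;> simp only [Sum.elim_inl, Sum.elim_inr] at k
      · rw [Subtype.ext k]
      · exact (h.pb y (k ▸ x.2)).elim
      · exact (h.pj _ x.2 (k ▸ y.2)).elim
      · exact (h.pb x (k ▸ y.2)).elim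
      · rw [h.inj k]
      · exact (h.jb x (k ▸ y.2)).elim
      · exact (h.pj _ y.2 (k ▸ x.2)).elim
      · exact (h.jb y (k ▸ x.2)).elim
      · rw [Subtype.ext k], fun c => by
      rcases h.cov c with k | k | ⟨a, k⟩
      exacts [⟨.inl ⟨c, k⟩, rfl⟩, ⟨.inr (.inr ⟨c, k⟩), rfl⟩, ⟨.inr (.inl a), k⟩]⟩
  have : M.submatrix e e = fromBlocks (M.submatrix Subtype.val Subtype.val)
      (M.submatrix Subtype.val (Sum.elim β Subtype.val)) 0 (fromBlocks (M.submatrix β β)
        (M.submatrix β Subtype.val) 0 (M.submatrix Subtype.val Subtype.val)) := by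
    ext (x | x | x) (y | y | y)
    any_goals rfl
    · exact h1 _ _ (h.pb x) y.2
    · exact h1 _ _ (fun k => h.pj _ k x.2) y.2
    · exact h2 _ _ x.2
  rw [← det_submatrix_equiv_self e, this, det_fromBlocks_zero₂₁, det_fromBlocks_zero₂₁, mul_assoc]

theorem unit_ext {a b : Unit →₀ ℕ} (h : a.degree = b.degree) : a = b := by
  rw [Finsupp.degree_eq_sum, Finsupp.degree_eq_sum] at h
  exact Finsupp.ext fun _ => by simpa using h

variable {τ : Type} {T1 T2 : TS Unit} {S : Sh Unit τ} {p : S.W → Prop} {st1 : T1.C → ℕ}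
  {st2 : T2.C → ℕ} {s : ℕ} {D : Tan T1 T2 S.W}

/-- the hidden words of the basic families -/
def be (h : D.Ok S.dg st1 st2 s) (p : S.W → Prop) (c : Kc T1 S fun w => ¬ p w) : T2.Cw S :=
  ⟨(D.bs c.1.1.1, c.1.1.2), c.1.2.trans (unit_ext (h.lb _).symm)⟩

theorem prt (h : D.Ok S.dg st1 st2 s) (p : S.W → Prop) :
    Prt (fun c : T2.Cw S => p c.1.2) (hj S D p) (be h p) where
  inj c c' e := Subtype.ext (Subtype.ext (Prod.ext ((h.fb _).symm.trans
    ((congrArg (fun x : T2.Cw S => D.fam x.1.1) e).trans (h.fb _))) (congrArg (·.1.2) e)))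
  cov c := by
    by_cases a : p c.1.2
    · exact .inl a
    by_cases b : c.1.1 ∈ Set.range D.bs
    · obtain ⟨F, e⟩ := b
      exact .inr (.inr ⟨⟨⟨(F, c.1.2), c.2.trans (e ▸ unit_ext (h.lb F))⟩, a⟩,
        Subtype.ext (Prod.ext e rfl)⟩)
    · exact .inr (.inl ⟨a, b⟩)
  pj _ a b := b.1 a
  pb c := c.2
  jb _ a := a.2 ⟨_, rfl⟩

theorem A_zero {M2 : ℕ} (h : D.Ok S.dg st1 st2 s) (h2 : T2.Stg st2 M2) {G : T2.C}
    (hG : G ∉ Set.range D.bs) (F : T1.C) : (T2.stg st2).A G (D.bs F) = 0 := by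
  rw [TS.stg_A]
  split_ifs with e
  · by_contra z
    have : Finsupp.single (D.bs F) 1 ∈ (T2.top.Φ G).support := mem_support_iff.2 (by
      change coeff _ (weightedHomogeneousComponent T2.lev (T2.lev G) (T2.Φ G)) ≠ 0
      rwa [coeff_weightedHomogeneousComponent,
        if_pos (by simp [Finsupp.weight_single, h2.lev _ _ e])])
    rcases h.g1 G hG _ this with ⟨G', a, -, b⟩ | a
    · exact a ⟨F, Finsupp.single_left_injective one_ne_zero b⟩
    · exact (a (D.bs F) (Finsupp.mem_support_iff.2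
        (Finsupp.single_eq_same.trans_ne one_ne_zero))).ne' (h.g0 _ _ e)
  · rfl

end Idt

open Idt in
theorem idt : IDT := by
  intro τ T1 T2 S p _ st1 st2 M1 M2 s D _ h1 h2 h A1 A2
  have e := det3 (prt h p) A2 (fun c c' a b => mul_eq_zero_of_right _
    (one_apply_ne fun k => a (k ▸ b))) fun c a k => mul_eq_zero_of_left (A_zero h h2 k.2 _) _
  have d : (A2.submatrix (be h p) (be h p)).det =
      (A1.submatrix (Subtype.val : Kc T1 S (fun w => ¬ p w) → _) Subtype.val).det := by
    let N : Matrix (Kc T1 S fun w => ¬ p w) _ ℝ := diagonal fun c => (D.nu c.1.1.1 : ℝ)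
    have n : N.det ≠ 0 := by
      rw [det_diagonal]
      exact prod_ne_zero_iff.2 fun c _ => Nat.cast_ne_zero.2 (h.np _).ne'
    have : N * A2.submatrix (be h p) (be h p) = A1.submatrix Subtype.val Subtype.val * N := by
      ext c c'
      rw [diagonal_mul, mul_diagonal]
      exact (mul_assoc _ _ _).symm.trans ((congrArg (· * _) (h.ab _ _)).trans (mul_right_comm _ _ _))
    have := congrArg det this
    rw [det_mul, det_mul, mul_comm] at this
    exact mul_right_cancel₀ n this
  have z : A2.det ≠ 0 := (TS.kw_inv h2.bl (fun w w' k => by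
    rw [show w = w' from by_contra fun n => k (one_apply_ne n)]) h2.tri.det (by simp)).2
  rw [d] at e
  rw [e] at z
  exact ⟨left_ne_zero_of_mul (left_ne_zero_of_mul z), right_ne_zero_of_mul (left_ne_zero_of_mul z),
    right_ne_zero_of_mul z, by rw [e, abs_mul, abs_mul]⟩

end Crest.Agent.N49.Sd

end
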