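import Crest.Agent.N49.Sd.Stc
import Crest.Agent.N49.Sd.Idt
import Crest.Agent.N49.Sd.Fibx

/-!
# Row 49 (helper24): the insertion lemma from its pieces
-/

set_option autoImplicit false

open Matrix MvPolynomial Finset

noncomputable section

namespace Crest.Agent.N49.Sd

open Po Tw Br Idt

namespace Ip

variable {τ : Type} {T1 T2 : TS Unit} {S : Sh Unit τ} {p : S.W → Prop} {st1 : T1.C → ℕ}
  {st2 : T2.C → ℕ} {s : ℕ} {D : Tan T1 T2 S.W}

variable (D) in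
/-- the matrix of the linear part -/
def Lz (x : T1.Cw S) (c : T2.Cw S) : ℤ :=
  if D.fam c.1.1 = x.1.1 then S.cf ℤ x.1.2 (D.mon c.1.1 * X c.1.2) else 0

theorem L_eq {R : Type} [CommRing R] (y : T2.Cw S → R) (x : T1.Cw S) :
    D.L S y x = ∑ c, (Lz D x c : R) * y c := by
  have e : ∀ G, S.cf R x.1.2 (MvPolynomial.map (Int.castRingHom R) (D.mon G) * T2.Yw S y G) =
      ∑ c : T2.Cw S with c.1.1 = G, (S.cf ℤ x.1.2 (D.mon c.1.1 * X c.1.2) : R) * y c := fun G => by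
    rw [TS.Yw, mul_sum, map_sum]
    refine sum_congr rfl fun c hc => ?_
    rw [mul_left_comm, Sh.cf_C_mul, mul_comm, ← (mem_filter.1 hc).2,
      ← map_X (Int.castRingHom R), ← map_mul, Sh.cf_map]
    rfl
  rw [Tan.L, map_sum, sum_congr rfl fun G _ => e G, sum_fiberwise_eq_sum_filter, sum_filter]
  exact sum_congr rfl fun c _ => by simp [Lz]

theorem Lz_be (h : D.Ok S.dg st1 st2 s) (o : S.Ok) (x : T1.Cw S) (a : Kc T1 S fun w => ¬ p w) :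
    Lz D x (be h p a) = if x = a.1 then (D.nu a.1.1.1 : ℤ) else 0 := by
  change (if D.fam (D.bs a.1.1.1) = x.1.1 then S.cf ℤ x.1.2 (D.mon (D.bs a.1.1.1) * X a.1.1.2)
    else 0) = _
  rw [h.fb, h.mb, Sh.cf_C_mul, o.cf_X, mul_ite, mul_one, mul_zero, ← ite_and]
  exact if_congr (by rw [Subtype.ext_iff, Prod.ext_iff, eq_comm]) rfl rfl

theorem Lz_p (hI : S.Idl p) {x : T1.Cw S} {c : T2.Cw S} (a : p x.1.2) (b : ¬ p c.1.2) :
    Lz D x c = 0 := by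
  classical
  refine ite_eq_right_iff.2 fun _ => by_contra fun z => ?_
  obtain ⟨m, k, k'⟩ := Sh.cf_ne z
  rw [coeff_mul_X'] at k
  exact b (hI _ m a k' _ (by_contra fun n => k (if_neg n)))

theorem Lz_gr (h : D.Ok S.dg st1 st2 s) {x : T1.Cw S} {c : T2.Cw S} (z : Lz D x c ≠ 0) :
    D.gr c.1.1 = D.gr (D.bs x.1.1) := by
  have e : D.fam c.1.1 = x.1.1 := by_contra fun n => z (if_neg n)
  rw [← e]
  exact h.g2 _ fun k => z (by simp [Lz, k])

theorem kap_eq (y : T2.Cw S → ℤ) (x : T1.Cw S) :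
    D.kap S y x = S.cf ℤ x.1.2 (D.be x.1.1) + ∑ c, Lz D x c * y c := by
  rw [Tan.kap, L_eq]; rfl

theorem kap_p (hI : S.Idl p) {y y' : T2.Cw S → ℤ} (e : ∀ c, p c.1.2 → y c = y' c) {x : T1.Cw S}
    (a : p x.1.2) : D.kap S y x = D.kap S y' x := by
  rw [kap_eq, kap_eq]
  refine congrArg _ (sum_congr rfl fun c _ => ?_)
  by_cases b : p c.1.2
  · rw [e c b]
  · rw [Lz_p hI a b, zero_mul, zero_mul]

theorem zeta (h : D.Ok S.dg st1 st2 s) (o : S.Ok) (y y' : T2.Cw S → ℤ) (a : Kc T1 S fun w => ¬ p w)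
    (e : ∀ c, p c.1.2 ∨ (hj S D p c ∧ D.gr c.1.1 ≤ D.gr (be h p a).1.1) → y c = y' c) :
    D.kap S y a.1 - D.nu a.1.1.1 * y (be h p a) = D.kap S y' a.1 - D.nu a.1.1.1 * y' (be h p a) := by
  have k : ∀ y : T2.Cw S → ℤ, ∑ c, Lz D a.1 c * y c =
      D.nu a.1.1.1 * y (be h p a) + ∑ c ∈ univ.erase (be h p a), Lz D a.1 c * y c := fun y => by
    rw [← add_sum_erase _ _ (mem_univ (be h p a)), Lz_be h o, if_pos rfl]
  rw [kap_eq, kap_eq, k, k, sum_congr rfl fun c hc => show _ = Lz D a.1 c * y' c from ?_]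
  · ring
  by_cases z : Lz D a.1 c = 0
  · rw [z, zero_mul, zero_mul]
  rcases (prt h p).cov c with b | b | ⟨b, rfl⟩
  · rw [e c (.inl b)]
  · rw [e c (.inr ⟨b, (Lz_gr h z).le⟩)]
  · rw [Lz_be h o] at z
    exact absurd (congrArg _ (Subtype.ext (by_contra fun n => z (if_neg n) : a.1 = b.1)).symm)
      (ne_of_mem_erase hc)

theorem L_inj (h : D.Ok S.dg st1 st2 s) (o : S.Ok) {u u' : T2.Cw S → ℝ} {c : T2.Cw S}
    (e : ∀ c, c.1.1 ∉ Set.range D.bs → u c = u' c)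
    (k : ∀ F : {F // S.cd c.1.2 = T1.deg F}, D.L S u ⟨(F.1, c.1.2), F.2⟩ =
      D.L S u' ⟨(F.1, c.1.2), F.2⟩) : u c = u' c := by
  rcases (prt h fun _ => False).cov c with b | b | ⟨a, rfl⟩
  · exact b.elim
  · exact e c b.2
  have z : D.L S u a.1 = D.L S u' a.1 := k ⟨a.1.1.1, a.1.2⟩
  rw [L_eq, L_eq, ← add_sum_erase _ _ (mem_univ (be h _ a)), ← add_sum_erase _ _
    (mem_univ (be h _ a)), sum_congr rfl fun c hc => show _ = (Lz D a.1 c : ℝ) * u' c from ?_] at z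
  · have := add_right_cancel z
    rw [show Lz D _ (be h _ a) = _ from (Lz_be h o a.1 a).trans (if_pos rfl)] at this
    exact mul_left_cancel₀ (by exact_mod_cast (h.np _).ne') this
  rcases (prt h fun _ => False).cov c with b | b | ⟨b, rfl⟩
  · exact b.elim
  · exact congrArg _ (e c b.2)
  · have : Lz D a.1 (be h _ b) = 0 := (Lz_be h o _ _).trans (if_neg fun n =>
      ne_of_mem_erase hc (congrArg _ (Subtype.ext n).symm))
    exact (mul_eq_zero_of_left (Int.cast_eq_zero.2 this) _).trans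
      (mul_eq_zero_of_left (Int.cast_eq_zero.2 this) _).symm

theorem rsh_out {C H : Type} {β : H → C} (ν : H → ℕ) (r : H → ℤ) {c : C} (k : ¬ ∃ a, β a = c) :
    rsh β ν r c = 0 := Function.extend_apply' _ _ _ k

variable [DecidablePred p]

theorem gl_pos {T : TS Unit} {R : Type} (z : Kc T S p → R) (b : T.Cw S → R) {c : T.Cw S}
    (k : p c.1.2) : gl T S p z b c = z ⟨c, k⟩ := dif_pos k

theorem gl_neg {T : TS Unit} {R : Type} (z : Kc T S p → R) (b : T.Cw S → R) {c : T.Cw S}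
    (k : ¬ p c.1.2) : gl T S p z b c = b c := dif_neg k

theorem L_rsh (h : D.Ok S.dg st1 st2 s) (o : S.Ok) (y : T2.Cw S → ℤ)
    (r : Kc T1 S (fun w => ¬ p w) → ℤ) (x : T1.Cw S) : (S.cf ℤ x.1.2 (D.be x.1.1) : ℤ) +
      D.L S (zc y + rsh (be h p) (fun a => D.nu a.1.1.1) r) x =
      zc (gl T1 S (fun w => ¬ p w) r 0 + D.kap S y) x := by
  have e : ∑ c, (Lz D x c : ℝ) * rsh (be h p) (fun a => D.nu a.1.1.1) r c =
      (gl T1 S (fun w => ¬ p w) r 0 x : ℤ) := by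
    rw [← Fintype.sum_of_injective _ (prt h p).inj (fun a => if x = a.1 then (r a : ℝ) else 0) _
      (fun c k => by rw [rsh_out _ _ k, mul_zero]) fun a => ?_]
    · by_cases k : p x.1.2
      · rw [gl_neg (p := fun w => ¬ p w) _ _ (not_not.2 k), sum_eq_zero fun a _ => if_neg fun z => a.2 (z ▸ k)]
        simp
      · rw [gl_pos (p := fun w => ¬ p w) _ _ k, sum_eq_single ⟨x, k⟩ (fun a _ n => if_neg fun z =>
          n (Subtype.ext z.symm)) (by simp), if_pos rfl]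
    · rw [rsh, (prt h p).inj.extend_apply, Lz_be h o]
      split_ifs
      · exact (mul_div_cancel₀ _ (Nat.cast_ne_zero.2 (h.np _).ne')).symm
      · simp
  simp only [L_eq, zc, Pi.add_apply, kap_eq, mul_add, sum_add_distrib, e]
  push_cast
  ring

theorem gl_eq (hI : S.Idl p) (y : T2.Cw S → ℤ) (r z : Kc T1 S (fun w => ¬ p w) → ℤ)
    (e : ∀ a, z a = r a + D.kap S y a.1) :
    gl T1 S (fun w => ¬ p w) z (D.kap S (gl T2 S p (fun c => y c.1) 0)) =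
      gl T1 S (fun w => ¬ p w) r 0 + D.kap S y := funext fun x => by
  by_cases k : p x.1.2
  · rw [Pi.add_apply, gl_neg (p := fun w => ¬ p w) _ _ (not_not.2 k),
      gl_neg (p := fun w => ¬ p w) _ _ (not_not.2 k), Pi.zero_apply, zero_add]
    exact kap_p hI (fun c b => gl_pos _ _ b) k
  · rw [Pi.add_apply, gl_pos (p := fun w => ¬ p w) _ _ k, gl_pos (p := fun w => ¬ p w) _ _ k, e]

theorem fb_u {T : TS Unit} (st : T.C → ℕ) (Ψ : T.Twd S) (b : T.Cw S → ℤ) (z : Kc T S p → ℤ)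
    (a : Kc T S p) : (fb T S p st Ψ b).u (zc z) a = (T.tw S Ψ).u (zc (gl T S p z b)) a.1 :=
  (TS.u_cut (T.lw S st Ψ) _ b _ a).trans
    (congrArg (fun y => (T.tw S Ψ).u y a.1) (zc_glue z b).symm)

theorem fb_Zc {T : TS Unit} {st : T.C → ℕ} {M : ℕ} (hs : T.Stg st M) (o : S.Ok) {Ψ : T.Twd S}
    (a : T.Adm S st Ψ) (b : T.Cw S → ℤ) : (fb T S p st Ψ b).Zc = dt (fb T S p st Ψ 0).K⁻¹ /
      |((T.kw S (T.stg st).A 1).submatrix (Subtype.val : Kc T S p → _) Subtype.val).det| := by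
  rw [TS.Zc_eq, ← TS.lw_A hs a o]
  exact congrArg (fun A => _ / |det A|) ((TS.lw_tri hs a o).A_cut _ b)

end Ip

/-- `INS2` with the shape of the new twist -/
def INS3 : Prop := ∀ (τ : Type) (T1 T2 : TS Unit) (S : Sh Unit τ) (p : S.W → Prop) [DecidablePred p]
  (st1 : T1.C → ℕ) (st2 : T2.C → ℕ) (M1 M2 : ℕ) (D : Tan T1 T2 S.W) (Ψ1 : T1.Twd S)
  (K2 K' : Matrix S.W S.W ℝ) (Y : Finset (Kc T2 S p → ℤ))
  (G : (Kc T2 S p → ℤ) → (T1.Cw S → ℤ) → ℝ) (B : ℝ), S.Ok → (S.setK K2).Ok → (S.setK K').Ok →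
  S.Idl p → T1.Stg st1 M1 → T2.Stg st2 M2 → D.Ok S.dg st1 st2 0 → D.Adq st1 st2 → D.Rid S →
  T1.Adm S st1 Ψ1 → (∀ y (c : T1.Cw S), p c.1.2 → (T1.tw S Ψ1).u y c = (T1.tw S (tpw T1 S)).u y c) →
  (∀ u : T2.Cw S → ℝ, 2 * (qf (fb T2 (S.setK K2) p st2 (tpw T2 _) 0).K⁻¹ (fun c => u c.1) +
    qf (fb T1 S (fun w => ¬ p w) st1 Ψ1 0).K⁻¹ fun c => D.L S u c.1) ≤
      qf (T2.kw S T2.K K')⁻¹ u) → (∀ b z, |G b z| ≤ B) →
  ∃ (Ψ : T2.Twd (S.setK K')) (r : T1.Cw S → ℤ) (ρ o : T2.Cw S → ℝ), T2.Adm (S.setK K') st2 Ψ ∧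
    (∀ c, p c.1.2 → r c = 0) ∧ (∀ c, p c.1.2 ∨ c.1.1 ∉ Set.range D.bs → ρ c = 0) ∧
    (∀ q : S.W → Prop, (∀ y (c : T1.Cw S), q c.1.2 →
      (T1.tw S Ψ1).u y c = (T1.tw S (tpw T1 S)).u y c) → ∀ (y : T2.Cw S → ℝ) (c : T2.Cw S),
      q c.1.2 → (T2.tw (S.setK K') Ψ).u y c = (T2.tw S (tpw T2 S)).u (y + ρ) c - o c) ∧
    (∀ y (c : T1.Cw S), (S.cf ℤ c.1.2 (D.be c.1.1) : ℤ) + D.L S (zc y + ρ) c =
      zc (r + D.kap S y) c) ∧
    (∀ y (c : T1.Cw S), (T1.tw S Ψ1).u (zc (r + D.kap S y)) c = S.cf ℝ c.1.2 (D.bu c.1.1) +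
      D.L S (fun c' => (T2.tw (S.setK K') Ψ).u (zc y) c' + o c') c) ∧
    ∑ b ∈ Y, (fb T2 (S.setK K2) p st2 (tpw T2 _) 0).wt b / (fb T2 (S.setK K2) p st2 (tpw T2 _) 0).Zc *
        hid T1 S p st1 Ψ1 (D.kap S (gl T2 S p b 0)) (G b) ≤
      (T2.lw (S.setK K') st2 Ψ).N fun y =>
        if (fun c : Kc T2 S p => y c.1) ∈ Y then G (fun c => y c.1) (r + D.kap S y) else 0

open Ip in
theorem ins3 (insa : INSA) (ish : ISH) (itw : ITW2) (idt : IDT) (itr : ITR) : INS3 := by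
  intro τ T1 T2 S p _ st1 st2 M1 M2 D Ψ1 K2 K' Y G B o o2 o' hI h1 h2 h ad ri a1 hp hq hG
  let _ : DecidablePred (hj S D p) := Classical.decPred _
  obtain ⟨Ψ, aΨ, hΨ⟩ := itw τ T1 T2 S p st1 st2 M1 M2 D Ψ1 o h1 h2 h ad ri a1 hp
  obtain ⟨-, -, d3, d⟩ := idt τ T1 T2 S p st1 st2 M1 M2 0 D h1 h2 h
  have eL : ∀ u : T2.Cw S → ℝ, (of fun (a : Kc T1 S fun w => ¬ p w) c => (Lz D a.1 c : ℝ)) *ᵥ u =
      fun a => D.L S u a.1 := fun u => funext fun a => (L_eq u a.1).symm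
  refine (insa (T2.Cw S) (Kc T1 S fun w => ¬ p w) (fun c => p c.1.2) (hj S D p)
    (be h p) (fun a => D.nu a.1.1.1) (of fun a c => (Lz D a.1 c : ℝ))
    (fb T2 (S.setK K2) p st2 (tpw T2 _) 0).K⁻¹ (fb T1 S (fun w => ¬ p w) st1 Ψ1 0).K⁻¹
    (T2.kw S T2.K K') (fun a => S.cf ℝ a.1.1.2 (D.bu a.1.1.1))
    ((T2.kw S (T2.stg st2).A 1).submatrix Subtype.val Subtype.val) (fun c => D.gr c.1.1)
    (T2.tw S Ψ).u (fun y a => D.kap S y a.1 - D.nu a.1.1.1 * y (be h p a))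
    (fun b => (fb T2 (S.setK K2) p st2 (tpw T2 _) 0).u (zc b))
    (fun b z => (fb T1 S (fun w => ¬ p w) st1 Ψ1 (D.kap S (gl T2 S p b 0))).u (zc z))
    (fun b z => G b (gl T1 S (fun w => ¬ p w) z (D.kap S (gl T2 S p b 0)))) Y B (prt h p)
    (fun _ => h.np _) (fun a a' => ?_) ?_ ?_ (TS.kw_posDef h2.cl.1.pd o'.pd) (fun u => ?_) d3
    (fun c c' z => ?_) (fun c c' z => ?_) (zeta h o) (fun y y' c k => ?_) (fun y r c => ?_)
    (fun y r => funext fun a => ?_) (fun b => ?_) fun b z => hG _ _).elim fun r ⟨x, e⟩ => ?_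
  · rw [of_apply, Lz_be h o, apply_ite Int.cast, Int.cast_zero]
    exact if_congr Subtype.ext_iff.symm rfl rfl |>.trans (by split_ifs with k <;> simp [k])
  · exact (Fx.fb_tri (S := S.setK K2) p h2 o2 (Fx.adm_tpw h2 _) 0).pd.inv
  · exact (Fx.fb_tri (fun w => ¬ p w) h1 o a1 0).pd.inv
  · rw [eL]; exact hq u
  · exact h.g0 _ _ (by_contra fun n => left_ne_zero_of_mul z (by rw [TS.stg_A, if_neg n]))
  · exact h.g0 _ _ (h2.blk (left_ne_zero_of_mul z))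
  · rw [(hΨ y).1 _ (.inl c.2.2), (hΨ y').1 _ (.inl c.2.2)]
    exact itr τ T1 T2 S p st1 st2 M2 0 D o h2 h y y' c k
  · exact ((hΨ _).1 _ (.inr c.2)).trans (((TS.tw_low hI).u_congr (fun c' k => by
      rw [Pi.add_apply, rsh_out _ _ fun ⟨a, z⟩ => (prt h p).pb a (z ▸ k), add_zero]; rfl) c.2).trans
      ((TS.lw_low (S := S.setK K2) (st := st2) hI).u_cut 0 (zc y) c).symm)
  · refine Eq.trans ?_ (fb_u (p := fun w => ¬ p w) st1 Ψ1 _ _ a).symm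
    rw [eL]
    refine (congrFun (hΨ _).2 a.1).symm.trans (congrArg (fun z => (T1.tw S Ψ1).u z a.1) ?_)
    exact (funext (L_rsh h o y r)).trans (congrArg zc (gl_eq hI y r _ fun a => by ring).symm)
  · exact (Fx.fb_tri (fun w => ¬ p w) h1 o a1 (D.kap S (gl T2 S p b 0))).summable
  obtain ⟨Ψ', a', u'⟩ := ish τ T2 (S.setK K') st2 M2 Ψ (rsh (be h p) (fun a => D.nu a.1.1.1) r) o' h2
    ⟨aΨ.gr, aΨ.le, aΨ.top⟩
  have ao := Ho.adm_ot h2.cl.1 a' x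
  have uo : ∀ y : T2.Cw S → ℝ, (T2.tw (S.setK K') (Ho.ot Ψ' x)).u y = fun c =>
      (T2.tw S Ψ).u (y + rsh (be h p) (fun a => D.nu a.1.1.1) r) c - x c := fun y =>
    (congrFun (congrArg (fun Φ (y : T2.Cw S → ℝ) c => eval y (Φ c)) (Ho.off_Φ o' Ψ' x)) y).trans
      ((TS.off_u (T2.tw _ Ψ') x y).trans (funext fun c => congrArg (· - x c) (congrFun (u' y) c)))
  refine ⟨Ho.ot Ψ' x, gl T1 S (fun w => ¬ p w) r 0,
    rsh (be h p) (fun a => D.nu a.1.1.1) r, x, ao, fun c k =>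
    gl_neg (p := fun w => ¬ p w) _ _ (not_not.2 k), fun c k => rsh_out _ r fun ⟨a, z⟩ =>
      k.elim (fun k => (prt h p).pb a (z ▸ k)) fun k => k ⟨_, congrArg (fun x : T2.Cw S => x.1.1) z⟩,
    fun q hq y c k => (congrFun (uo y) c).trans (congrArg (· - x c) ?_), fun y => L_rsh h o y r,
    fun y c => ?_, ?_⟩
  · refine L_inj h o (fun c k => (hΨ _).1 c (.inl k)) (fun F => add_left_cancel
      ((congrFun (hΨ _).2 _).symm.trans ((hq _ _ k).trans (congrFun (ri _) _))))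
  · refine (congrArg (fun z => (T1.tw S Ψ1).u z c) (funext (L_rsh h o y r)).symm).trans
      ((congrFun (hΨ _).2 c).trans (congrArg (fun z => _ + D.L S z c) (funext fun c' => ?_)))
    exact eq_add_of_sub_eq (congrFun (uo (zc y)) c').symm
  have m := mul_le_mul_of_nonneg_left e (mul_nonneg (abs_nonneg ((T2.kw S (T2.stg st2).A 1).submatrix
    (Subtype.val : Kc T2 S p → _) Subtype.val).det) (abs_nonneg ((T1.kw S (T1.stg st1).A 1).submatrix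
    (Subtype.val : Kc T1 S (fun w => ¬ p w) → _) Subtype.val).det))
  rw [← mul_assoc, ← d, mul_sum] at m
  refine (sum_congr rfl fun b _ => ?_).trans_le (m.trans_eq ?_)
  · rw [hid, TS.N, fb_Zc h2 o2 (Fx.adm_tpw h2 _), fb_Zc h1 o a1, div_div_eq_mul_div,
      div_div_eq_mul_div]
    exact (show ∀ a b c d e f : ℝ, a * b / c * (d * e / f) = b * e * (a / c * (d / f)) from
      fun _ _ _ _ _ _ => by ring) _ _ _ _ _ _
  · rw [TS.N, TS.Zc_eq, TS.lw_A h2 ao o', div_div_eq_mul_div, mul_comm, div_mul_eq_mul_div]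
    refine congrArg (fun t => t * _ / _) (tsum_congr fun y => congrArg₂ (· * ·) ?_ ?_)
    · exact congrArg (gs _) (uo (zc y)).symm
    · exact if_congr Iff.rfl (congrArg _ (gl_eq hI y r _ fun a => by ring)) rfl

theorem ins2 (insa : INSA) (ish : ISH) (itw : ITW2) (idt : IDT) (itr : ITR) : INS2 :=
  fun τ T1 T2 S p _ st1 st2 M1 M2 D Ψ1 K2 K' Y G B o o2 o' hI h1 h2 h ad ri a1 hp hq hG =>
  let ⟨Ψ, r, _, _, a, b, _, _, _, _, e⟩ := ins3 insa ish itw idt itr τ T1 T2 S p st1 st2 M1 M2 D Ψ1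
    K2 K' Y G B o o2 o' hI h1 h2 h ad ri a1 hp hq hG
  ⟨Ψ, r, a, b, e⟩

end Crest.Agent.N49.Sd

end
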