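import Crest.Agent.N49.Sd.Ik

/-!
# Row 49 (helper16): residues, reindexing and pigeonhole
-/

set_option autoImplicit false

open Finset

namespace Crest.Agent.N49.Sd

theorem irx : IRX := fun C H _ _ p j β ν ζ F P hν hζ hF => by
  classical
  let Φ : (H → ℤ) → (C → ℤ) → (({c // p c} → ℤ) × (H → ℤ)) × ({c // j c} → ℤ) := fun r y =>
    ((fun c => y c.1, fun h => r h + ζ y h + ν h * y (β h)), fun c => y c.1)
  have key : ∀ r r' y y', Φ r y = Φ r' y' → (∀ c, p c ∨ j c → y c = y' c) ∧
      ∀ h, r h + ν h * y (β h) = r' h + ν h * y' (β h) := fun r r' y y' e => by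
    have a : ∀ c, p c ∨ j c → y c = y' c := fun c k => k.elim
      (fun k => congrFun (congrArg (·.1.1) e) ⟨c, k⟩) fun k => congrFun (congrArg (·.2) e) ⟨c, k⟩
    refine ⟨a, fun h => ?_⟩
    have b : r h + ζ y h + ν h * y (β h) = r' h + ζ y' h + ν h * y' (β h) :=
      congrFun (congrArg (·.1.2) e) h
    rw [hζ y y' a] at b
    linarith
  have inj : ∀ r, Function.Injective (Φ r) := fun r y y' e => funext fun c => by
    obtain ⟨a, b⟩ := key r r y y' e
    rcases P.cov c with k | k | ⟨h, rfl⟩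
    exacts [a c (.inl k), a c (.inr k),
      mul_left_cancel₀ (Int.natCast_ne_zero.2 (hν h).ne') (add_left_cancel (b h))]
  refine ⟨fun r => hF.comp_injective (inj r), ?_⟩
  let Ψ : (∀ h, Fin (ν h)) × (C → ℤ) → _ := fun x => Φ (fun h => (x.1 h : ℕ)) x.2
  have bij : Function.Bijective Ψ := by
    constructor
    · rintro ⟨r, y⟩ ⟨r', y'⟩ e
      obtain rfl : r = r' := funext fun h => Fin.ext (by
        have a := congrArg (· % (ν h : ℤ)) ((key _ _ _ _ e).2 h)
        simp only [Int.add_mul_emod_self_left, ← Int.natCast_mod, Nat.mod_eq_of_lt (r h).2,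
          Nat.mod_eq_of_lt (r' h).2] at a
        exact_mod_cast a)
      exact congrArg _ (inj _ e)
    · rintro ⟨⟨b, z⟩, n⟩
      let y0 : C → ℤ := fun c => if k : p c then b ⟨c, k⟩ else if k : j c then n ⟨c, k⟩ else 0
      let y : C → ℤ := Function.extend β (fun h => (z h - ζ y0 h) / ν h) y0
      have e : ∀ c, p c ∨ j c → y c = y0 c := fun c k => Function.extend_apply' _ _ _ (by
        rintro ⟨h, rfl⟩
        exact k.elim (P.pb h) (P.jb h))
      have n0 : ∀ h, 0 ≤ (z h - ζ y0 h) % ν h := fun h =>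
        Int.emod_nonneg _ (Int.natCast_ne_zero.2 (hν h).ne')
      refine ⟨(fun h => ⟨((z h - ζ y0 h) % ν h).toNat, ?_⟩, y), Prod.ext (Prod.ext
        (funext fun c => ?_) (funext fun h => ?_)) (funext fun c => ?_)⟩
      · have := Int.emod_lt_of_pos (z h - ζ y0 h) (Int.natCast_pos.2 (hν h))
        have := hν h
        omega
      · exact (e _ (.inl c.2)).trans (dif_pos c.2)
      · change (((z h - ζ y0 h) % ν h).toNat : ℤ) + ζ y h + ν h * y (β h) = z h
        rw [hζ y y0 e, show y (β h) = _ from P.inj.extend_apply _ _ h, Int.toNat_of_nonneg (n0 h)]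
        linarith [Int.mul_ediv_add_emod (z h - ζ y0 h) (ν h)]
      · exact (e _ (.inr c.2)).trans ((dif_neg fun k => P.pj _ k c.2).trans (dif_pos c.2))
  have : Nonempty (∀ h, Fin (ν h)) := ⟨fun h => ⟨0, hν h⟩⟩
  obtain ⟨r, -, hr⟩ := exists_max_image univ (fun r => ∑' y, F (Ψ (r, y))) univ_nonempty
  refine ⟨fun h => (r h : ℕ), ?_⟩
  rw [← (Equiv.ofBijective Ψ bij).tsum_eq]
  refine ((((Equiv.ofBijective Ψ bij).summable_iff.2 hF).tsum_prod).trans (tsum_fintype _)).trans_le
    ((sum_le_card_nsmul _ _ _ hr).trans_eq ?_)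
  simp only [card_univ, Fintype.card_pi, Fintype.card_fin, nsmul_eq_mul, Nat.cast_prod]
  rfl

end Crest.Agent.N49.Sd
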