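import Crest.Agent.N49.Sd.Ins
import Crest.Agent.N49.La.Cost

/-!
# Row 49 (helper85): a Gaussian weight is a mixture of narrower ones
-/

set_option autoImplicit false

open Matrix

namespace Crest.Agent.N49.Sd

open Po
open scoped MatrixOrder

theorem mixp : MIXP := by
  intro C Y _ _ _ P P' a g B h h' k s hg
  have p : (P⁻¹ - P'⁻¹).PosSemidef := .of_dotProduct_mulVec_nonneg (h.inv.1.sub h'.inv.1) fun x => by
    rw [sub_mulVec, dotProduct_sub]; exact sub_nonneg.2 (La.qf_inv_le h h' k x)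
  obtain ⟨A, hA⟩ := CStarAlgebra.nonneg_iff_eq_star_mul_self.1 p.nonneg
  have e : P = (P'⁻¹ + Aᵀ * 1 * Aᵀᵀ)⁻¹ := by
    rw [Matrix.mul_one, transpose_transpose, show Aᵀ * A = P⁻¹ - P'⁻¹ by
      simpa [star_eq_conjTranspose] using hA.symm, add_sub_cancel, inv_inv' h]
  obtain ⟨x, hx⟩ := Rf.mix_pick h'.inv PosDef.one Aᵀ a (e ▸ s) hg
  rw [← e, inv_inv' h'] at hx
  exact ⟨_, hx⟩

end Crest.Agent.N49.Sd
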