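import Crest.Agent.N49.Sd.Ik
import Crest.Agent.N49.Sd.Tile
import Crest.Agent.N49.Sd.Mixp

/-!
# Row 49 (helper95): the abstract insertion lemma
-/

set_option autoImplicit false

open Matrix Finset

noncomputable section

namespace Crest.Agent.N49.Sd

open Po Tw

namespace Ia

variable {C H : Type} (p j : C → Prop) [DecidablePred p] [DecidablePred j] (β : H → C) (ν : H → ℕ)
  (ζ : (C → ℤ) → H → ℤ)

/-- the integer lift -/
def l0 (b : {c // p c} → ℤ) (n : {c // j c} → ℤ) : C → ℤ := glue p b (glue j n 0)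

/-- the real lift -/
def l1 (a : ({c // p c} → ℤ) × (H → ℤ)) (n : {c // j c} → ℤ) : C → ℝ :=
  Function.extend β (fun h => ((a.2 h : ℝ) - ζ (l0 p j a.1 n) h) / ν h) (zc (l0 p j a.1 n))

variable {p j β ν ζ}

theorem l0_p (b : {c // p c} → ℤ) (n : {c // j c} → ℤ) {c : C} (h : p c) :
    l0 p j b n c = b ⟨c, h⟩ := glue_pos _ _ h

theorem l0_j (P : Prt p j β) (b : {c // p c} → ℤ) (n : {c // j c} → ℤ) {c : C} (h : j c) :
    l0 p j b n c = n ⟨c, h⟩ := (glue_neg _ _ fun k => P.pj c k h).trans (glue_pos _ _ h)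

theorem l0_res (P : Prt p j β) (y : C → ℤ) (c : C) (h : p c ∨ j c) :
    l0 p j (fun c => y c.1) (fun c => y c.1) c = y c :=
  h.elim (fun h => l0_p _ _ h) fun h => l0_j P _ _ h

omit [DecidablePred p] [DecidablePred j] in
theorem nr (P : Prt p j β) {c : C} (h : p c ∨ j c) : ¬ ∃ a, β a = c := by
  rintro ⟨a, rfl⟩
  exact h.elim (P.pb a) (P.jb a)

theorem l1_b (P : Prt p j β) (a : ({c // p c} → ℤ) × (H → ℤ)) (n : {c // j c} → ℤ) (h : H) :
    l1 p j β ν ζ a n (β h) = ((a.2 h : ℝ) - ζ (l0 p j a.1 n) h) / ν h := P.inj.extend_apply _ _ _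

theorem l1_o (P : Prt p j β) (a : ({c // p c} → ℤ) × (H → ℤ)) (n : {c // j c} → ℤ) {c : C}
    (h : p c ∨ j c) : l1 p j β ν ζ a n c = l0 p j a.1 n c := Function.extend_apply' _ _ _ (nr P h)

theorem l1_eq (P : Prt p j β) (hν : ∀ h, 0 < ν h)
    (hζ : ∀ y y', (∀ c, p c ∨ j c → y c = y' c) → ζ y = ζ y') (y : C → ℤ) (r : H → ℤ) :
    l1 p j β ν ζ (fun c => y c.1, fun h => r h + ζ y h + ν h * y (β h)) (fun c => y c.1) =
      zc y + rsh β ν r := by
  funext c
  by_cases k : p c ∨ j c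
  · rw [l1_o P _ _ k, l0_res P y c k, Pi.add_apply, rsh, Function.extend_apply' _ _ _ (nr P k)]
    simp [zc]
  · obtain ⟨h, rfl⟩ : ∃ h, β h = c := by
      rcases P.cov c with a | a | a
      exacts [(k (.inl a)).elim, (k (.inr a)).elim, a]
    have : (ν h : ℝ) ≠ 0 := Nat.cast_ne_zero.2 (hν h).ne'
    rw [l1_b P, hζ _ y (l0_res P y), Pi.add_apply, rsh, P.inj.extend_apply]
    simp only [zc]
    push_cast
    field_simp
    ring

theorem l1_tri (P : Prt p j β) {lev : C → ℕ}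
    (hζ : ∀ y y' h, (∀ c, p c ∨ (j c ∧ lev c ≤ lev (β h)) → y c = y' c) → ζ y h = ζ y' h)
    (a : ({c // p c} → ℤ) × (H → ℤ)) {n n' : {c // j c} → ℤ} {l : ℕ}
    (e : ∀ c : {c // j c}, lev c.1 < l → n c = n' c) (c : C) (h : p c ∨ lev c < l) :
    l1 p j β ν ζ a n c = l1 p j β ν ζ a n' c := by
  have k : ∀ c, p c ∨ (j c ∧ lev c < l) → l0 p j a.1 n c = l0 p j a.1 n' c := fun c h =>
    h.elim (fun h => by rw [l0_p _ _ h, l0_p _ _ h]) fun h => by
      rw [l0_j P _ _ h.1, l0_j P _ _ h.1, e ⟨c, h.1⟩ h.2]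
  rcases P.cov c with q | q | ⟨b, rfl⟩
  · rw [l1_o P _ _ (.inl q), l1_o P _ _ (.inl q), k c (.inl q)]
  · rw [l1_o P _ _ (.inr q), l1_o P _ _ (.inr q), k c (h.imp_right fun h => ⟨q, h⟩)]
  · rw [l1_b P, l1_b P, hζ _ (l0 p j a.1 n') b fun c q => k c (q.imp_right fun q =>
      ⟨q.1, q.2.trans_lt (h.resolve_left (P.pb b))⟩)]

theorem mulVec_blk {J : Type} [Fintype J] {lev : J → ℕ} {M : Matrix J J ℝ} (h : Rw.Blk lev M)
    {u u' : J → ℝ} {i : J} (e : ∀ k, lev k = lev i → u k = u' k) : (M *ᵥ u) i = (M *ᵥ u') i :=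
  sum_congr rfl fun k _ => by
    by_cases z : lev i = lev k
    · rw [e k z.symm]
    · simp only [h i k z, zero_mul]

theorem sm_fin {X Z : Type} [DecidableEq X] (Y : Finset X) {f : X → Z → ℝ}
    (hf : ∀ b, Summable (f b)) :
    HasSum (fun a : X × Z => if a.1 ∈ Y then f a.1 a.2 else 0) (∑ b ∈ Y, ∑' z, f b z) := by
  have e : (fun a : X × Z => if a.1 ∈ Y then f a.1 a.2 else 0) =
      fun a => ∑ b ∈ Y, if a.1 = b then f b a.2 else 0 := funext fun a => by rw [sum_ite_eq]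
  rw [e]
  refine hasSum_sum fun b _ => ?_
  have i : Function.Injective (Prod.mk b : Z → X × Z) := Prod.mk_right_injective b
  refine (i.hasSum_iff fun a ha => if_neg fun z => ha ⟨a.2, by rw [← z]⟩).1 ?_
  simpa [Function.comp_def] using (hf b).hasSum

end Ia

open Ia in
theorem insa (iga : IGA) (irx : IRX) : INSA := by
  intro C H _ _ _ _ p j _ _ β ν L Q1 Q2 K v A lev U ζ U1 E g Y B P hν hL h1 h2 hK hq hA bA bK hζ hU
    e1 e2 sE hg
  have hζ' : ∀ y y', (∀ c, p c ∨ j c → y c = y' c) → ζ y = ζ y' := fun y y' e =>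
    funext fun h => hζ y y' h fun c k => e c (k.imp_right And.left)
  set Q3 : Matrix {c // j c} {c // j c} ℝ :=
    (1 / 2 : ℝ) • (K.submatrix Subtype.val Subtype.val)⁻¹ with hQ3
  have h3 : Q3.PosDef := (hK.submatrix Subtype.val_injective).inv.smul (by norm_num)
  have kA : Rw.Blk (fun c : {c // j c} => lev c.1) A := fun c c' n => by_contra fun z => n (bA c c' z)
  have k3 : Rw.Blk (fun c : {c // j c} => lev c.1) Q3 := fun c c' n => by
    rw [hQ3, Matrix.smul_apply, blk_inv (M := K.submatrix Subtype.val Subtype.val)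
      (fun c c' n => by_contra fun z => n (bK _ _ z)) c c' n, smul_zero]
  have hM : (Aᵀ * Q3 * A).PosDef := posDef_conj h3
    (mulVec_injective_iff_isUnit.2 ((isUnit_iff_isUnit_det _).2 hA.isUnit))
  have kM := blk_mul (blk_mul (blk_tr kA) k3) kA
  let θ : ({c // p c} → ℤ) × (H → ℤ) → ({c // j c} → ℤ) → {c // j c} → ℝ := fun a n =>
    -(A⁻¹ *ᵥ ((fun c => U (l1 p j β ν ζ a n) c.1) - A *ᵥ fun c => l1 p j β ν ζ a n c.1))
  have tθ : ∀ a n n' c, (∀ c' : {c // j c}, lev c'.1 < lev c.1 → n c' = n' c') →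
      θ a n c = θ a n' c := fun a n n' c e =>
    congrArg Neg.neg (mulVec_blk (blk_inv kA) fun k z => hU _ _ k fun c' q =>
      l1_tri P hζ a e c' (q.imp_right fun q => q.trans_eq z))
  have eθ : ∀ a n x, gs (Aᵀ * Q3 * A) (zc n - θ a n - x) =
      gs Q3 ((fun c => U (l1 p j β ν ζ a n) c.1) - A *ᵥ x) := fun a n x => by
    have : (fun c : {c // j c} => l1 p j β ν ζ a n c.1) = zc n := funext fun c => by
      rw [l1_o P _ _ (.inr c.2), l0_j P _ _ c.2]; rfl
    rw [gs, gs, qf_conj, mulVec_sub, mulVec_sub]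
    simp only [θ, this, mulVec_neg, mulVec_mulVec, mul_nonsing_inv _ hA.isUnit, one_mulVec]
    congr 4
    abel
  have T := fun (G : ({c // p c} → ℤ) → (H → ℤ) → ℝ) (s : ∀ b, Summable fun z =>
      gs Q1 (U1 b) * (gs Q2 (E b z) * G b z)) =>
    tile _ _ (fun c : {c // j c} => lev c.1) _ _ θ hM (sm_fin Y s).summable tθ
      fun c c' z => by_contra fun n => z (kM c c' n)
  have sg : ∀ b, Summable fun z => gs Q2 (E b z) * g b z := fun b =>
    .of_norm_bounded ((sE b).mul_right B) fun z => by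
      rw [norm_mul, Real.norm_of_nonneg (gs_pos _ _).le]
      exact mul_le_mul_of_nonneg_left (hg b z) (gs_pos _ _).le
  obtain ⟨s0, x, hx⟩ := T g fun b => (sg b).mul_left _
  have s1 := (T (fun _ _ => 1) fun b => ((sE b).mul_right 1).mul_left _).1 x
  obtain ⟨r, hr⟩ := (irx C H p j β ν ζ _ P hν hζ' (s0 x)).2
  have s2 := (irx C H p j β ν ζ _ P hν hζ' s1).1 r
  obtain ⟨P', u0, p1, p2, p3, p4⟩ := iga C H p j β ν L Q1 Q2 K v (A *ᵥ x) P hν hL h1 h2 hK hq
  have key : ∀ (G : ({c // p c} → ℤ) → (H → ℤ) → ℝ) (y : C → ℤ),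
      (if (fun c : {c // p c} => y c.1) ∈ Y then gs Q1 (U1 fun c => y c.1) *
        (gs Q2 (E (fun c => y c.1) fun h => r h + ζ y h + ν h * y (β h)) *
          G (fun c => y c.1) fun h => r h + ζ y h + ν h * y (β h)) else 0) *
        gs (Aᵀ * Q3 * A) (zc (fun c : {c // j c} => y c.1) - θ (fun c => y c.1,
          fun h => r h + ζ y h + ν h * y (β h)) (fun c => y c.1) - x) =
      {y : C → ℤ | (fun c : {c // p c} => y c.1) ∈ Y}.indicator (fun y =>
        gs P' (U (zc y + rsh β ν r) - u0) *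
          G (fun c => y c.1) fun h => r h + ζ y h + ν h * y (β h)) y := fun G y => by
    rw [eθ, l1_eq P hν hζ']
    split_ifs with k
    · rw [Set.indicator_of_mem (s := {y : C → ℤ | (fun c : {c // p c} => y c.1) ∈ Y}) k, ← p4, e2,
        show (fun c : {c // p c} => U (zc y + rsh β ν r) c.1) = U1 fun c => y c.1 from
          funext (e1 y r)]
      ring
    · rw [Set.indicator_of_notMem (s := {y : C → ℤ | (fun c : {c // p c} => y c.1) ∈ Y}) k, zero_mul]
  replace s2 := s2.congr (key fun _ _ => 1)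
  simp only [key] at hr
  rw [← _root_.tsum_subtype] at hr
  obtain ⟨x', hx'⟩ := mixp C {y : C → ℤ | (fun c : {c // p c} => y c.1) ∈ Y} P' K⁻¹
    (fun y => U (zc y.1 + rsh β ν r) - u0)
    (fun y => g (fun c => y.1 c.1) fun h => r h + ζ y.1 h + ν h * y.1 (β h)) B p1 hK.inv p2
    (by simpa [Function.comp_def] using summable_subtype_iff_indicator.2 s2) fun _ => hg _ _
  refine ⟨r, u0 + x', le_trans ?_ (mul_le_mul_of_nonneg_left (hx'.trans_eq ?_) (abs_nonneg _))⟩
  · have a := hx.trans hr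
    rw [(sm_fin Y (f := fun b z => gs Q1 (U1 b) * (gs Q2 (E b z) * g b z))
      fun b => (sg b).mul_left _).tsum_eq, Rf.dt_conj] at a
    have d1 := dt_pos h1
    have d2 := dt_pos h2
    have d3 := dt_pos h3
    have d4 := dt_pos p1
    have d5 := abs_pos.2 hA
    have d6 : 0 < ∏ h, (ν h : ℝ) := prod_pos fun h _ => Nat.cast_pos.2 (hν h)
    simp only [tsum_mul_left] at a
    simp only [div_mul_div_comm]
    rw [← sum_div, ← mul_div_assoc, div_le_div_iff₀ (mul_pos d1 d2) d4]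
    rw [← mul_div_assoc, div_le_iff₀ d5] at a
    refine le_of_mul_le_mul_right ?_ (mul_pos d6 d3)
    calc _ = (∑ b ∈ Y, gs Q1 (U1 b) * ∑' z, gs Q2 (E b z) * g b z) * dt Q3 *
          (dt P' * ∏ h, (ν h : ℝ)) := by ring
      _ ≤ _ := (mul_le_mul_of_nonneg_right a (mul_pos d4 d6).le).trans_eq (by rw [p3]; ring)
  · congr 1
    simp only [sub_sub]
    refine (_root_.tsum_subtype _ fun y : C → ℤ => gs K⁻¹ (U (zc y + rsh β ν r) - (u0 + x')) *
      g (fun c => y c.1) fun h => r h + ζ y h + ν h * y (β h)).trans (tsum_congr fun y => ?_)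
    split_ifs with k
    · exact Set.indicator_of_mem (s := {y : C → ℤ | (fun c : {c // p c} => y c.1) ∈ Y}) k _
    · rw [Set.indicator_of_notMem (s := {y : C → ℤ | (fun c : {c // p c} => y c.1) ∈ Y}) k, mul_zero]

end Crest.Agent.N49.Sd

end
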