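import Crest.Agent.N49.Sd.Ik
import Crest.Agent.N49.Rf.Twr

/-!
# Row 49 (helper91): real translates of a twist
-/

set_option autoImplicit false

open Matrix MvPolynomial Finset

noncomputable section

namespace Crest.Agent.N49.Sd

open Po Tw

theorem ish : ISH := fun τ T S st M Ψ ρ _ hs a => by
  refine ⟨T.tsb S (T.Yw S ρ) 1 Ψ, a.tsb hs.cl.1.lev_pos (fun _ => TS.Yw_dg _ _) one_ne_zero,
    fun y => funext fun p => ?_⟩
  have e : (fun c => T.Yw S ρ c + C ((1 : ℝ) ^ T.lev c) * T.Yw S y c) = T.Yw S (y + ρ) :=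
    funext fun c => (TS.Yw_lin ρ y (1 ^ ·) c).trans
      (congrArg (T.Yw S · c) (funext fun q => by simp [add_comm]))
  rw [TS.tw_u, TS.tw_u, TS.eval_tsb, e, one_pow, inv_one, C_1, one_mul]

end Crest.Agent.N49.Sd

end
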