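import Crest.Agent.N49.Sd.Ik

/-!
# Row 49 (helper52): triangularity of the inserted words
-/

set_option autoImplicit false

open Matrix MvPolynomial Finset

noncomputable section

namespace Crest.Agent.N49.Sd

open Po Tw

/-- **triangularity of the inserted words** -/
theorem itr : ITR := by
  intro τ T1 T2 S p st1 st2 M2 s D _ o h hD y y' c hy A
  classical
  let J : Finset T2.C := univ.filter fun G => G ∉ Set.range D.bs ∧ st2 G = st2 c.1.1.1
  let P : MvPolynomial T2.C ℝ := T2.top.Φ c.1.1.1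
  let P1 : MvPolynomial T2.C ℝ :=
    ∑ G ∈ J, monomial (Finsupp.single G 1) (coeff (Finsupp.single G 1) P)
  have h2 : ∀ m, coeff m (P - P1) ≠ 0 → ∀ G ∈ m.support, D.gr G < D.gr c.1.1.1 := fun m hm => by
    have k : ∀ G ∈ J, Finsupp.single G 1 ≠ m := fun G hG e => hm (by
      subst e
      rw [coeff_sub, coeff_sum, sum_eq_single G (fun G' _ n => by
        rw [coeff_monomial, if_neg fun e => n (Finsupp.single_left_injective one_ne_zero e)])
        (fun n => (n hG).elim), coeff_monomial, if_pos rfl, sub_self])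
    rw [coeff_sub, coeff_sum, sum_eq_zero fun G hG => by rw [coeff_monomial, if_neg (k G hG)],
      sub_zero] at hm
    refine (hD.g1 _ c.2.2 m (mem_support_iff.2 hm)).resolve_left fun ⟨G, a, b, e⟩ => ?_
    exact k G (mem_filter.2 ⟨mem_univ _, a, b⟩) e.symm
  have h1 : ∀ z : T2.Cw S → ℝ, S.cf ℝ c.1.1.2 (eval₂ MvPolynomial.C (T2.Yw S z) P1) =
      (A *ᵥ fun c : {c // hj S D p c} => z c.1) c := fun z => by
    have e1 : ∀ G, S.cf ℝ c.1.1.2 (eval₂ MvPolynomial.C (T2.Yw S z)
        (monomial (Finsupp.single G 1) (coeff (Finsupp.single G 1) P))) =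
        ∑ q : T2.Cw S with q.1.1 = G, coeff (Finsupp.single q.1.1 1) P *
          (1 : Matrix S.W S.W ℝ) c.1.1.2 q.1.2 * z q := fun G => by
      rw [eval₂_monomial, Finsupp.prod_single_index (by simp), pow_one, Sh.cf_C_mul, TS.Yw,
        map_sum, mul_sum]
      refine sum_congr rfl fun q hq => ?_
      rw [Sh.cf_C_mul, o.cf_X, (mem_filter.1 hq).2, one_apply]
      split_ifs <;> simp
    rw [eval₂_sum, map_sum, sum_congr rfl fun G _ => e1 G, sum_fiberwise_eq_sum_filter,
      mulVec, dotProduct]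
    refine Eq.trans ?_ (sum_subtype (univ.filter (hj S D p)) (by simp)
      fun q : T2.Cw S => T2.kw S (T2.stg st2).A 1 c.1 q * z q)
    rw [sum_filter, sum_filter]
    refine sum_congr rfl fun q _ => ?_
    change _ = if _ then (T2.stg st2).A c.1.1.1 q.1.1 * (1 : Matrix S.W S.W ℝ) c.1.1.2 q.1.2 * z q
      else 0
    by_cases e : c.1.1.2 = q.1.2
    · rw [TS.stg_A]
      by_cases a : q.1.1 ∈ Set.range D.bs
      · rw [if_neg fun k => (mem_filter.1 k).2.1 a, if_neg fun k : hj S D p q => k.2 a]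
      · rw [if_pos (show hj S D p q from ⟨e ▸ c.2.1, a⟩)]
        by_cases b : st2 c.1.1.1 = st2 q.1.1
        · rw [if_pos (mem_filter.2 ⟨mem_univ _, a, b.symm⟩), if_pos b]
          congr 2
          exact (coeff_weightedHomogeneousComponent _ _ _).trans (if_pos (by
            rw [Finsupp.weight_single, one_smul, h.lev _ _ b]))
        · rw [if_neg fun k => b (mem_filter.1 k).2.2.symm, if_neg b, zero_mul, zero_mul]
    · rw [one_apply_ne e]; simp
  have h3 : ∀ z : T2.Cw S → ℝ, (T2.tw S (tpw T2 S)).u z c.1 -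
      (A *ᵥ fun c : {c // hj S D p c} => z c.1) c =
      S.cf ℝ c.1.1.2 (eval₂ MvPolynomial.C (T2.Yw S z) (P - P1)) := fun z => by
    rw [TS.tw_u, tpw, eval_map, ← h1, eval₂_sub, map_sub]
  rw [h3, h3]
  refine congrArg _ (eval₂_congr _ _ _ fun {G m} hG hm => sum_congr rfl fun q hq => ?_)
  rw [hy q (.inr ((mem_filter.1 hq).2 ▸ h2 m hm G hG))]

end Crest.Agent.N49.Sd

end
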