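import Crest.Agent.N49.Sd.Stc
import Crest.Agent.N49.Sd.Fibx
import Crest.Agent.N49.Rf.Twr

/-!
# Row 49 (helper67): the lower terms of a twist of `T1` as a twist of `T2`
-/

set_option autoImplicit false

open Matrix MvPolynomial Finset

noncomputable section

namespace Crest.Agent.N49.Sd

open Po Tw Tw.TS

namespace Itw

variable {τ : Type} {S : Sh Unit τ}

variable (S) in
/-- equality in the ring of the shape -/
def Cq (P Q : MvPolynomial S.W ℝ) : Prop :=
  coeff 0 P = coeff 0 Q ∧ ∀ w, S.cf ℝ w P = S.cf ℝ w Q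

theorem Cq.mul (o : S.Ok) {P P' : MvPolynomial S.W ℝ} (a : Cq S P P') (Q : MvPolynomial S.W ℝ) :
    Cq S (P * Q) (P' * Q) := by
  refine ⟨?_, fun w => ?_⟩
  · simp only [← constantCoeff_eq, map_mul]
    exact congrArg (· * _) a.1
  · rw [o.cf_mul, o.cf_mul, a.1]
    simp only [a.2]

theorem Cq.eval (o : S.Ok) {α : Type} {y y' : α → MvPolynomial S.W ℝ} (a : ∀ i, Cq S (y i) (y' i))
    (P : MvPolynomial α (MvPolynomial S.W ℝ)) : Cq S (eval y P) (eval y' P) := by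
  induction P using MvPolynomial.induction_on with
  | C a => rw [eval_C, eval_C]; exact ⟨rfl, fun _ => rfl⟩
  | add p q a b =>
    exact ⟨by simp only [map_add, coeff_add, a.1, b.1], fun w => by simp only [map_add, a.2, b.2]⟩
  | mul_X p i k =>
    rw [map_mul, map_mul, eval_X, eval_X]
    have b := (a i).mul o (MvPolynomial.eval y' p)
    rw [mul_comm (y i), mul_comm (y' i)] at b
    exact ⟨(k.mul o _).1.trans b.1, fun w => ((k.mul o _).2 w).trans (b.2 w)⟩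

theorem Yw_dg {T : TS Unit} (y : T.Cw S → ℝ) (F : T.C) :
    (T.Yw S y F).IsWeightedHomogeneous S.dg (T.lev F) := fun m z => by
  rw [Sh.weight_dg, Yw_hom y F z]; rfl

theorem cq_Yw (o : S.Ok) {T : TS Unit} (h : T.Tri) {Z : T.C → MvPolynomial S.W ℝ}
    (hZ : ∀ F, (Z F).IsWeightedHomogeneous S.dg (T.lev F)) (F : T.C) :
    Cq S (T.Yw S (fun c => S.cf ℝ c.1.2 (Z c.1.1)) F) (Z F) := by
  have l : T.lev F ≠ 0 := fun z => h.ne F ((Finsupp.degree_eq_zero_iff _).1 z)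
  have z0 : ∀ {P : MvPolynomial S.W ℝ}, P.IsWeightedHomogeneous S.dg (T.lev F) → coeff 0 P = 0 :=
    fun hP => by_contra fun z => l ((hP z).symm.trans (map_zero _))
  refine ⟨(z0 (Yw_dg _ F)).trans (z0 (hZ F)).symm, fun w => ?_⟩
  by_cases e : S.dg w = T.lev F
  · exact cf_Yw o _ ⟨(F, w), unit_ext ((Sh.cd_degree w).trans e)⟩
  · have z1 : ∀ {P : MvPolynomial S.W ℝ}, P.IsWeightedHomogeneous S.dg (T.lev F) →
        S.cf ℝ w P = 0 := fun hP => by_contra fun z =>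
      let ⟨_, a, b⟩ := Sh.cf_ne z; e ((o.gr_dg b).symm.trans (hP a))
    rw [z1 (Yw_dg _ F), z1 (hZ F)]

theorem hom_map {W : Type} {w : W → ℕ} {n : ℕ} {P : MvPolynomial W ℤ}
    (h : P.IsWeightedHomogeneous w n) :
    (MvPolynomial.map (Int.castRingHom ℝ) P).IsWeightedHomogeneous w n := fun m z =>
  h fun e => z (by rw [coeff_map, e, map_zero])

variable {T1 T2 : TS Unit} {st1 : T1.C → ℕ} {st2 : T2.C → ℕ} {s : ℕ} (D : Tan T1 T2 S.W)

/-- the substitution -/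
def sb (F : T1.C) : MvPolynomial T2.C (MvPolynomial S.W ℝ) :=
  MvPolynomial.C (MvPolynomial.map (Int.castRingHom ℝ) (D.be F)) +
    ∑ G with D.fam G = F, MvPolynomial.C (MvPolynomial.map (Int.castRingHom ℝ) (D.mon G)) * X G

variable {D}

theorem u_sb (o : S.Ok) (h : T1.Tri) (k : D.Ok S.dg st1 st2 s) (Ψ : T1.Twd S) (y : T2.Cw S → ℝ)
    (c : T1.Cw S) : (T1.tw S Ψ).u (fun c => (S.cf ℤ c.1.2 (D.be c.1.1) : ℤ) + D.L S y c) c =
      S.cf ℝ c.1.2 (eval (T2.Yw S y) (aeval (sb D) (Ψ c.1.1))) := by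
  have e : (fun c : T1.Cw S => ((S.cf ℤ c.1.2 (D.be c.1.1) : ℤ) : ℝ) + D.L S y c) =
      fun c => S.cf ℝ c.1.2 (eval (T2.Yw S y) (sb D c.1.1)) := funext fun c => by
    simp only [sb, map_add, map_sum, map_mul, eval_C, eval_X, Sh.cf_map, Tan.L, eq_intCast]
  refine (tw_u _ c).trans ((congrArg (fun v : T1.Cw S → ℝ =>
    S.cf ℝ c.1.2 (eval (T1.Yw S v) (Ψ c.1.1))) e).trans ?_)
  rw [Rf.eval_aeval]
  refine (Cq.eval o (cq_Yw o h (Z := fun F => eval (T2.Yw S y) (sb D F)) fun F => ?_) _).2 _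
  simp only [sb, map_add, map_sum, map_mul, eval_C, eval_X]
  refine (hom_map (k.hb F)).add (IsWeightedHomogeneous.sum _ _ _ fun G hG => ?_)
  by_cases z : D.mon G = 0
  · rw [z, map_zero, zero_mul]; exact isWeightedHomogeneous_zero _ _ _
  · have := (hom_map (k.hm G)).mul (Yw_dg y G)
    rwa [Nat.sub_add_cancel (k.le G z), (mem_filter.1 hG).2] at this

theorem gr_sb (h : T1.Stg st1 s) {s' : ℕ} (k : D.Ok S.dg st1 st2 s') {Ψ : T1.Twd S}
    (a : T1.Adm S st1 Ψ) (F : T1.C) : Gr (fun m μ =>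
      Finsupp.weight S.dg m + Finsupp.weight T2.lev μ = T1.lev F ∧
      Finsupp.weight T2.lev μ < T1.lev F ∧ (∀ G ∈ μ.support, D.mon G ≠ 0) ∧
      Finsupp.weight (fun G => st1 (D.fam G)) μ ≤ st1 F ∧
      Finsupp.weight (fun G => T1.lev (D.fam G)) μ < T1.lev F)
      (aeval (sb D) (Ψ F - tpw T1 S F)) := by
  have b := Fx.adm_tpw h S
  let ρ : ℕ × ℕ → (S.W →₀ ℕ) → (T2.C →₀ ℕ) → Prop := fun x m μ =>
    Finsupp.weight S.dg m + Finsupp.weight T2.lev μ = x.1 ∧ (∀ G ∈ μ.support, D.mon G ≠ 0) ∧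
      Finsupp.weight (fun G => st1 (D.fam G)) μ ≤ x.2 ∧
      Finsupp.weight (fun G => T1.lev (D.fam G)) μ ≤ x.1
  have r0 : ρ 0 0 0 := by simp [ρ]
  have ra : ∀ x x' m μ m' μ', ρ x m μ → ρ x' m' μ' → ρ (x + x') (m + m') (μ + μ') := by
    rintro x x' m μ m' μ' ⟨a1, a2, a3, a4⟩ ⟨b1, b2, b3, b4⟩
    simp only [ρ, map_add, Prod.fst_add, Prod.snd_add]
    classical
    exact ⟨by omega, fun G hG => (mem_union.1 (Finsupp.support_add hG)).elim (a2 G) (b2 G),
      by omega, by omega⟩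
  have rs : ∀ F', Gr (ρ (T1.lev F', st1 F')) (sb D F') := fun F' => by
    refine gr_add (grC fun m z => ?_) (Gr.sum _ fun G hG μ m z => ?_)
    · simpa [ρ] using hom_map (k.hb F') z
    · classical
      rw [X, C_mul_monomial, mul_one, coeff_monomial] at z
      split_ifs at z with e
      · subst e
        have z' : D.mon G ≠ 0 := fun e => z (by simp [e])
        have := hom_map (k.hm G) z
        have := k.le G z'
        obtain rfl := (mem_filter.1 hG).2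
        refine ⟨?_, fun G' hG' => ?_, ?_, ?_⟩
        · simp only [Finsupp.weight_single, one_smul]; omega
        · rwa [mem_singleton.1 (Finsupp.support_single_subset hG')]
        · simp [Finsupp.weight_single]
        · simp [Finsupp.weight_single]
      · exact absurd rfl z
  rw [(Ψ F - tpw T1 S F).as_sum, map_sum]
  refine Gr.sum _ fun m1 hm => ?_
  have hm' := mem_support_iff.1 hm
  rw [coeff_sub] at hm'
  have l : Finsupp.weight T1.lev m1 ≤ T1.lev F ∧ Finsupp.weight st1 m1 ≤ st1 F := by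
    by_cases z : coeff m1 (Ψ F) = 0
    · exact b.le F m1 (mem_support_iff.2 fun e => hm' (by rw [z, e, sub_zero]))
    · exact a.le F m1 (mem_support_iff.2 z)
  have l' : Finsupp.weight T1.lev m1 ≠ T1.lev F := fun e =>
    hm' (by rw [a.top F m1 e, b.top F m1 e, sub_self])
  rw [aeval_monomial, algebraMap_eq, Finsupp.prod]
  refine (grC (r := fun m μ => Finsupp.weight S.dg m = T1.lev F - Finsupp.weight T1.lev m1 ∧ μ = 0)
    fun m z => ⟨?_, rfl⟩).mul (Gr.prod r0 ra _ fun c _ => Gr.pow r0 ra (rs c) (m1 c)) ?_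
  · rw [coeff_sub] at z
    exact ((a.gr F m1).sub (b.gr F m1)) z
  · rintro m _ m' μ ⟨x, rfl⟩ ⟨y1, y2, y3, y4⟩
    simp only [Prod.fst_sum, Prod.snd_sum, Prod.smul_mk] at y1 y3 y4
    have e1 : ∑ c ∈ m1.support, m1 c • T1.lev c = Finsupp.weight T1.lev m1 := by
      rw [Finsupp.weight_apply, Finsupp.sum]
    have e2 : ∑ c ∈ m1.support, m1 c • st1 c = Finsupp.weight st1 m1 := by
      rw [Finsupp.weight_apply, Finsupp.sum]
    rw [e1] at y1 y4
    rw [e2] at y3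
    rw [zero_add, map_add]
    exact ⟨by omega, by omega, y2, by omega, by omega⟩

theorem L_sub (o : S.Ok) (k : D.Ok S.dg st1 st2 s) (u u' : T2.Cw S → ℝ) (c : T1.Cw S)
    (c' : T2.Cw S) (e1 : c'.1.1 = D.bs c.1.1) (e2 : c'.1.2 = c.1.2)
    (h : ∀ x : T2.Cw S, D.bs (D.fam x.1.1) ≠ x.1.1 → u x = u' x) :
    D.L S u c = D.L S u' c + D.nu c.1.1 * (u c' - u' c') := by
  have m : D.bs c.1.1 ∈ univ.filter fun G => D.fam G = c.1.1 := mem_filter.2 ⟨mem_univ _, k.fb _⟩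
  have a : ∀ v : T2.Cw S → ℝ, S.cf ℝ c.1.2 (MvPolynomial.map (Int.castRingHom ℝ)
      (D.mon (D.bs c.1.1)) * T2.Yw S v (D.bs c.1.1)) = D.nu c.1.1 * v c' := fun v => by
    rw [k.mb, map_C, Sh.cf_C_mul, ← e1, ← e2, cf_Yw o]; simp
  rw [Tan.L, Tan.L, ← add_sum_erase _ _ m, ← add_sum_erase _ _ m, map_add, map_add, a, a,
    sum_congr rfl fun G hG => congrArg _ (show T2.Yw S u G = T2.Yw S u' G from
      sum_congr rfl fun x hx => by
        rw [h x (by
          rw [(mem_filter.1 hx).2, (mem_filter.1 (mem_erase.1 hG).2).2]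
          exact (mem_erase.1 hG).1.symm)])]
  ring

end Itw

open Itw in
theorem itw2 : ITW2 := fun τ T1 T2 S p st1 st2 M1 M2 D Ψ1 o h1 h2 k ad rid a hp => by
  let E (F : T1.C) := aeval (sb D) (Ψ1 F - tpw T1 S F)
  let Ψ : T2.Twd S := fun G => tpw T2 S G + if D.bs (D.fam G) = G then
    MvPolynomial.C (MvPolynomial.C ((D.nu (D.fam G) : ℝ)⁻¹)) * E (D.fam G) else 0
  have b := Fx.adm_tpw h2 S
  have g : ∀ G, Gr (fun m μ => Finsupp.weight S.dg m + Finsupp.weight T2.lev μ = T2.lev G ∧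
      Finsupp.weight T2.lev μ < T2.lev G ∧ Finsupp.weight st2 μ ≤ st2 G) (Ψ G - tpw T2 S G) := by
    intro G μ m z
    simp only [Ψ, add_sub_cancel_left] at z
    split_ifs at z with e
    · rw [coeff_C_mul, coeff_C_mul] at z
      obtain ⟨a1, a2, a3, a4, a5⟩ := gr_sb h1 k a (D.fam G) μ m (right_ne_zero_of_mul z)
      have l := k.lb (D.fam G)
      have := ad _ μ a3 a4 a5
      rw [e] at l this
      exact ⟨by omega, by omega, this⟩
    · exact absurd rfl z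
  have u : ∀ (y : T2.Cw S → ℝ) (c : T2.Cw S), (T2.tw S Ψ).u y c = (T2.tw S (tpw T2 S)).u y c +
      if D.bs (D.fam c.1.1) = c.1.1 then (D.nu (D.fam c.1.1) : ℝ)⁻¹ *
        S.cf ℝ c.1.2 (eval (T2.Yw S y) (E (D.fam c.1.1))) else 0 := fun y c => by
    rw [tw_u, tw_u]
    simp only [Ψ, map_add]
    split_ifs
    · rw [map_mul, eval_C, Sh.cf_C_mul]
    · simp
  have e : ∀ (y : T2.Cw S → ℝ) (c : T1.Cw S), S.cf ℝ c.1.2 (eval (T2.Yw S y) (E c.1.1)) =
      (T1.tw S Ψ1).u (fun c => (S.cf ℤ c.1.2 (D.be c.1.1) : ℤ) + D.L S y c) c -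
      (T1.tw S (tpw T1 S)).u (fun c => (S.cf ℤ c.1.2 (D.be c.1.1) : ℤ) + D.L S y c) c :=
    fun y c => by
      rw [u_sb o h1.cl.1 k, u_sb o h1.cl.1 k]; simp only [E, map_sub]
  have hΨ : ∀ G, Ψ G = tpw T2 S G + (Ψ G - tpw T2 S G) := fun G => by ring
  refine ⟨Ψ, Adm.of_gr (fun G => ?_) (fun G μ z => ?_) fun G μ w => ?_, fun y => ⟨fun c hc => ?_,
    funext fun c => ?_⟩⟩
  · rw [hΨ]; exact gr_add (b.gr' G) ((g G).mono fun _ _ x => x.1)
  · by_cases x : coeff μ (tpw T2 S G) = 0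
    · have := mem_support_iff.1 z
      rw [hΨ, coeff_add, x, zero_add] at this
      obtain ⟨m, hm⟩ := ne_zero_iff.1 this
      exact (g G μ m hm).2.2
    · exact (b.le G μ (mem_support_iff.2 x)).2
  · have : coeff μ (Ψ G - tpw T2 S G) = 0 := by_contra fun z =>
      let ⟨m, hm⟩ := ne_zero_iff.1 z; (g G μ m hm).2.1.ne w
    rw [hΨ, coeff_add, this, add_zero, b.top G μ w]
  · rw [u]
    split_ifs with x
    · have l := k.lb (D.fam c.1.1)
      rw [x] at l
      rw [(e y ⟨(D.fam c.1.1, c.1.2), unit_ext ((congrArg Finsupp.degree c.2).trans l)⟩).trans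
        (sub_eq_zero.2 (hp _ _ (hc.resolve_left fun z => z ⟨_, x⟩))), mul_zero, add_zero]
    · exact add_zero _
  · let c' : T2.Cw S := ⟨(D.bs c.1.1, c.1.2),
      unit_ext ((congrArg Finsupp.degree c.2).trans (k.lb _).symm)⟩
    have n : (D.nu c.1.1 : ℝ) ≠ 0 := Nat.cast_ne_zero.2 (k.np _).ne'
    have f : D.fam c'.1.1 = c.1.1 := k.fb _
    rw [L_sub o k _ ((T2.tw S (tpw T2 S)).u y) c c' rfl rfl fun x hx => by
      rw [u, if_neg hx, add_zero], u, f, if_pos rfl, add_sub_cancel_left,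
      mul_inv_cancel_left₀ n, ← add_assoc, ← congrFun (rid y) c]
    have := e y c
    change S.cf ℝ c'.1.2 _ = _ at this
    rw [this]; ring

end Crest.Agent.N49.Sd

end
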