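import Crest.Agent.N49.Sd.Insp
import Crest.Agent.N49.Sd.Insa
import Crest.Agent.N49.Sd.Iga
import Crest.Agent.N49.Sd.Irx
import Crest.Agent.N49.Sd.Ish
import Crest.Agent.N49.Sd.Itw
import Crest.Agent.N49.Sd.Itr

/-!
# Row 49 (helper24): the insertion lemma
-/

namespace Crest.Agent.N49.Sd

theorem insaA : INSA := insa iga irx

theorem insA : INS2 := ins2 insaA ish itw2 idt itr

theorem insA3 : INS3 := ins3 insaA ish itw2 idt itr

end Crest.Agent.N49.Sd
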