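import Crest.Agent.N49.Sd.Stc
import Crest.Agent.N49.Tn.Alg
import Crest.Agent.N49.Md.Szb
import Crest.Agent.N49.Rn.Nun

/-!
# Row 49 (helper13): tangent frames are compatible with the stages (leaf STT)
-/

set_option autoImplicit false
set_option linter.unusedSectionVars false

open Matrix MvPolynomial Finset

noncomputable section

namespace Crest.Agent.N49.Sd

open Po Tw

namespace Stt

theorem bg_ok {τ L : Type} [Fintype τ] [DecidableEq τ] [Fintype L] [DecidableEq L] (blk : τ → L)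
    {lam : L → ℝ} (hl : ∀ l, 0 < lam l) (s : ℕ) (J : Finset L) : (Md.bg blk lam s J).Ok := by
  obtain ⟨h, k⟩ := pow_unbounded_of_one_lt (∑ l, lam l) (one_lt_two (α := ℝ))
  exact Mh.sub_ok (Md.Sb.mr_sz (h := h) (fun l => ⟨hl l, (single_le_sum (fun l _ => (hl l).le)
    (mem_univ l)).trans k.le⟩) le_rfl le_rfl dn_full subset_rfl).toOk (Md.Sb.idl _ J)

variable {τ0 : Type} {T : TS Unit} {S0 : Sh Unit τ0} {st : T.C → ℕ} {M : ℕ}
  {v : Matrix (Option S0.W) (Option S0.W) ℝ} {b : T.Cw S0 → ℤ}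

/-- the monomials of an untwisted tangent tower -/
theorem tan_mon (h : S0.Ok) (hs : T.Stg st M) (x : T.Tc S0) {m : T.Tc S0 →₀ ℕ}
    (z : coeff m ((T.tan S0 (T.tw0 S0) v b).Φ x) ≠ 0) :
    Finsupp.weight (T.nl S0) m = T.nl S0 x ∧
      ∃ a ∈ (T.Φ x.1.1).support, m.mapDomain (·.1.1) ≤ a := by
  obtain ⟨a1, a, ha, a2, -⟩ := TS.tq_mon (S := S0) (v := v) (b := b) (ν := 0) (m := m) h
    (hs.adm h).tin x fun e => z ((coeff_zero_C _).symm.trans ((congrArg (coeff 0)
      ((coeff_map _ _ _).symm.trans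
        (congrArg (coeff m) (TS.tq_tin (v := v) _ b x).symm))).trans e))
  refine ⟨by rwa [map_zero, add_zero] at a1, a, mem_support_iff.2 fun e => ?_, a2⟩
  refine mem_support_iff.1 ha ?_
  rw [TS.tin_eq, coeff_map, TS.coeff_tw0, e, zero_smul, map_zero]

theorem ts_adq (hs : T.Stg st M) (x : T.Tc S0) (μ : T.Tc S0 →₀ ℕ)
    (h1 : Finsupp.weight (fun G : T.Tc S0 => st G.1.1) μ ≤ st x.1.1)
    (h2 : Finsupp.weight (fun G : T.Tc S0 => T.lev G.1.1) μ < T.lev x.1.1) :
    Finsupp.weight (T.ts S0 st M) μ ≤ T.ts S0 st M x := by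
  by_cases c : ∃ x' ∈ μ.support, st x.1.1 ≤ st x'.1.1
  · obtain ⟨x', c1, c2⟩ := c
    obtain rfl := single_of_wt (w := fun q : T.Tc S0 => st q.1.1) (fun q => hs.pos _)
      (Finsupp.mem_support_iff.1 c1) (h1.trans c2)
    simp only [Finsupp.weight_single, one_smul] at h1 h2
    have := hs.lev _ _ (le_antisymm h1 c2)
    omega
  · push Not at c
    have p := hs.pos x.1.1
    have b : Finsupp.weight (T.ts S0 st M) μ ≤ Finsupp.weight (fun G : T.Tc S0 => T.lev G.1.1) μ *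
        (M + 1) ^ (st x.1.1 * (M + 1) - 1) := by
      rw [Finsupp.weight_apply, Finsupp.weight_apply, Finsupp.sum, Finsupp.sum, sum_mul]
      refine sum_le_sum fun q hq => ?_
      rw [smul_eq_mul, smul_eq_mul, mul_assoc]
      refine Nat.mul_le_mul_left _ (le_trans (Nat.pow_le_pow_right (by omega) ?_)
        (Nat.le_mul_of_pos_left _ (Nat.zero_lt_of_lt q.2)))
      have := Nat.mul_le_mul_right (M + 1) (Nat.succ_le_of_lt (c q hq))
      rw [Nat.succ_mul] at this
      change _ + (M - T.nl S0 q) ≤ _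
      omega
    have := (hs.le x.1.1).2
    have e : 1 ≤ st x.1.1 * (M + 1) := Nat.mul_pos p (by omega)
    refine b.trans ((Nat.mul_le_mul_right _ (by omega : _ ≤ M + 1)).trans ?_)
    rw [← pow_succ', TS.ts_eq]
    exact Nat.pow_le_pow_right (by omega) (by omega)

theorem ts_pu (h : S0.Ok) (hs : T.Stg st M) {F : T.C} (p : S0.od none < T.lev F) (G : T.Tc S0)
    (e : T.ts S0 st M G = T.ts S0 st M ⟨(F, none), p⟩) : G.1.2 = none ∧ st G.1.1 = st F := by
  obtain ⟨e1, e2⟩ := hs.ts_inj.1 e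
  refine ⟨?_, e1⟩
  have a := TS.nl_add G
  have c : T.lev G.1.1 = T.lev F := hs.lev _ _ e1
  have d : T.nl S0 ⟨(F, none), p⟩ = T.lev F := rfl
  cases k : G.1.2 with
  | none => rfl
  | some w =>
    have := h.dg_pos w
    rw [k] at a
    change S0.dg w + _ = _ at a
    omega

theorem tan_gr (h : S0.Ok) (hs : T.Stg st M) {γ : T.C → ℕ} (g : Md.Gr T st γ) (x : T.Tc S0)
    {m : T.Tc S0 →₀ ℕ} (z : coeff m ((T.tan S0 (T.tw0 S0) v b).Φ x) ≠ 0) :
    (∃ x', T.ts S0 st M x' = T.ts S0 st M x ∧ m = Finsupp.single x' 1) ∨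
      ∀ x' ∈ m.support, γ x'.1.1 < γ x.1.1 := by
  obtain ⟨a1, a, ha, a2⟩ := tan_mon h hs x z
  have sp : ∀ x' ∈ m.support, x'.1.1 ∈ a.support := fun x' k => by
    have := Finsupp.mapDomain_mono (f := fun q : T.Tc S0 => q.1.1) (Finsupp.single_le_iff.2
      (Nat.one_le_iff_ne_zero.2 (Finsupp.mem_support_iff.1 k)))
    rw [Finsupp.mapDomain_single] at this
    exact Finsupp.mem_support_iff.2
      (Nat.one_le_iff_ne_zero.1 (Finsupp.single_le_iff.1 (this.trans a2)))
  rcases g.2 _ a ha with ⟨c, e, rfl⟩ | k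
  · have p := TS.nl_pos x
    obtain ⟨x', k⟩ : m.support.Nonempty := Finsupp.support_nonempty_iff.2 fun e => by
      rw [e, map_zero] at a1; omega
    have d := Finsupp.degree_mono a2
    rw [Finsupp.degree_mapDomain, Finsupp.degree_single, Finsupp.degree_eq_weight_one] at d
    obtain rfl := single_of_wt (w := fun _ => 1) (fun _ => one_pos) (Finsupp.mem_support_iff.1 k) d
    rw [Finsupp.weight_single, one_smul] at a1
    have := (Finsupp.mem_support_single _ _ _).1 (sp x' k)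
    exact .inl ⟨x', hs.ts_inj.2 ⟨this.1 ▸ e, a1⟩, rfl⟩
  · exact .inr fun x' hx => k _ (sp x' hx)

end Stt

open Stt in
theorem stt : STT := fun τ L _ _ _ _ B blk lam s J b h la' m ho hl => by
  have o := bg_ok blk hl s J
  refine ⟨fun F (μ : B.T.Tc (Md.bg blk lam s J) →₀ ℕ) g hg h1 h2 => ?_,
    fun F (G : B.T.Tc (Md.bg blk lam s J)) => ⟨fun e => ?_, fun ⟨F', e, e'⟩ => ?_⟩,
    fun γ g => ⟨fun x : B.T.Tc (Md.bg blk lam s J) => γ x.1.1, ⟨fun x x' e => ?_, fun x m hm => ?_⟩,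
      fun G F e => congrArg γ (Option.some.inj e)⟩⟩
  · have e : ∀ G ∈ μ.support, g G = G.1.1 := fun G k => (Option.some.inj (hg G k)).symm
    refine ts_adq ho.stg ⟨(F, none), h F⟩ μ (le_trans (le_of_eq ?_) h1) (lt_of_eq_of_lt ?_ h2) <;>
      exact Xt.wt_congr fun G k => by rw [e G k]
  · obtain ⟨a, c⟩ := ts_pu o ho.stg (h F) G e
    exact ⟨G.1.1, Subtype.ext (Prod.ext rfl a), c⟩
  · subst e
    exact ho.stg.ts_inj.2 ⟨e', ho.stg.lev _ _ e'⟩
  · exact g.1 _ _ (ho.stg.ts_inj.1 e).1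
  · refine tan_gr (v := Md.vv blk lam s J) (b := b) o ho.stg g x fun z => mem_support_iff.1 hm ?_
    refine (TS.un_coeff (T := Md.t0 blk lam B.T s J b) x m).trans (sum_eq_zero fun c _ => ?_)
    by_cases e : x = c
    · subst e; exact mul_eq_zero_of_right _ z
    · exact mul_eq_zero_of_left (diagonal_apply_ne _ e) _

end Crest.Agent.N49.Sd

end
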