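import Crest.Agent.N49.Sd.Stc
import Crest.Agent.N49.Rn.Nstg

/-!
# Row 49 (helper64): new families are compatible with the stages
-/

set_option autoImplicit false

open MvPolynomial Finset

noncomputable section

namespace Crest.Agent.N49.Sd

open Tw

theorem gr_nw {T0 : TS Unit} {st0 γ : T0.C → ℕ} {M0 s : ℕ} {E : Nw T0} (o : Old T0 st0 M0 s)
    (w : E.Wf s) (h : Md.Gr T0 st0 γ) :
    Md.Gr E.T (E.st st0 M0 s) (Sum.elim γ fun n => univ.sup γ + 1 + E.lv n) := by
  refine ⟨fun (x y : T0.C ⊕ E.N) e => ?_, fun (x : T0.C ⊕ E.N) (m : T0.C ⊕ E.N →₀ ℕ) hm => ?_⟩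
  · rcases x with c | n <;> rcases y with c' | n'
    · exact h.1 c c' e
    · exact absurd e (Ns.old_lt o w c n').ne
    · exact absurd e (Ns.old_lt o w c' n).ne'
    · exact congrArg (univ.sup γ + 1 + ·) (Ns.new_inj o ((w.lv n).1.trans (w.lv n).2) e)
  rcases x with c | n
  · obtain ⟨u, rfl, hu⟩ := Ns.supp_inl (mem_support_iff.1 hm)
    rcases h.2 c u (mem_support_iff.2 hu) with ⟨c', e, rfl⟩ | k
    · exact .inl ⟨.inl c', e, Finsupp.mapDomain_single⟩
    · refine .inr fun (y : T0.C ⊕ E.N) hy => ?_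
      obtain ⟨c', hc, rfl⟩ := mem_image.1 (Finsupp.mapDomain_support hy)
      exact k c' hc
  by_cases z : ∃ n', m (.inr n') ≠ 0 ∧ E.lv n ≤ E.lv n'
  · obtain ⟨n', a, b⟩ := z
    have := (Ns.ok o w).toTri.eq_single (c := .inr n) (c' := .inr n') hm a (by rwa [Ns.lev_T])
    rw [Ns.lev_T] at this
    exact .inl ⟨.inr n', congrArg (M0 * (s + 1) ^ ·) this.2.symm, this.1⟩
  refine .inr fun (y : T0.C ⊕ E.N) hy => ?_
  rcases y with c' | n'
  · exact (Nat.lt_succ_of_le (le_sup (f := γ) (mem_univ c'))).trans_le (Nat.le_add_right _ _)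
  · exact Nat.add_lt_add_left (not_le.1 fun b => z ⟨n', Finsupp.mem_support_iff.1 hy, b⟩) _

theorem stn : STN := fun τ T0 st0 M0 s E θ o w hf ht => by
  have key : ∀ (G : T0.C ⊕ E.N) F, θ.fam G = some F → G = .inl F := fun G F e => by
    rw [hf] at e
    rcases G with c | n
    · exact congrArg _ (Option.some.inj e)
    · cases e
  refine ⟨fun F μ g h a _ => ?_, fun F (G : T0.C ⊕ E.N) => ?_, fun γ h =>
    ⟨_, gr_nw o w h, fun G F e => by rw [key G F e]; rfl⟩⟩
  · rw [ht]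
    refine le_trans (le_of_eq ?_) a
    simp only [Finsupp.weight_apply]
    exact Finsupp.sum_congr fun G k =>
      congrArg (μ G • ·) (congrArg (E.st st0 M0 s) (key G _ (h G k)))
  · rw [ht]
    refine ⟨fun e => ?_, fun ⟨_, a, b⟩ => a ▸ b⟩
    rcases G with c | n
    · exact ⟨c, rfl, e⟩
    · exact absurd e (Ns.old_lt o w F n).ne'

end Crest.Agent.N49.Sd

end
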