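import Crest.Agent.N49.Sd.Spl0
import Crest.Agent.N49.Tw.Exp

/-!
# Row 49 (helper60): inhomogeneous or semantic brackets split into canonical ones; pull-backs
-/

set_option autoImplicit false
set_option linter.unusedSectionVars false

open MvPolynomial Finset

noncomputable section

namespace Crest.Agent.N49.Sd

/-- set functions with a pigeonhole principle -/
structure Pg {Ω : Type} (pr : Set Ω → ℝ) : Prop where
  nn : ∀ H, 0 ≤ pr H
  pg : ∀ {ι : Type} (s : Finset ι) (H : Set Ω) (f : Ω → ι), s.Nonempty → (∀ y ∈ H, f y ∈ s) →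
    ∃ i ∈ s, pr H ≤ #s * pr {y ∈ H | f y = i}

theorem pg_tt {L C : Type} [Fintype L] [DecidableEq L] [Fintype C] [DecidableEq C] {T : Rm.TT L C}
    (h : T.Ok) : Pg T.pr := ⟨Rm.TT.pr_nonneg, fun s H f a b => h.pr_pigeon s a H f b⟩

theorem pg_ts {σ : Type} {T : Tw.TS σ} (h : T.Tri) : Pg T.P := ⟨T.P_nonneg, fun s H f hs hf => by
  obtain ⟨i, hi, m⟩ := exists_max_image s (fun i => T.P {y ∈ H | f y = i}) hs
  refine ⟨i, hi, le_trans (h.P_mono fun y hy => ?_)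
    ((h.P_biUnion s fun i => {y ∈ H | f y = i}).trans
    ((sum_le_card_nsmul _ _ _ m).trans_eq (nsmul_eq_mul _ _)))⟩
  simpa using ⟨hf y hy, hy⟩⟩

variable {L Λ V V' C C' Ω : Type} [DecidableEq L] [DecidableEq Λ]

theorem Bt.mono {t : V → L →₀ ℕ} {M : Finset L} {u u' : L →₀ ℕ} {P : MvPolynomial V ℝ}
    (h : Bt t M u P) (e : u ≤ u') (e' : ∀ ℓ ∈ M, u ℓ = u' ℓ) : Bt t M u' P :=
  fun m hm => ⟨(h m hm).1.trans e, fun ℓ k => ((h m hm).2 ℓ k).trans (e' ℓ k)⟩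

theorem Bt.of_hom {t : V → L →₀ ℕ} {M : Finset L} {u : L →₀ ℕ} {P : MvPolynomial V ℝ}
    (h : P.IsWeightedHomogeneous t u) : Bt t M u P :=
  fun _ hm => h (mem_support_iff.1 hm) ▸ ⟨le_rfl, fun _ _ => rfl⟩

theorem Bt.aeval' {t : V → L →₀ ℕ} {t' : V' → L →₀ ℕ} {M : Finset L} {u : L →₀ ℕ}
    {P : MvPolynomial V' ℝ} (hP : Bt t' M u P) {σ : V' → MvPolynomial V ℝ}
    (h : ∀ v ∈ P.vars, Bt t M (t' v) (σ v)) : Bt t M u (MvPolynomial.aeval σ P) := by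
  classical
  rw [P.as_sum, map_sum]
  refine sum _ fun m hm => Bt.mono ?_ (hP m hm).1 (hP m hm).2
  rw [aeval_monomial, Finsupp.weight_apply, ← zero_add (m.sum _)]
  exact (C _ fun _ _ => rfl).mul (prod _ fun v hv =>
    (h v ((mem_vars_iff_mem_support v).2 ⟨m, hm, hv⟩)).pow _)

theorem Bt.rename {t : V → L →₀ ℕ} {M : Finset L} {u : L →₀ ℕ} {P : MvPolynomial V' ℝ} {f : V' → V}
    (h : Bt (fun v => t (f v)) M u P) : Bt t M u (rename f P) := by
  rw [rename_eq_aeval]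
  exact h.aeval' fun v _ => .X _ le_rfl fun _ _ => rfl

theorem card_Iic_le (w : Λ →₀ ℕ) : #(Iic w) ≤ 2 ^ w.degree := by
  rw [Finsupp.card_Iic, Finsupp.degree_apply, ← prod_pow_eq_pow_sum]
  exact prod_le_prod' fun i _ => by rw [Nat.card_Iic]; exact Nat.lt_two_pow_self

theorem aeval_vars {σ σ' : V → MvPolynomial V' ℝ} {P : MvPolynomial V ℝ}
    (h : ∀ v ∈ P.vars, σ v = σ' v) : aeval σ P = aeval σ' P :=
  eval₂Hom_congr' rfl (fun v hv _ => h v hv) rfl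

theorem om_gen {I : Type} [Fintype I] [DecidableEq I] (wd : I → Λ →₀ ℕ) (rk : I → ℕ)
    (Θ Θ' : I → MvPolynomial (C ⊕ I) ℝ) (h : (Bk.mk I wd rk Θ).Tri) (h' : (Bk.mk I wd rk Θ').Tri)
    (y : C → ℝ) (r : ℕ) : (∀ x, rk x < r → Θ x = Θ' x) → ∀ x, rk x < r →
      (Bk.mk I wd rk Θ).om y x = (Bk.mk I wd rk Θ').om y x := by
  induction r with
  | zero => intro _ x h0; omega
  | succ r ih =>
    intro e x h0
    have k1 : (Bk.mk I wd rk Θ).om y x = round (eval ((Bk.mk I wd rk Θ).lf y) (Θ x)) :=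
      h.om_spec y x
    have k2 : (Bk.mk I wd rk Θ').om y x = round (eval ((Bk.mk I wd rk Θ').lf y) (Θ' x)) :=
      h'.om_spec y x
    rw [k1, k2, e x h0, eval_congr (x' := (Bk.mk I wd rk Θ').lf y) fun v hv => ?_]
    cases v with
    | inl c => exact (Bk.lf_inl _ _ _).trans (Bk.lf_inl _ _ _).symm
    | inr x' =>
      have : rk x' < rk x := h' x x' hv
      exact (Bk.lf_inr _ _ _).trans ((congrArg Int.cast
        (ih (fun a ha => e a (by omega)) x' (by omega))).trans (Bk.lf_inr _ _ _).symm)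

namespace Bk

variable (B : Bk C Λ)

/-- systems with lower terms -/
structure Lo (dg : C → Λ →₀ ℕ) : Prop where
  le : ∀ a, Bt (B.wg dg) ∅ (B.wd a) (B.Θ a)
  live : ∀ a c, Sum.inl c ∈ (B.Θ a).vars → dg c ≠ 0
  tri : B.Tri

/-- cells on an abstract sample space -/
def Cel (ζ : Ω → C → ℝ) (H : Set Ω) (ε : ℝ) : Prop := ∃ o : B.N → ℝ, ∀ y ∈ H, ∀ a,
  |B.ev (ζ y) (B.Θ a) - B.om (ζ y) a - o a| ≤ ε

/-- the nonzero sub-words -/
abbrev Sw (a : B.N) : Type := {w // w ∈ (Iic (B.wd a)).erase 0}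
/-- the components -/
abbrev CN : Type := Σ a : B.N, B.Sw a

/-- a bracket is a constant plus the sum of its components -/
def sg (b : B.N → ℤ) : C ⊕ B.N → MvPolynomial (C ⊕ B.CN) ℝ :=
  Sum.elim (fun c => X (.inl c)) fun a =>
    MvPolynomial.C (b a : ℝ) + ∑ w : B.Sw a, X (.inr ⟨a, w⟩)

/-- the words of the components -/
def cw (dg : C → Λ →₀ ℕ) : C ⊕ B.CN → Λ →₀ ℕ := Sum.elim dg fun x => x.2.1

/-- **the system of the components** -/
abbrev cmp (dg : C → Λ →₀ ℕ) (b : B.N → ℤ) : Bk C Λ where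
  N := B.CN
  wd x := x.2.1
  rk x := B.rk x.1
  Θ x := weightedHomogeneousComponent (B.cw dg) x.2.1 (aeval (B.sg b) (B.Θ x.1))

/-- the substitution of the coordinates -/
def ps (σ : C → MvPolynomial C' ℝ) : C ⊕ B.N → MvPolynomial (C' ⊕ B.N) ℝ :=
  Sum.elim (fun c => rename .inl (σ c)) fun a => X (.inr a)

/-- **the pull-back** -/
abbrev pl (σ : C → MvPolynomial C' ℝ) : Bk C' Λ where
  N := B.N
  wd := B.wd
  rk := B.rk
  Θ a := aeval (B.ps σ) (B.Θ a)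

variable {B} {dg : C → Λ →₀ ℕ} {dg' : C' → Λ →₀ ℕ} {b b' : B.N → ℤ}

theorem Ok.lo (h : B.Ok dg) : B.Lo dg := ⟨fun a => .of_hom (h.hom a), h.live, h.tri⟩

theorem card_sw {s : ℕ} {a : B.N} (h : (B.wd a).degree ≤ s) : Fintype.card (B.Sw a) ≤ 2 ^ s := by
  rw [Fintype.card_coe]
  exact card_erase_le.trans ((card_Iic_le _).trans (Nat.pow_le_pow_right two_pos h))

theorem card_cn {s : ℕ} (h : ∀ a, (B.wd a).degree ≤ s) :
    Fintype.card B.CN ≤ Fintype.card B.N * 2 ^ s := by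
  rw [Fintype.card_sigma]
  exact sum_le_card_nsmul _ _ _ fun a _ => card_sw (h a)

theorem sw_le {a : B.N} (w : B.Sw a) : w.1 ≤ B.wd a := mem_Iic.1 (mem_erase.1 w.2).2

/-- types in any coarser grading `f` (`M` = letters that the brackets do not see) -/
theorem sg_bt (f : (Λ →₀ ℕ) → L →₀ ℕ) (hf : Monotone f) {M : Finset L}
    (hM : ∀ a, ∀ ℓ ∈ M, f (B.wd a) ℓ = 0) (v : C ⊕ B.N) :
    Bt (fun v => f (B.cw dg v)) M (f (B.wg dg v)) (B.sg b v) := by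
  cases v with
  | inl c => exact .X _ le_rfl fun _ _ => rfl
  | inr a =>
    refine (Bt.C _ (hM a)).add (.sum _ fun w _ => .X _ (hf (sw_le w)) fun ℓ h => ?_)
    exact (Nat.le_zero.1 ((hf (sw_le w) ℓ).trans_eq (hM a ℓ h))).trans (hM a ℓ h).symm

theorem sg_vars {P : MvPolynomial (C ⊕ B.N) ℝ} {v : C ⊕ B.CN} (hv : v ∈ (aeval (B.sg b) P).vars) :
    Sum.map id Sigma.fst v ∈ P.vars := by
  classical
  obtain ⟨u, hu, k⟩ := mem_vars_bind₁ _ _ hv
  cases u with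
  | inl c =>
    rw [sg, Sum.elim_inl, vars_X, mem_singleton] at k
    subst k
    exact hu
  | inr a =>
    rw [sg, Sum.elim_inr] at k
    rcases mem_union.1 (vars_add_subset _ _ k) with k | k
    · rw [vars_C] at k; cases k
    · obtain ⟨x, -, k⟩ := mem_biUnion.1 (vars_sum_subset _ _ k)
      rw [vars_X, mem_singleton] at k
      subst k
      exact hu

theorem Lo.cmp_ok (h : B.Lo dg) (b : B.N → ℤ) : (B.cmp dg b).Ok dg where
  ne x := (mem_erase.1 x.2.2).1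
  hom _ := weightedHomogeneousComponent_isWeightedHomogeneous _ _
  live x c k := h.live x.1 c (sg_vars (vars_comp k))
  tri x x' k := h.tri x.1 x'.1 (sg_vars (vars_comp k))

/-- evaluation after the splitting -/
theorem eval_sg (ξ : C → ℝ) {n : B.N → ℤ} {n' : B.CN → ℤ}
    {P : MvPolynomial (C ⊕ B.N) ℝ} (h : ∀ a, Sum.inr a ∈ P.vars → n a = b a + ∑ w, n' ⟨a, w⟩) :
    eval (Sum.elim ξ fun x => (n' x : ℝ)) (aeval (B.sg b) P) =
      eval (Sum.elim ξ fun a => (n a : ℝ)) P := by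
  rw [eval_aeval]
  refine eval_congr fun v hv => ?_
  cases v with
  | inl c => rw [sg, Sum.elim_inl, eval_X]; rfl
  | inr a =>
    rw [sg, Sum.elim_inr, map_add, eval_C, map_sum, Sum.elim_inr, h a hv]
    push_cast
    exact congrArg _ (sum_congr rfl fun x _ => by rw [eval_X]; rfl)

theorem Lo.om_dep (h : B.Lo dg) (y : C → ℝ) (r : ℕ) (e : ∀ a, B.rk a + 1 < r → b a = b' a)
    (x : B.CN) (h0 : B.rk x.1 < r) : (B.cmp dg b).om y x = (B.cmp dg b').om y x :=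
  om_gen _ _ _ _ (h.cmp_ok b).tri (h.cmp_ok b').tri y r (fun x k => by
    rw [aeval_vars (σ' := B.sg b') fun v hv => ?_]
    cases v with
    | inl c => rfl
    | inr a =>
      have := h.tri _ a hv
      rw [sg, sg, Sum.elim_inr, Sum.elim_inr, e a (by omega)]) x h0

theorem Lo.sum_cmp (h : B.Lo dg) (b : B.N → ℤ) (a : B.N) : aeval (B.sg b) (B.Θ a) =
    MvPolynomial.C (coeff 0 (aeval (B.sg b) (B.Θ a))) + ∑ w : B.Sw a, (B.cmp dg b).Θ ⟨a, w⟩ := by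
  have h1 : Bt (B.cw dg) ∅ (B.wd a) (aeval (B.sg b) (B.Θ a)) :=
    (h.le a).aeval' fun v _ => sg_bt id monotone_id (by simp) v
  have h2 := sum_comp (s := Iic (B.wd a)) fun m hm => mem_Iic.2 (h1 m hm).1
  rw [← add_sum_erase _ _ (mem_Iic.2 (zero_le (a := B.wd a))), comp_zero fun v hv => ?_,
    ← sum_coe_sort] at h2
  · exact h2.symm
  · cases v with
    | inl c => exact h.live a c (sg_vars hv)
    | inr x => exact (mem_erase.1 x.2.2).1

theorem Lo.step (h : B.Lo dg) {y : C → ℝ} {n : B.N → ℤ} {a : B.N} {R s : ℕ}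
    (hs : (B.wd a).degree ≤ s) (hy : |eval (Sum.elim y fun a => (n a : ℝ)) (B.Θ a) - n a| ≤ R)
    (hb : ∀ a', B.rk a' < B.rk a → n a' = b a' + ∑ w, (B.cmp dg b).om y ⟨a', w⟩) :
    |n a - ∑ w, (B.cmp dg b).om y ⟨a, w⟩ - round (coeff 0 (aeval (B.sg b) (B.Θ a)))| ≤
      (R + 2 ^ s : ℕ) := by
  have e1 := eval_sg y fun a' k => hb a' (h.tri a a' k)
  have e2 := congrArg (eval (Sum.elim y fun x => ((B.cmp dg b).om y x : ℝ))) (h.sum_cmp b a)
  rw [e1, map_add, eval_C, map_sum] at e2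
  have e3 : |∑ w : B.Sw a, (eval (Sum.elim y fun x => ((B.cmp dg b).om y x : ℝ))
      ((B.cmp dg b).Θ ⟨a, w⟩) - (B.cmp dg b).om y ⟨a, w⟩)| ≤ 2 ^ s * (1 / 2) :=
    (abs_sum_le_sum_abs _ _).trans ((sum_le_card_nsmul _ _ _ fun w _ =>
      (h.cmp_ok b).tri.abs_le y ⟨a, w⟩).trans (by
      rw [nsmul_eq_mul]
      exact mul_le_mul_of_nonneg_right (by exact_mod_cast card_sw hs) (by norm_num)))
  rw [sum_sub_distrib] at e3
  have e4 := abs_le.1 (abs_sub_round (coeff 0 (aeval (B.sg b) (B.Θ a))))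
  have e5 : (1 : ℝ) ≤ 2 ^ s := one_le_pow₀ one_le_two
  rw [e2] at hy
  have := abs_le.1 hy
  have := abs_le.1 e3
  rw [← Int.cast_le (R := ℝ)]
  push_cast
  exact abs_le.2 ⟨by linarith, by linarith⟩

/-- **RSP**: semantic brackets are constants plus sums of canonical homogeneous brackets -/
theorem Lo.rsp (h : B.Lo dg) {pr : Set Ω → ℝ} (hp : Pg pr) (ζ : Ω → C → ℝ) (ω : Ω → B.N → ℤ)
    {H : Set Ω} {R s : ℕ} (hs : ∀ a, (B.wd a).degree ≤ s)
    (hω : ∀ y ∈ H, ∀ a, |eval (Sum.elim (ζ y) fun a => (ω y a : ℝ)) (B.Θ a) - ω y a| ≤ R) :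
    ∃ b : B.N → ℤ, ∃ H' ⊆ H, pr H ≤ (2 ^ (R + 2 ^ s + 1) : ℝ) ^ Fintype.card B.N * pr H' ∧
      ∀ y ∈ H', ∀ a, ω y a = b a + ∑ w, (B.cmp dg b).om (ζ y) ⟨a, w⟩ := by
  have : ∀ S : Finset B.N, (∀ a ∈ S, ∀ a', B.rk a' < B.rk a → a' ∈ S) → ∃ b : B.N → ℤ, ∃ H' ⊆ H,
      pr H ≤ (2 ^ (R + 2 ^ s + 1) : ℝ) ^ #S * pr H' ∧
        ∀ y ∈ H', ∀ a ∈ S, ω y a = b a + ∑ w, (B.cmp dg b).om (ζ y) ⟨a, w⟩ := fun S => by
    induction S using Finset.induction_on_max_value B.rk with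
    | empty => exact fun _ => ⟨0, H, subset_rfl, by simp, by simp⟩
    | insert a S ha hm ih =>
      intro hS
      have lo : ∀ a', B.rk a' < B.rk a → a' ∈ S := fun a' k =>
        (mem_insert.1 (hS a (mem_insert_self _ _) a' k)).resolve_left fun e => by simp [e] at k
      obtain ⟨b, H', h1, h2, h3⟩ := ih fun a1 k a' k' => lo a' (k'.trans_le (hm a1 k))
      obtain ⟨i, -, hi⟩ := hp.pg (Icc (round (coeff 0 (aeval (B.sg b) (B.Θ a))) - (R + 2 ^ s : ℕ))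
        (round (coeff 0 (aeval (B.sg b) (B.Θ a))) + (R + 2 ^ s : ℕ))) H'
        (fun y => ω y a - ∑ w, (B.cmp dg b).om (ζ y) ⟨a, w⟩) (nonempty_Icc.2 (by
          have := Int.natCast_nonneg (R + 2 ^ s); linarith))
        fun y hy => by
          have := abs_le.1 (h.step (hs a) (hω y (h1 hy) a) fun a' k => h3 y hy a' (lo a' k))
          exact mem_Icc.2 ⟨by omega, by omega⟩
      have dep : ∀ (y : C → ℝ) a', B.rk a' ≤ B.rk a →
          ∑ w, (B.cmp dg (Function.update b a i)).om y ⟨a', w⟩ = ∑ w, (B.cmp dg b).om y ⟨a', w⟩ :=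
        fun y a' k => sum_congr rfl fun w _ => h.om_dep y (B.rk a + 1)
          (fun a1 k => Function.update_of_ne (fun e => by simp [e] at k) _ _) _ (Nat.lt_succ_of_le k)
      refine ⟨Function.update b a i, {y ∈ H' | ω y a - ∑ w, (B.cmp dg b).om (ζ y) ⟨a, w⟩ = i},
        (Set.sep_subset _ _).trans h1, h2.trans ?_, fun y hy a' k => ?_⟩
      · rw [card_insert_of_notMem ha, pow_succ _ #S, mul_assoc]
        refine mul_le_mul_of_nonneg_left (hi.trans (mul_le_mul_of_nonneg_right ?_ (hp.nn _)))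
          (by positivity)
        rw [Int.card_Icc, show ∀ x k : ℤ, x + k + 1 - (x - k) = 2 * k + 1 from fun _ _ => by ring,
          show ∀ k : ℕ, (2 * (k : ℤ) + 1) = ((2 * k + 1 : ℕ) : ℤ) from fun _ => by
            push_cast; ring, Int.toNat_natCast]
        have := (R + 2 ^ s).lt_two_pow_self
        exact_mod_cast (by rw [pow_succ]; omega : 2 * (R + 2 ^ s) + 1 ≤ 2 ^ (R + 2 ^ s + 1))
      · rcases mem_insert.1 k with rfl | k
        · rw [dep _ _ le_rfl, Function.update_self, ← hy.2]; ring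
        · rw [dep _ _ (hm a' k), Function.update_of_ne (fun e : a' = a => ha (e ▸ k)),
            h3 y hy.1 a' k]
  obtain ⟨b, H', h1, h2, h3⟩ := this univ fun _ _ _ _ => mem_univ _
  exact ⟨b, H', h1, h2, fun y hy a => h3 y hy a (mem_univ _)⟩

/-- cells by pigeonhole -/
theorem Tri.cel (h : B.Tri) {pr : Set Ω → ℝ} (hp : Pg pr) (ζ : Ω → C → ℝ) (H : Set Ω) (r : ℕ) :
    ∃ H' ⊆ H, pr H ≤ (2 ^ (r + 2) : ℝ) ^ Fintype.card B.N * pr H' ∧ B.Cel ζ H' ((1 / 2) ^ r) := by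
  obtain ⟨t, -, ht⟩ := hp.pg (Fintype.piFinset fun _ : B.N => Icc (-(2 : ℤ) ^ r) (2 ^ r)) H
    (fun y a => ⌊(B.ev (ζ y) (B.Θ a) - B.om (ζ y) a) * 2 ^ r⌋)
    (Fintype.piFinset_nonempty.2 fun _ => nonempty_Icc.2 (by
      have : (0 : ℤ) < 2 ^ r := by positivity
      omega))
    fun y _ => Fintype.mem_piFinset.2 fun a => by
      have := _root_.abs_le.1 (h.abs_le (ζ y) a)
      have p : (0 : ℝ) < 2 ^ r := by positivity
      refine mem_Icc.2 ⟨Int.le_floor.2 ?_, Int.floor_le_iff.2 ?_⟩ <;> push_cast <;> nlinarith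
  refine ⟨_, Set.sep_subset _ _, ht.trans (mul_le_mul_of_nonneg_right ?_ (hp.nn _)),
    fun a => t a / 2 ^ r, fun y hy a => ?_⟩
  · rw [Fintype.card_piFinset, prod_const, card_univ, Nat.cast_pow]
    refine pow_le_pow_left₀ (by positivity) ?_ _
    rw [Int.card_Icc, show (2 : ℤ) ^ r + 1 - -2 ^ r = ((2 * 2 ^ r + 1 : ℕ) : ℤ) by push_cast; ring,
      Int.toNat_natCast, pow_add]
    push_cast
    have : (1 : ℝ) ≤ 2 ^ r := one_le_pow₀ one_le_two
    linarith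
  · have e := congrFun hy.2 a
    have p : (0 : ℝ) < 2 ^ r := by positivity
    set x := B.ev (ζ y) (B.Θ a) - B.om (ζ y) a
    have h1 := Int.floor_le (x * 2 ^ r)
    have h2 := Int.lt_floor_add_one (x * 2 ^ r)
    rw [e] at h1 h2
    rw [show x - t a / 2 ^ r = (x * 2 ^ r - t a) / 2 ^ r by field_simp, abs_div, abs_of_pos p,
      one_div, inv_pow, ← one_div]
    exact div_le_div_of_nonneg_right (_root_.abs_le.2 ⟨by linarith, by linarith⟩) p.le

/-! ### pull-backs -/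

variable {σ : C → MvPolynomial C' ℝ}

theorem ps_vars {P : MvPolynomial (C ⊕ B.N) ℝ} {v : C' ⊕ B.N} (hv : v ∈ (aeval (B.ps σ) P).vars) :
    (∀ c', v = .inl c' → ∃ c, Sum.inl c ∈ P.vars ∧ c' ∈ (σ c).vars) ∧
      ∀ a, v = .inr a → Sum.inr a ∈ P.vars := by
  classical
  obtain ⟨u, hu, k⟩ := mem_vars_bind₁ _ _ hv
  cases u with
  | inl c =>
    obtain ⟨c', k', rfl⟩ := mem_vars_rename _ _ k
    exact ⟨fun _ e => ⟨c, hu, Sum.inl.inj e ▸ k'⟩, fun _ e => by cases e⟩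
  | inr a =>
    rw [ps, Sum.elim_inr, vars_X, mem_singleton] at k
    subst k
    exact ⟨fun _ e => (by cases e), fun _ e => Sum.inr.inj e ▸ hu⟩

theorem eval_ps (ξ : C' → ℝ) (n : B.N → ℝ) (P : MvPolynomial (C ⊕ B.N) ℝ) :
    eval (Sum.elim ξ n) (aeval (B.ps σ) P) = eval (Sum.elim (fun c => eval ξ (σ c)) n) P := by
  rw [eval_aeval]
  refine eval_congr fun v _ => ?_
  cases v with
  | inl c => rw [ps, Sum.elim_inl, eval_rename]; rfl
  | inr a => rw [ps, Sum.elim_inr, eval_X]; rfl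

/-- types of pulled-back forms in any grading -/
theorem ps_bt {t : C → L →₀ ℕ} {t' : C' → L →₀ ℕ} {u : B.N → L →₀ ℕ} {M : Finset L} {w : L →₀ ℕ}
    {P : MvPolynomial (C ⊕ B.N) ℝ} (hP : Bt (Sum.elim t u) M w P)
    (h : ∀ c, Sum.inl c ∈ P.vars → Bt t' M (t c) (σ c)) :
    Bt (Sum.elim t' u) M w (aeval (B.ps σ) P) := hP.aeval' fun v hv => by
  cases v with
  | inl c => exact Bt.rename (h c hv)
  | inr a => exact .X _ le_rfl fun _ _ => rfl

theorem Tri.pl (h : B.Tri) (σ : C → MvPolynomial C' ℝ) : (B.pl σ).Tri :=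
  fun a a' k => h a a' ((ps_vars k).2 a' rfl)

theorem Lo.pl (h : B.Lo dg) (h1 : ∀ c, dg c ≠ 0 → Bt dg' ∅ (dg c) (σ c))
    (h2 : ∀ c, dg c ≠ 0 → ∀ c' ∈ (σ c).vars, dg' c' ≠ 0) : (B.pl σ).Lo dg' where
  le a := ps_bt (h.le a) fun c k => h1 c (h.live a c k)
  live a c' k := let ⟨c, k1, k2⟩ := (ps_vars k).1 c' rfl; h2 c (h.live a c k1) c' k2
  tri := h.tri.pl σ

theorem Tri.om_pl (h : B.Tri) (σ : C → MvPolynomial C' ℝ) (ξ : C' → ℝ) :
    (B.pl σ).om ξ = B.om fun c => eval ξ (σ c) := by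
  refine ((h.pl σ).om_uniq ξ fun a => ?_).symm
  have k : B.om (fun c => eval ξ (σ c)) a = round (eval (Sum.elim (fun c => eval ξ (σ c))
    fun a => (B.om (fun c => eval ξ (σ c)) a : ℝ)) (B.Θ a)) := h.om_spec _ a
  rw [← eval_ps] at k
  exact k

/-- **PULL**: pull back along `σ`, split, pigeonhole the constants and the cells -/
theorem Lo.pull (h : B.Lo dg) (h1 : ∀ c, dg c ≠ 0 → Bt dg' ∅ (dg c) (σ c))
    (h2 : ∀ c, dg c ≠ 0 → ∀ c' ∈ (σ c).vars, dg' c' ≠ 0) {pr : Set Ω → ℝ} (hp : Pg pr)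
    (ζ : Ω → C' → ℝ) (H : Set Ω) {s : ℕ} (hs : ∀ a, (B.wd a).degree ≤ s) (r : ℕ) :
    ∃ b : B.N → ℤ, ∃ H' ⊆ H,
      pr H ≤ (2 ^ (2 ^ s * (r + 3) + 2) : ℝ) ^ Fintype.card B.N * pr H' ∧
      ((B.pl σ).cmp dg' b).Ok dg' ∧ ((B.pl σ).cmp dg' b).Cel ζ H' ((1 / 2) ^ r) ∧
      ∀ y ∈ H', (∀ a, B.om (fun c => eval (ζ y) (σ c)) a =
        b a + ∑ w, ((B.pl σ).cmp dg' b).om (ζ y) ⟨a, w⟩) ∧
      ∀ (σ' : C → MvPolynomial C' ℝ) (ξ : C' → ℝ) (P : MvPolynomial (C ⊕ B.N) ℝ),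
        eval (Sum.elim ξ fun x => (((B.pl σ).cmp dg' b).om (ζ y) x : ℝ))
          (aeval ((B.pl σ).sg b) (aeval (B.ps σ') P)) =
        eval (Sum.elim (fun c => eval ξ (σ' c))
          fun a => (B.om (fun c => eval (ζ y) (σ c)) a : ℝ)) P := by
  have k := h.pl h1 h2
  obtain ⟨b, H1, a1, a2, a3⟩ := k.rsp hp ζ (fun y => (B.pl σ).om (ζ y)) (H := H) (R := 1) hs
    fun y _ a => (k.tri.abs_le (ζ y) a).trans (by norm_num)
  obtain ⟨H2, c1, c2, c3⟩ := (k.cmp_ok b).tri.cel hp ζ H1 r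
  have e : ∀ y ∈ H2, ∀ a, B.om (fun c => eval (ζ y) (σ c)) a =
      b a + ∑ w, ((B.pl σ).cmp dg' b).om (ζ y) ⟨a, w⟩ := fun y hy a => by
    rw [← h.tri.om_pl]; exact a3 y (c1 hy) a
  refine ⟨b, H2, c1.trans a1, a2.trans ?_, k.cmp_ok b, c3, fun y hy => ⟨e y hy, fun σ' ξ P =>
    (eval_sg ξ fun a _ => e y hy a).trans (eval_ps _ _ _)⟩⟩
  refine (mul_le_mul_of_nonneg_left c2 (by positivity)).trans ?_
  rw [← mul_assoc]
  refine mul_le_mul_of_nonneg_right ?_ (hp.nn _)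
  rw [← pow_mul, ← pow_mul, ← pow_mul, ← pow_add]
  refine pow_le_pow_right₀ one_le_two ?_
  have := Nat.mul_le_mul_left (r + 2) (card_cn (B := B.pl σ) hs)
  refine (Nat.add_le_add_left this _).trans_eq ?_
  change _ * Fintype.card B.N + _ * (Fintype.card B.N * _) = _
  ring

end Bk

end Crest.Agent.N49.Sd

end
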