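import Crest.Agent.N49.Sd.Fk
import Crest.Agent.N49.Sw.Df4

/-!
# Row 49 (helper43): the states of the symmetrisation loop (FROZEN)
-/

set_option autoImplicit false

open Finset

noncomputable section

namespace Crest.Agent.N49.Sd

open Tw Rm Md Sw

/-- **the state of the loop**: no pending family -/
def AS0 (d : ℕ) (q : Finset (Lb d) → Prop) : Pp d := fun c f H n => (∀ l, 1 ≤ f.la l) ∧
  ∃ (Bt : Bk (VV f.T.C (Lx d c.Q)) (Lx d c.Q))
    (Γ : Fin c.D → MvPolynomial (VV f.T.C (Lx d c.Q) ⊕ Bt.N) ℝ),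
    Tyd bk none Bt ∧ Fintype.card Bt.N ≤ n ∧
    (∀ a, Tyf bk none Bt (fun w => q (w.mapDomain bk).support) (Γ a)) ∧
    ∀ y ∈ H, ∀ a, f.S.Rel univ {0} y 1 (2 ^ n) fun p =>
      f.F a p - Bt.ev (uv f.toBs (Wt d c.Q) p) (Γ a)

/-- the state after a step -/
def ASP (s d : ℕ) (q : Finset (Lb d) → Prop) : Pp d := fun c f H n =>
  AS s f.toBs (Wt d c.Q) bk none f.F H n q

/-- the block set `U` is removed -/
structure Rmv {L : Type} (q q' : Finset L → Prop) (U : Finset L) : Prop where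
  dn : ∀ S S', S' ⊆ S → q' S → q' S'
  or : ∀ S, q S → q' S ∨ S = U
  lt : ∀ S, S ⊂ U → q' S
  top : ∀ S, q' S → ¬ U ⊆ S

/-- **one step of the symmetrisation** -/
def STEPL (s d : ℕ) : Prop := ∀ (ε : ℝ) (q q' : Finset (Lb d) → Prop) (U : Finset (Lb d)),
  Rmv q q' U → 0 ∈ U → Stp s (fun o : Og s d => o.Ok ε) Og.cx (AS0 d q) (ASP s d q')

/-- the entry -/
def ENTL (s d : ℕ) : Prop := Lk (Fs s (MH d)) (Fs s (AS0 d fun _ => True))

end Crest.Agent.N49.Sd

end
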