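import Crest.Agent.N49.Sd.Sp
import Crest.Agent.N49.Sd.Stcp
import Crest.Agent.N49.Md.Fw2
import Crest.Agent.N49.Md.Comp
import Crest.Agent.N49.Md.Tcmp
import Crest.Agent.N49.Md.Co

/-!
# Row 49 (helper43): links between frame states from steps on one base
-/

set_option autoImplicit false

open Finset

noncomputable section

namespace Crest.Agent.N49.Sd

open Tw Rm Md Mv

/-- the number of stages may be fixed -/
theorem Lk.of_eq {C : Type _} {A A' B : Sta C}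
    (u : ∀ c M n β Y, A c M n β Y → ∃ M0 ≤ M, A' c M0 n β Y) (ma : Mon A') (mb : Mon B)
    (mm : ∀ c M M' n β Y, M ≤ M' → B c M n β Y → B c M' n β Y) (h : Lk A' B) : Lk A B := by
  choose e M' K h using h
  refine fun M => ⟨(range (M + 1)).sup e, (range (M + 1)).sup M', fun K' =>
    ⟨(range (M + 1)).sup (K · K'), fun c n Y h2 a => ?_⟩⟩
  obtain ⟨M0, m, a⟩ := u _ _ _ _ _ a
  have m' : M0 ∈ range (M + 1) := mem_range.2 (by omega)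
  have k : K M0 K' ≤ (range (M + 1)).sup (K · K') := le_sup (f := (K · K')) m'
  obtain ⟨n', b1, b2, b3⟩ := h M0 K' c n Y h2
    (ma _ _ _ _ _ _ _ (Nat.pow_le_pow_right (by omega) k) le_rfl a)
  exact ⟨n', b1, b2.trans (Nat.pow_le_pow_right (by omega) (le_sup m')), mm _ _ _ _ _ _ (le_sup m')
    (mb _ _ _ _ _ _ _ le_rfl (Nat.pow_le_pow_right (by omega) k) b3)⟩

variable {s d : ℕ}

namespace Kx
variable {c : Kx d} {f : c.Fr} {n n' Y : ℕ}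

theorem Fr.Fo.bs (k : f.Fo s n Y) : f.toBs.Ok s n := ⟨k.ok.old, k.fw.elim fun _ w => w.la⟩

theorem Fr.Fo.sb (k : f.Fo s n Y) (o : c.Ok s) (e : c.n ≤ n) : Sb f.toBs (Wt d c.Q) bk s n :=
  ⟨o.n2.trans e, k.bs, Kx.wf o, k.C, o.τ.trans e⟩

theorem Fr.Fo.mono (k : f.Fo s n Y) (e : n ≤ n') : f.Fo s n' Y :=
  ⟨k.ok, k.st, k.fw.imp fun _ w => w.mono e, k.C.trans (Nat.pow_le_pow_right two_pos e)⟩

/-- composition with a frame over the frame -/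
abbrev Fr.cp (f : c.Fr) (f' : Md.Fr f.T (Lx d c.Q) (Lb d)) : c.Fr := f.comp f' bk

variable {f' : Md.Fr f.T (Lx d c.Q) (Lb d)} {h : ℕ}

theorem Fr.Fo.cp_k (k : f.Fo s n Y) (o : c.Ok s) (k' : f'.Ok s h) :
    (f.cp f').k = fun p => f.k (ka f.toBs (Wt d c.Q) bk f' p) := funext fun p =>
  (comp' tcmp cot _ _ c.B _ bk f f' s _ _ _ o.ok k.ok k' (Kx.wf o)).2 p

theorem Fr.Fo.cp_F (k : f.Fo s n Y) (o : c.Ok s) (k' : f'.Ok s h) :
    (f.cp f').F = fun a p => f.F a (ka f.toBs (Wt d c.Q) bk f' p) := by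
  funext a p
  simp only [Fr.F, k.cp_k o k']
end Kx

section
variable {O : Type _} (s) (ok : O → Prop) (cx : O → Kx d)

/-- frame states with a side condition -/
def Fo' (P : Pp d) : Sta O := fun o M n β Y => ok o ∧ Fs s P (cx o) M n β Y

/-- what is known before a step -/
structure Pre (o : O) (f : (cx o).Fr) (H : Set (f.X → ℤ)) (n Y M K : ℕ) : Prop where
  ok : ok o
  c : (cx o).Ok s
  le : (cx o).n ≤ n
  fo : f.Fo s n Y
  M : f.M = M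
  rg : f.Rg 1 (n ^ K) (1 / 2 ^ n ^ K) (1 / 2 ^ n ^ K)
  sz : Rm.Sz n f.S H
  ov : Ov f.k H (cx o).H

/-- **a step to a new frame** -/
def Stp (P P' : Pp d) : Prop := ∀ M, ∃ e M', ∀ K', ∃ K, ∀ o f H n Y, Pre s ok cx o f H n Y M K →
  P (cx o) f H n → ∃ (f' : Md.Fr f.T (Lx d (cx o).Q) (Lb d)) (ν : ℕ)
    (H' : Set (f'.SC (Wt d (cx o).Q) → ℤ)) (n' : ℕ), n ≤ n' ∧ n' ≤ n ^ e ∧ f'.Ok s (n ^ K) ∧
    f'.M ≤ M' ∧ f'.θ.St f.st f'.st ∧ f'.Fw ν (n' - n) ∧ Fintype.card f'.T.C ≤ 2 ^ n' ∧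
    f'.Rg 1 (n' ^ K') (1 / 2 ^ n' ^ K') (1 / 2 ^ n' ^ K') ∧ Rm.Sz n' (f'.SY (Wt d (cx o).Q) bk) H' ∧
    Ov (ka f.toBs (Wt d (cx o).Q) bk f') H' H ∧ P' (cx o) (f.cp f') H' n'

/-- **a step on the same frame** -/
def Stq (P P' : Pp d) : Prop := ∀ M, ∃ e K, ∀ o f H n Y, Pre s ok cx o f H n Y M K →
  P (cx o) f H n → ∃ H' ⊆ H, ∃ n', n ≤ n' ∧ n' ≤ n ^ e ∧ (1 / 2 : ℝ) ^ n' ≤ f.S.pr H' ∧
    P' (cx o) f H' n'

variable {s ok cx} {P P' : Pp d}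

theorem mon_fo : Mon (Fo' s ok cx P) := fun _ _ _ _ _ _ _ a b h =>
  ⟨h.1, mon_fs P _ _ _ _ _ _ _ a b h.2⟩

/-- the exact states -/
def Fe (P : Pp d) : Sta O := fun o M n β Y => ok o ∧ (cx o).Ok s ∧ (cx o).n ≤ n ∧
  ∃ (f : (cx o).Fr) (H : Set (f.X → ℤ)), f.Fo s n Y ∧ f.M = M ∧
    f.Rg 1 β (1 / 2 ^ β) (1 / 2 ^ β) ∧ Rm.Sz n f.S H ∧ Ov f.k H (cx o).H ∧ P (cx o) f H n

theorem lk_fe (h : Lk (Fe (s := s) (ok := ok) (cx := cx) P) (Fo' s ok cx P')) :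
    Lk (Fo' s ok cx P) (Fo' s ok cx P') :=
  Lk.of_eq (fun _ _ _ _ _ ⟨a, o, e, f, H, k, m, t⟩ => ⟨f.M, m, a, o, e, f, H, k, rfl, t⟩)
    (fun _ _ _ _ _ _ _ a b ⟨z, o, e, f, H, k, m, r, t⟩ => ⟨z, o, e, f, H,
      ⟨Idf.fr_mono o.ok.old.ok.toTri k.ok b, k.st, k.fw, k.C⟩, m, Un.rg_mono k.ok.old.stg r a, t⟩)
    mon_fo (fun _ _ _ _ _ _ u ⟨a, o, e, f, H, k, m, t⟩ => ⟨a, o, e, f, H, k, m.trans u, t⟩) h

theorem Stq.lk (h : Stq s ok cx P P') : Lk (Fo' s ok cx P) (Fo' s ok cx P') := lk_fe fun M => by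
  obtain ⟨e, K, h⟩ := h M
  refine ⟨e, M, fun K' => ⟨e * K' + K + 1, fun o n Y h2 ⟨a, c, le, f, H, k, m, r, z, v, p⟩ => ?_⟩⟩
  obtain ⟨H', b0, n', b1, b2, b3, b4⟩ := h o f H n Y ⟨a, c, le, k, m, Un.rg_mono k.ok.old.stg r
    (Nat.pow_le_pow_right (by omega) (by omega)), z, v⟩ p
  refine ⟨n', b1, b2, mon_fo (P := P') _ _ _ _ _ Y _ le_rfl
    (le_trans (by omega) (Nat.le_self_pow (by omega) _)) ⟨a, c, le.trans b1, f, H', k.mono b1, m.le,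
      Un.rg_mono k.ok.old.stg r ?_, ⟨by omega, z.2.1.trans (Nat.pow_le_pow_right two_pos b1), b3⟩,
      fun y hy => v y (b0 hy), b4⟩⟩
  refine (Nat.pow_le_pow_left b2 _).trans ?_
  rw [← pow_mul]; exact Nat.pow_le_pow_right (by omega) (by omega)

theorem cost_le (s K : ℕ) {n Y : ℕ} (h2 : 2 ≤ n) :
    (s + 1) * (Y + n ^ K + 1) ^ 2 ≤ (n + Y) ^ (s + 2 * (K + 3)) := by
  have a : n ^ K ≤ (n + Y) ^ (K + 1) :=
    (Nat.pow_le_pow_left (by omega) _).trans (Nat.pow_le_pow_right (by omega) (by omega))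
  have b : n + Y ≤ (n + Y) ^ (K + 1) := Nat.le_self_pow (by omega) _
  have c : Y + n ^ K + 1 ≤ (n + Y) ^ (K + 3) := by
    have := Nat.mul_le_mul_left ((n + Y) ^ (K + 1)) (show 4 ≤ (n + Y) ^ 2 by nlinarith)
    rw [show K + 3 = K + 1 + 2 by ring, pow_add]; omega
  have e : s + 1 ≤ (n + Y) ^ s := (Nat.lt_two_pow_self).trans_le (Nat.pow_le_pow_left (by omega) _)
  rw [pow_add, mul_comm 2, pow_mul]
  exact Nat.mul_le_mul e (Nat.pow_le_pow_left c _)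

theorem Stp.lk (h : Stp s ok cx P P') : Lk (Fo' s ok cx P) (Fo' s ok cx P') := lk_fe fun M => by
  obtain ⟨e, M', h⟩ := h M
  refine ⟨e, M', fun K' => ?_⟩
  obtain ⟨K, h⟩ := h K'
  refine ⟨s + 2 * (K + 3), fun o n Y h2 ⟨a, c, le, f, H, k, m, r, z, v, p⟩ => ?_⟩
  obtain ⟨f', ν, H', n', b1, b2, b3, b4, b5, b6, b7, b8, b9, b10, b11⟩ := h o f H n Y
    ⟨a, c, le, k, m, Un.rg_mono k.ok.old.stg r (Nat.pow_le_pow_right (by omega) (by omega)), z, v⟩ p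
  obtain ⟨ν0, w⟩ := k.fw
  have w' := w.comp b6 b3.θ bk
  rw [show n + (n' - n) = n' by omega] at w'
  refine ⟨n', b1, b2, a, c, le.trans b1, f.cp f', H', ⟨Idf.fr_mono c.ok.old.ok.toTri
    (comp' tcmp cot _ _ (cx o).B _ bk f f' s _ _ _ c.ok k.ok b3 (Kx.wf c)).1 (cost_le s K h2),
    stc _ _ _ _ _ _ _ _ _ _ _ k.ok.θ k.st b5, ⟨_, w'⟩, b7⟩, b4, b8, b9, fun y hy => ?_, b11⟩
  obtain ⟨y1, c1, c2⟩ := b10 y hy
  obtain ⟨y0, c3, c4⟩ := v y1 c1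
  exact ⟨y0, c3, by rw [k.cp_k c b3]; exact (congrArg f.k c2).trans c4⟩
end

variable {P P' : Pp d} {ε : ℝ}

/-- links with the origin -/
theorem Stp.oa (h : Stp s (fun o : Og s d => o.Ok ε) Og.cx P P') :
    Lk (Oa (s := s) ε (Fs s P)) (Oa ε (Fs s P')) := h.lk
theorem Stq.oa (h : Stq s (fun o : Og s d => o.Ok ε) Og.cx P P') :
    Lk (Oa (s := s) ε (Fs s P)) (Oa ε (Fs s P')) := h.lk

theorem lk_fs (h : Lk (Fo' s (fun _ => True) id P) (Fo' s (fun _ => True) id P')) :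
    Lk (Fs s P) (Fs s P') := fun M => by
  obtain ⟨e, M', h⟩ := h M
  refine ⟨e, M', fun K' => (h K').imp fun K h c n Y h2 a => ?_⟩
  obtain ⟨n', b1, b2, b3⟩ := h c n Y h2 ⟨trivial, a⟩
  exact ⟨n', b1, b2, b3.2⟩

/-- links without the origin -/
theorem Stp.fs (h : Stp s (fun _ => True) id P P') : Lk (Fs s P) (Fs s P') := lk_fs h.lk
theorem Stq.fs (h : Stq s (fun _ => True) id P P') : Lk (Fs s P) (Fs s P') := lk_fs h.lk

end Crest.Agent.N49.Sd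

end
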