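import Crest.Agent.N49.Sd.Spl0

/-!
# Row 49 (helper60): SPLIT, the output of RMH in clone-typed polynomial form
-/

set_option autoImplicit false
set_option linter.unusedSectionVars false

open MvPolynomial Finset

noncomputable section

namespace Crest.Agent.N49.Sd

open Sy Rm

/-- typed forms: every monomial is a partial transversal over `Z ∪ M` that meets all of `M` -/
structure Gm {C Λ L : Type} [DecidableEq L] (B : Bk C Λ) (dg : C → Λ →₀ ℕ) (blk : Λ → L)
    (Z M : Finset L) (P : MvPolynomial (C ⊕ B.N) ℝ) : Prop where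
  live : ∀ c, Sum.inl c ∈ P.vars → dg c ≠ 0
  ty : ∀ m ∈ P.support, ind M ≤ (Finsupp.weight (B.wg dg) m).mapDomain blk ∧
    (Finsupp.weight (B.wg dg) m).mapDomain blk ≤ ind (Z ∪ M)

/-- **SPLIT** -/
def SPLIT (l0 : ℕ) : Prop := ∃ K : ℕ, ∀ (L C Λ D : Type) [Fintype L] [DecidableEq L] [Fintype C]
  [DecidableEq C] [Fintype Λ] [DecidableEq Λ] (T : TT L C) (blk : Λ → L) (dg : C → Λ →₀ ℕ)
  (Z M : Finset L) (H : Set (C → ℤ)) (n r : ℕ) (F : D → Fm L C), Fintype.card L ≤ l0 →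
  Disjoint Z M → T.Ok → (∀ c, (dg c).mapDomain blk = ind (T.ty c)) → Fintype.card Λ ≤ n → r ≤ n →
  Rm.Sz n T H → Mh T Z M H n F →
  ∃ (B : Bk C Λ) (H' : Set (C → ℤ)) (q : ℕ) (Γ : D → MvPolynomial (C ⊕ B.N) ℝ), H' ⊆ H ∧
    (1 / 2 : ℝ) ^ n ^ K ≤ T.pr H' ∧ Fintype.card B.N ≤ n ^ K ∧ B.Ok dg ∧
    (∀ a, (B.wd a).mapDomain blk ≤ ind Z) ∧ B.Cell H' ((1 / 2) ^ r) ∧ 1 ≤ q ∧ q ≤ 2 ^ n ∧
    (∀ d, Gm B dg blk Z M (Γ d)) ∧ ∀ y ∈ H', ∀ d,
      T.Rel (Z ∪ M) M y q (2 ^ n) fun p => F d p - B.ev (fun c => p (.inl c)) (Γ d)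

namespace Sp

variable {L C Λ N : Type} [Fintype L] [DecidableEq L] [Fintype C] [DecidableEq C] [Fintype Λ]
  [DecidableEq Λ] [Fintype N] [DecidableEq N] (blk : Λ → L) (tn : N → Finset L)

/-- the components of the brackets -/
abbrev NI : Type := {x : N × Ws Λ (Fintype.card L) //
  x.2.1 ≠ 0 ∧ x.2.1.mapDomain blk ≤ ind (tn x.1)}

/-- the substitution -/
def sg (ok : N → Prop) [DecidablePred ok] (b : N → ℤ) (M : Finset L) :
    (C ⊕ N) ⊕ L → MvPolynomial (C ⊕ NI blk tn) ℝ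
  | .inl (.inl c) => X (.inl c)
  | .inl (.inr a) => if ok a then MvPolynomial.C (b a : ℝ) + ∑ x with x.1.1 = a, X (.inr x) else 0
  | .inr ℓ => MvPolynomial.C (if ℓ ∈ M then 0 else 1)

/-- the words -/
def wg (dg : C → Λ →₀ ℕ) : C ⊕ NI blk tn → Λ →₀ ℕ := Sum.elim dg fun x => x.1.2.1

variable {blk tn} {T : TT L C} {W : Wd L C N} {dg : C → Λ →₀ ℕ} {ok : N → Prop} [DecidablePred ok]
  {b b' : N → ℤ} {M : Finset L}

theorem sg_bt (hd : ∀ c, (dg c).mapDomain blk = ind (T.ty c)) (hM : ∀ a, Disjoint (W.tn a) M) (v) :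
    Bt (fun v => (wg blk W.tn dg v).mapDomain blk) M (ind ((W.xt T).tv v))
      (sg blk W.tn ok b M v) := by
  rcases v with (c | a) | ℓ
  · exact .X _ (hd c).le fun ℓ _ => congrArg (fun f : L →₀ ℕ => f ℓ) (hd c)
  · have z : ∀ ℓ ∈ M, ind (W.tn a) ℓ = 0 := fun ℓ h => if_neg (disjoint_right.1 (hM a) h)
    rw [sg]
    split_ifs
    · refine (Bt.C _ z).add (.sum _ fun x hx => ?_)
      have k : x.1.2.1.mapDomain blk ≤ ind (W.tn a) := (mem_filter.1 hx).2 ▸ x.2.2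
      exact .X _ k fun ℓ h => (Nat.le_zero.1 ((k ℓ).trans_eq (z ℓ h))).trans (z ℓ h).symm
    · exact .zero
  · rw [sg]
    split_ifs with h
    · rw [map_zero]; exact .zero
    · exact .C _ fun j k => if_neg fun e : j ∈ ({ℓ} : Finset L) => h (mem_singleton.1 e ▸ k)

theorem sg_vars {P : MvPolynomial ((C ⊕ N) ⊕ L) ℝ} (hP : ∀ v ∈ P.vars, ((W.xt T).tv v).Nonempty)
    {v : C ⊕ NI blk W.tn} (hv : v ∈ (aeval (sg blk W.tn ok b M) P).vars) :
    (∀ c, v = .inl c → (T.ty c).Nonempty) ∧ ∀ x, v = .inr x → ok x.1.1 := by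
  obtain ⟨u, hu, k⟩ := mem_vars_bind₁ _ _ hv
  have n := hP u hu
  rcases u with (c | a) | ℓ
  · rw [sg, vars_X, mem_singleton] at k
    subst k
    exact ⟨fun c e => Sum.inl.inj e ▸ n, fun _ e => by cases e⟩
  · rw [sg] at k
    split_ifs at k with h
    · rcases mem_union.1 (vars_add_subset _ _ k) with k | k
      · rw [vars_C] at k; cases k
      · obtain ⟨x, hx, k⟩ := mem_biUnion.1 (vars_sum_subset _ _ k)
        rw [vars_X, mem_singleton] at k
        subst k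
        refine ⟨fun _ e => (by cases e), fun x' e => ?_⟩
        cases e
        rw [(mem_filter.1 hx).2]
        exact h
    · simp at k
  · rw [sg, vars_C] at k; cases k

theorem dg_ne (hd : ∀ c, (dg c).mapDomain blk = ind (T.ty c)) {c : C} (h : (T.ty c).Nonempty) :
    dg c ≠ 0 := fun e => h.ne_empty (ind_eq_zero.1 (by rw [← hd, e, Finsupp.mapDomain_zero]))

theorem sg_congr (h : ∀ a, ok a → b a = b' a) :
    (sg blk tn ok b M : (C ⊕ N) ⊕ L → _) = sg blk tn ok b' M := funext fun v => by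
  rcases v with (c | a) | ℓ
  · rfl
  · exact if_ctx_congr Iff.rfl (fun k => by rw [h a k]) fun _ => rfl
  · rfl

variable (blk W dg) (PΘ : N → MvPolynomial ((C ⊕ N) ⊕ L) ℝ) (b)

/-- the substituted forms -/
def sb (a : N) : MvPolynomial (C ⊕ NI blk W.tn) ℝ :=
  aeval (sg blk W.tn (fun a' => W.rk a' < W.rk a) b ∅) (PΘ a)

/-- the split system -/
abbrev bk : Bk C Λ where
  N := NI blk W.tn
  wd x := x.1.2.1
  rk x := W.rk x.1.1
  Θ x := weightedHomogeneousComponent (wg blk W.tn dg) x.1.2.1 (sb blk W b PΘ x.1.1)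

variable {blk W dg PΘ b}

theorem bk_ok (hd : ∀ c, (dg c).mapDomain blk = ind (T.ty c))
    (hP : ∀ a, ∀ v ∈ (PΘ a).vars, ((W.xt T).tv v).Nonempty) : (bk blk W dg b PΘ).Ok dg where
  ne x := x.2.1
  hom _ := weightedHomogeneousComponent_isWeightedHomogeneous _ _
  live _ c h := dg_ne hd ((sg_vars (hP _) (vars_comp h)).1 c rfl)
  tri _ x' h := (sg_vars (hP _) (vars_comp h)).2 x' rfl

theorem om_gen {I : Type} [Fintype I] [DecidableEq I] (wd : I → Λ →₀ ℕ) (rk : I → ℕ)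
    (Θ Θ' : I → MvPolynomial (C ⊕ I) ℝ) (h : (Bk.mk I wd rk Θ).Tri) (h' : (Bk.mk I wd rk Θ').Tri)
    (y : C → ℝ) (r : ℕ) : (∀ x, rk x < r → Θ x = Θ' x) → ∀ x, rk x < r →
      (Bk.mk I wd rk Θ).om y x = (Bk.mk I wd rk Θ').om y x := by
  induction r with
  | zero => intro _ x h0; omega
  | succ r ih =>
    intro e x h0
    have k1 : (Bk.mk I wd rk Θ).om y x = round (eval ((Bk.mk I wd rk Θ).lf y) (Θ x)) :=
      h.om_spec y x
    have k2 : (Bk.mk I wd rk Θ').om y x = round (eval ((Bk.mk I wd rk Θ').lf y) (Θ' x)) :=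
      h'.om_spec y x
    rw [k1, k2, e x h0, eval_congr (x' := (Bk.mk I wd rk Θ').lf y) fun v hv => ?_]
    cases v with
    | inl c => exact (Bk.lf_inl _ _ _).trans (Bk.lf_inl _ _ _).symm
    | inr x' =>
      have : rk x' < rk x := h' x x' hv
      exact (Bk.lf_inr _ _ _).trans ((congrArg Int.cast
        (ih (fun a ha => e a (by omega)) x' (by omega))).trans (Bk.lf_inr _ _ _).symm)

theorem om_dep (h : (bk blk W dg b PΘ).Tri) (h' : (bk blk W dg b' PΘ).Tri) (y : C → ℝ) (r : ℕ)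
    (e : ∀ a, W.rk a + 1 < r → b a = b' a) (x : NI blk W.tn) (h0 : W.rk x.1.1 < r) :
    (bk blk W dg b PΘ).om y x = (bk blk W dg b' PΘ).om y x :=
  om_gen _ _ _ _ h h' y r (fun x k => by
    rw [sb, sb, sg_congr fun a ha => e a (by omega)]) x h0

theorem sb_sum (hd : ∀ c, (dg c).mapDomain blk = ind (T.ty c)) {a : N}
    (hP : ∀ v ∈ (PΘ a).vars, ((W.xt T).tv v).Nonempty)
    (hh : (PΘ a).IsWeightedHomogeneous (fun v => ind ((W.xt T).tv v)) (ind (W.tn a))) :
    sb blk W b PΘ a = MvPolynomial.C (coeff 0 (sb blk W b PΘ a)) +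
      ∑ x : NI blk W.tn with x.1.1 = a, (bk blk W dg b PΘ).Θ x := by
  have h1 := Bt.aeval hh (sg_bt (ok := fun a' => W.rk a' < W.rk a) (b := b) hd
    fun a => disjoint_empty_right _)
  let s := (Ws Λ (Fintype.card L)).filter fun w => w ≠ 0 ∧ w.mapDomain blk ≤ ind (W.tn a)
  have h2 : ∑ w ∈ insert 0 s, weightedHomogeneousComponent (wg blk W.tn dg) w (sb blk W b PΘ a) =
      sb blk W b PΘ a := sum_comp fun m hm => by
    have k := (h1 m hm).1
    rw [weight_map] at k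
    by_cases e : Finsupp.weight (wg blk W.tn dg) m = 0
    · exact e ▸ mem_insert_self _ _
    · exact mem_insert_of_mem (mem_filter.2 ⟨mem_Ws_of k, e, k⟩)
  rw [sum_insert (by simp [s]), comp_zero fun v hv => ?_] at h2
  · refine h2.symm.trans (congrArg _ (sum_bij (fun x _ => x.1.2.1) (fun x hx => ?_)
      (fun x hx x' hx' e => ?_) (fun w hw => ?_) fun x hx => ?_).symm)
    · exact mem_filter.2 ⟨x.1.2.2, x.2.1, (mem_filter.1 hx).2 ▸ x.2.2⟩
    · exact Subtype.ext (Prod.ext ((mem_filter.1 hx).2.trans (mem_filter.1 hx').2.symm)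
        (Subtype.ext e))
    · exact ⟨⟨(a, ⟨w, (mem_filter.1 hw).1⟩), (mem_filter.1 hw).2⟩, by simp, rfl⟩
    · rw [← (mem_filter.1 hx).2]
  · cases v with
    | inl c => exact dg_ne hd ((sg_vars hP hv).1 c rfl)
    | inr x => exact x.2.1

theorem card_fib (a : N) : #{x : NI blk tn | x.1.1 = a} ≤ #(Ws Λ (Fintype.card L)) := by
  refine card_le_card_of_injOn (fun x => x.1.2.1) (fun x _ => x.1.2.2) fun x hx x' hx' e => ?_
  exact Subtype.ext (Prod.ext ((mem_filter.1 hx).2.trans (mem_filter.1 hx').2.symm) (Subtype.ext e))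

/-- the sum of the components of the bracket `a` -/
def sm (B : NI blk tn → ℤ) (a : N) : ℤ := ∑ x with x.1.1 = a, B x

theorem step {Z : Finset L} (hd : ∀ c, (dg c).mapDomain blk = ind (T.ty c)) (hW : W.Ok T Z)
    (hP : ∀ a, (∀ p, eval p (PΘ a) = W.Θ a p) ∧
      (PΘ a).IsWeightedHomogeneous (fun v => ind ((W.xt T).tv v)) (ind (W.tn a)) ∧
        ∀ v ∈ (PΘ a).vars, ((W.xt T).tv v).Nonempty) {y : C → ℤ} {a : N}
    (hy : |W.Θ a (W.lf (TT.cf y)) - W.ω a (TT.cf y)| ≤ 1 / 10)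
    (hb : ∀ a', W.rk a' < W.rk a →
      W.ω a' (TT.cf y) = b a' + sm ((bk blk W dg b PΘ).om fun c => y c) a') :
    |W.ω a (TT.cf y) - sm ((bk blk W dg b PΘ).om fun c => y c) a -
      round (coeff 0 (sb blk W b PΘ a))| ≤ (#(Ws Λ (Fintype.card L)) + 1 : ℕ) := by
  have ok := bk_ok (b := b) hd fun a => (hP a).2.2
  let B := bk blk W dg b PΘ
  have e1 : W.Θ a (W.lf (TT.cf y)) = B.ev (fun c => y c) (sb blk W b PΘ a) := by
    refine Eq.trans ?_ (eval_aeval _ _ _).symm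
    rw [(hP a).1]
    refine (hW a).2.2.2.2 _ _ (fun c => by rw [sg, eval_X]; rfl) (fun ℓ => by
      rw [sg, eval_C, if_neg (notMem_empty _)]; rfl) fun a' h => ?_
    rw [sg, if_pos h, map_add, eval_C, map_sum, Wd.lf, hb a' h, sm]
    push_cast
    exact congrArg _ (sum_congr rfl fun x _ => by rw [eval_X]; rfl)
  have e2 : B.ev (fun c => y c) (sb blk W b PΘ a) = coeff 0 (sb blk W b PΘ a) +
      ∑ x : NI blk W.tn with x.1.1 = a, B.ev (fun c => y c) (B.Θ x) := by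
    refine (congrArg (eval _) (sb_sum hd (hP a).2.2 (hP a).2.1)).trans ?_
    rw [map_add, eval_C, map_sum]
    rfl
  have e3 : |∑ x : NI blk W.tn with x.1.1 = a, (B.ev (fun c => y c) (B.Θ x) -
      B.om (fun c => y c) x)| ≤ #(Ws Λ (Fintype.card L)) * (1 / 2) :=
    (abs_sum_le_sum_abs _ _).trans ((sum_le_card_nsmul _ _ _ fun x _ => ok.tri.abs_le _ x).trans (by
      rw [nsmul_eq_mul]
      exact mul_le_mul_of_nonneg_right (by exact_mod_cast card_fib a) (by norm_num)))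
  rw [sum_sub_distrib] at e3
  have e4 := abs_le.1 (abs_sub_round (coeff 0 (sb blk W b PΘ a)))
  have e5 : (0 : ℝ) ≤ #(Ws Λ (Fintype.card L)) := by positivity
  rw [e1, e2] at hy
  have := abs_le.1 hy
  have := abs_le.1 e3
  rw [← Int.cast_le (R := ℝ)]
  push_cast [sm]
  exact abs_le.2 ⟨by linarith, by linarith⟩

theorem consts {Z : Finset L} (hT : T.Ok) (hd : ∀ c, (dg c).mapDomain blk = ind (T.ty c))
    (hW : W.Ok T Z) (hP : ∀ a, (∀ p, eval p (PΘ a) = W.Θ a p) ∧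
      (PΘ a).IsWeightedHomogeneous (fun v => ind ((W.xt T).tv v)) (ind (W.tn a)) ∧
        ∀ v ∈ (PΘ a).vars, ((W.xt T).tv v).Nonempty) {H : Set (C → ℤ)} (hH : W.Cell H)
    (s : Finset N) : (∀ a ∈ s, ∀ a', W.rk a' < W.rk a → a' ∈ s) → ∃ b : N → ℤ, ∃ H' ⊆ H,
      T.pr H ≤ (2 * #(Ws Λ (Fintype.card L)) + 3 : ℝ) ^ #s * T.pr H' ∧ ∀ y ∈ H', ∀ a ∈ s,
        W.ω a (TT.cf y) = b a + sm ((bk blk W dg b PΘ).om fun c => y c) a := by
  induction s using Finset.induction_on_max_value W.rk with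
  | empty => exact fun _ => ⟨0, H, subset_rfl, by simp, by simp⟩
  | insert a s ha hm ih =>
    intro hs
    have lo : ∀ a', W.rk a' < W.rk a → a' ∈ s := fun a' h =>
      (mem_insert.1 (hs a (mem_insert_self _ _) a' h)).resolve_left fun e => by simp [e] at h
    obtain ⟨b, H', h1, h2, h3⟩ := ih fun a1 h a' k => lo a' (k.trans_le (hm a1 h))
    obtain ⟨i, -, hi⟩ := hT.pr_pigeon (Icc (round (coeff 0 (sb blk W b PΘ a)) -
      (#(Ws Λ (Fintype.card L)) + 1 : ℕ)) (round (coeff 0 (sb blk W b PΘ a)) +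
        (#(Ws Λ (Fintype.card L)) + 1 : ℕ))) (nonempty_Icc.2 (by omega)) H'
      (fun y => W.ω a (TT.cf y) - sm ((bk blk W dg b PΘ).om fun c => y c) a) fun y hy => by
        have := abs_le.1 (step hd hW hP (hH y (h1 hy) a) fun a' h => h3 y hy a' (lo a' h))
        exact mem_Icc.2 ⟨by omega, by omega⟩
    have dep : ∀ (y : C → ℝ) a', W.rk a' ≤ W.rk a →
        sm ((bk blk W dg (Function.update b a i) PΘ).om y) a' = sm ((bk blk W dg b PΘ).om y) a' :=
      fun y a' h => sum_congr rfl fun x hx => om_dep (bk_ok hd fun a => (hP a).2.2).tri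
        (bk_ok hd fun a => (hP a).2.2).tri y (W.rk a + 1) (fun a1 k => Function.update_of_ne
          (fun e => by simp [e] at k) _ _) x (by rw [(mem_filter.1 hx).2]; omega)
    refine ⟨Function.update b a i, {y ∈ H' |
      W.ω a (TT.cf y) - sm ((bk blk W dg b PΘ).om fun c => y c) a = i},
      (Set.sep_subset _ _).trans h1, h2.trans ?_, fun y hy a' h => ?_⟩
    · rw [card_insert_of_notMem ha, pow_succ, mul_assoc]
      refine mul_le_mul_of_nonneg_left (hi.trans_eq (congrArg (· * _) ?_)) (by positivity)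
      rw [Int.card_Icc, show ∀ x k : ℤ, x + k + 1 - (x - k) = 2 * k + 1 from fun _ _ => by ring,
        show ∀ k : ℕ, (2 * ((k + 1 : ℕ) : ℤ) + 1) = ((2 * k + 3 : ℕ) : ℤ) from fun _ => by
          push_cast; ring, Int.toNat_natCast]
      push_cast
      rfl
    · rcases mem_insert.1 h with rfl | h
      · rw [dep _ _ le_rfl, Function.update_self, ← hy.2]; ring
      · rw [dep _ _ (hm a' h), Function.update_of_ne (fun e : a' = a => ha (e ▸ h)), h3 y hy.1 a' h]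

end Sp

theorem Bk.Tri.cell {L C Λ : Type} [Fintype L] [DecidableEq L] [Fintype C] [DecidableEq C]
    {T : TT L C} (hT : T.Ok) {B : Bk C Λ} (h : B.Tri) (H : Set (C → ℤ)) (r : ℕ) :
    ∃ H' ⊆ H, T.pr H ≤ (2 ^ (r + 2) : ℝ) ^ Fintype.card B.N * T.pr H' ∧ B.Cell H' ((1 / 2) ^ r) := by
  obtain ⟨t, -, ht⟩ := hT.pr_pigeon (Fintype.piFinset fun _ : B.N => Icc (-(2 : ℤ) ^ r) (2 ^ r))
    (Fintype.piFinset_nonempty.2 fun _ => nonempty_Icc.2 (by
      have : (0 : ℤ) < 2 ^ r := by positivity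
      omega)) H
    (fun y a => ⌊(B.ev (fun c => (y c : ℝ)) (B.Θ a) - B.om (fun c => (y c : ℝ)) a) * 2 ^ r⌋)
    fun y _ => Fintype.mem_piFinset.2 fun a => by
      have := _root_.abs_le.1 (h.abs_le (fun c => (y c : ℝ)) a)
      have p : (0 : ℝ) < 2 ^ r := by positivity
      refine mem_Icc.2 ⟨Int.le_floor.2 ?_, Int.floor_le_iff.2 ?_⟩ <;> push_cast <;> nlinarith
  refine ⟨_, Set.sep_subset _ _, ht.trans (mul_le_mul_of_nonneg_right ?_ (TT.pr_nonneg _)),
    fun a => t a / 2 ^ r, fun y hy a => ?_⟩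
  · rw [Fintype.card_piFinset, prod_const, card_univ, Nat.cast_pow]
    refine pow_le_pow_left₀ (by positivity) ?_ _
    rw [Int.card_Icc, show (2 : ℤ) ^ r + 1 - -2 ^ r = ((2 * 2 ^ r + 1 : ℕ) : ℤ) by push_cast; ring,
      Int.toNat_natCast, pow_add]
    push_cast
    have : (1 : ℝ) ≤ 2 ^ r := one_le_pow₀ one_le_two
    linarith
  · have e := congrFun hy.2 a
    have p : (0 : ℝ) < 2 ^ r := by positivity
    set x := B.ev (fun c => (y c : ℝ)) (B.Θ a) - B.om (fun c => (y c : ℝ)) a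
    have h1 := Int.floor_le (x * 2 ^ r)
    have h2 := Int.lt_floor_add_one (x * 2 ^ r)
    rw [e] at h1 h2
    rw [show x - t a / 2 ^ r = (x * 2 ^ r - t a) / 2 ^ r by field_simp, abs_div, abs_of_pos p,
      one_div, inv_pow, ← one_div]
    exact div_le_div_of_nonneg_right (_root_.abs_le.2 ⟨by linarith, by linarith⟩) p.le

theorem split_num {n m k r : ℕ} (h2 : 2 ≤ n) (hm : m ≤ n ^ k) (hr : r ≤ n) :
    n + ((m + 2) * n + (r + 2) * (n * m)) ≤ n ^ (k + 4) := by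
  have h1 : 1 ≤ n ^ k := Nat.one_le_pow _ _ (by omega)
  rw [pow_add]
  generalize n ^ k = u at *
  have a : (m + 2) * n ≤ 3 * u * n := Nat.mul_le_mul_right _ (by omega)
  have b : (r + 2) * (n * m) ≤ (2 * n) * (n * u) := Nat.mul_le_mul (by omega) (Nat.mul_le_mul_left _ hm)
  have c : n ≤ u * n := Nat.le_mul_of_pos_left _ h1
  have d : 4 * (u * n) ≤ 2 * n * (u * n) := Nat.mul_le_mul_right _ (by omega)
  have e : 4 * (n * (u * n)) ≤ n * n * (n * (u * n)) := Nat.mul_le_mul_right _ (by nlinarith)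
  have f : u * n ^ 4 = n * n * (n * (u * n)) := by ring
  nlinarith

theorem split (l0 : ℕ) : SPLIT l0 := by
  refine ⟨2 * l0 + 4, fun L C Λ D _ _ _ _ _ _ T blk dg Z M H n r F hL hZM hT hd hΛ hr hS hM => ?_⟩
  obtain ⟨N, _, _, W, q, Γ, hN, hW, hC, q1, q2, hΓ, hR⟩ := hM
  choose PΘ hP using fun a => TT.Dat.poly _ (hW a).2.2.1
  choose PΓ hG using fun d => TT.Dat.poly _ (hΓ d)
  obtain ⟨b, H1, h1, h2, h3⟩ := Sp.consts hT hd hW hP hC univ fun _ _ _ _ => mem_univ _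
  have ok := Sp.bk_ok (b := b) hd fun a => (hP a).2.2
  obtain ⟨H2, h4, h5, h6⟩ := ok.tri.cell hT H1 r
  have n2 := hS.1
  have hm : #(Ws Λ (Fintype.card L)) ≤ n ^ (2 * l0) := (card_Ws _).trans (by
    rw [pow_mul]
    exact (Nat.pow_le_pow_left (by nlinarith) _).trans (Nat.pow_le_pow_right (by positivity) hL))
  set m := #(Ws Λ (Fintype.card L))
  have hc : Fintype.card (Sp.bk blk W dg b PΘ).N ≤ n * m :=
    (Fintype.card_subtype_le _).trans (by
      rw [Fintype.card_prod, Fintype.card_coe]; exact Nat.mul_le_mul_right _ hN)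
  have num := split_num n2 hm hr
  have dM : ∀ a, Disjoint (W.tn a) M := fun a => hZM.mono_left (hW a).2.1
  have tz : ∀ x : Sp.NI blk W.tn, x.1.2.1.mapDomain blk ≤ ind Z := fun x =>
    x.2.2.trans (ind_le.2 (hW _).2.1)
  refine ⟨Sp.bk blk W dg b PΘ, H2, q, fun d => aeval (Sp.sg blk W.tn (fun _ => True) b M) (PΓ d),
    h4.trans h1, ?_, hc.trans (by nlinarith), ok, tz, h6, q1, q2, fun d => ⟨fun c h =>
      Sp.dg_ne hd ((Sp.sg_vars (hG d).2.2 h).1 c rfl), fun μ h => ?_⟩, fun y hy d => ?_⟩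
  · have a1 : (2 * m + 3 : ℝ) ^ #(univ : Finset N) ≤ 2 ^ ((m + 2) * n) := by
      rw [pow_mul]
      have : 2 * m + 3 ≤ 2 ^ (m + 2) := by
        have := m.lt_two_pow_self
        rw [pow_add]; omega
      exact (pow_le_pow_left₀ (by positivity) (by exact_mod_cast this) _).trans
        (pow_le_pow_right₀ (one_le_pow₀ one_le_two) hN)
    have a2 : (2 ^ (r + 2) : ℝ) ^ Fintype.card (Sp.bk blk W dg b PΘ).N ≤ 2 ^ ((r + 2) * (n * m)) := by
      rw [pow_mul]; exact pow_le_pow_right₀ (one_le_pow₀ one_le_two) hc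
    have p := TT.pr_nonneg (T := T) H2
    have a3 : (1 / 2 : ℝ) ^ n ≤ 2 ^ ((m + 2) * n + (r + 2) * (n * m)) * T.pr H2 := by
      rw [pow_add, mul_assoc]
      exact hS.2.2.trans (h2.trans (mul_le_mul a1 (h5.trans (mul_le_mul_of_nonneg_right a2 p))
        (TT.pr_nonneg _) (by positivity)))
    refine (pow_le_pow_of_le_one (by norm_num) (by norm_num) num).trans ?_
    rw [pow_add, one_div, inv_pow _ (_ + _), ← div_eq_mul_inv, div_le_iff₀' (by positivity), ← one_div]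
    exact a3
  · have k := Bt.aeval (hG d).2.1 (Sp.sg_bt (ok := fun _ => True) (b := b) hd dM) μ h
    rw [weight_map] at k
    refine ⟨fun ℓ => ?_, k.1⟩
    by_cases e : ℓ ∈ M
    · exact ((k.2 ℓ e).trans (by simp [ind_apply, e])).ge
    · simp [ind_apply, e]
  · refine (hR y (h1 (h4 hy)) d).congr fun p hp => congrArg _ ?_
    refine (eval_aeval _ _ _).trans (((hG d).1 _).trans (congrArg _ (funext fun v => ?_)))
    rcases v with (c | a) | ℓ
    · rw [Sp.sg, eval_X]; rfl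
    · have e1 : (W.ω a p : ℝ) = W.ω a (TT.cf y) := (hW a).2.2.2.1 _ _ fun v hv _ => by
        cases v with
        | inl c => exact hp.1 c ((dM a).mono_left hv)
        | inr ℓ => exact (hp.2 ℓ).trans (if_neg (disjoint_left.1 (dM a) (hv (mem_singleton_self _))))
      simp only [Sp.sg, if_true, Wd.lf, map_add, eval_C, map_sum, eval_X, e1, h3 y (h4 hy) a
        (mem_univ _), Sp.sm]
      push_cast
      refine congrArg _ (sum_congr rfl fun x _ => congrArg Int.cast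
        (ok.om_congr (w := x.1.2.1) (fun c _ k => hp.1 c ?_) x le_rfl))
      exact hZM.mono_left (ind_le.1 ((hd c).ge.trans ((Finsupp.mapDomain_mono k).trans (tz x))))
    · rw [Sp.sg, eval_C]; exact (hp.2 ℓ).symm

end Crest.Agent.N49.Sd

end
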