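import Crest.Agent.N49.Sd.Rsp
import Crest.Agent.N49.Sd.Split
import Crest.Agent.N49.Md.Morf

/-!
# Row 49 (helper60): PULL, typed brackets and forms along the morphism of a frame
-/

set_option autoImplicit false
set_option linter.unusedSectionVars false

open MvPolynomial Finset

noncomputable section

namespace Crest.Agent.N49.Sd

open Sy Rm Md

theorem wt_one {V : Type} {t : V → ℕ} {m : V →₀ ℕ} (h : Finsupp.weight t m = 1) :
    ∃ v m', m = Finsupp.single v 1 + m' ∧ t v ≠ 0 ∧ ∀ u ∈ m'.support, t u = 0 := by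
  classical
  have z : ∀ m : V →₀ ℕ, Finsupp.weight t m = 0 ↔ ∀ u ∈ m.support, t u = 0 := fun m => by
    rw [Finsupp.weight_apply, Finsupp.sum, sum_eq_zero_iff]
    exact forall₂_congr fun u hu => by
      rw [smul_eq_mul, mul_eq_zero, or_iff_right (Finsupp.mem_support_iff.1 hu)]
  have : ¬ ∀ u ∈ m.support, t u = 0 := fun k => by simp [(z m).2 k] at h
  push Not at this
  obtain ⟨v, hv, k⟩ := this
  obtain ⟨m', rfl⟩ := exists_add_of_le (Finsupp.single_le_iff.2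
    (Nat.one_le_iff_ne_zero.2 (Finsupp.mem_support_iff.1 hv)) : Finsupp.single v 1 ≤ m)
  rw [map_add, Finsupp.weight_single, one_smul] at h
  exact ⟨v, m', rfl, k, (z m').1 (by omega)⟩

/-- forms of weight one are linear -/
theorem eval_lin {V : Type} {t : V → ℕ} {P : MvPolynomial V ℝ}
    (h : ∀ m ∈ P.support, Finsupp.weight t m = 1) (a b : ℝ) {x x' z : V → ℝ}
    (h0 : ∀ v, t v = 0 → x v = z v ∧ x' v = z v) (h1 : ∀ v, t v ≠ 0 → z v = a * x v + b * x' v) :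
    eval z P = a * eval x P + b * eval x' P := by
  rw [P.as_sum, map_sum, map_sum, map_sum, mul_sum, mul_sum, ← sum_add_distrib]
  refine sum_congr rfl fun m hm => ?_
  obtain ⟨v, m', e, k, k'⟩ := wt_one (h m hm)
  have : ∀ y : V → ℝ, (∀ v, t v = 0 → y v = z v) → eval y (monomial m (coeff m P)) =
      y v * eval z (monomial m' (coeff m P)) := fun y hy => by
    rw [show monomial m (coeff m P) = X v * monomial m' (coeff m P) by
      rw [X, monomial_mul, one_mul, ← e], map_mul, eval_X, eval_monomial, eval_monomial,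
      Finsupp.prod_congr fun u hu => by rw [hy u (k' u hu)]]
  rw [this z fun _ _ => rfl, this x fun u k => (h0 u k).1, this x' fun u k => (h0 u k).2, h1 v k]
  ring

section tt
variable {L C C' Λ : Type} [Fintype L] [DecidableEq L] [Fintype C] [DecidableEq C] [Fintype C']
  [DecidableEq C'] [DecidableEq Λ] {T : TT L C} {T' : TT L C'} {blk : Λ → L} {dg : C → Λ →₀ ℕ}
  {P : Bk C Λ} {Z M : Finset L}

theorem om_ty (hd : ∀ c, (dg c).mapDomain blk = ind (T.ty c)) (h : P.Ok dg)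
    (hZ : ∀ a, (P.wd a).mapDomain blk ≤ ind Z) {y y' : C → ℝ}
    (e : ∀ c, (T.ty c).Nonempty → T.ty c ⊆ Z → y c = y' c) : P.om y = P.om y' := funext fun a =>
  h.om_congr (w := P.wd a) (fun c n k => e c (nonempty_iff_ne_empty.2 fun z => n (by
    have := (hd c).trans (z ▸ ind_empty)
    rwa [← Finsupp.degree_eq_zero_iff, Finsupp.degree_mapDomain, Finsupp.degree_eq_zero_iff] at this))
    (ind_le.1 ((hd c).ge.trans ((Finsupp.mapDomain_mono k).trans (hZ a))))) a le_rfl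

theorem om_fib (hd : ∀ c, (dg c).mapDomain blk = ind (T.ty c)) (h : P.Ok dg)
    (hZ : ∀ a, (P.wd a).mapDomain blk ≤ ind Z) (hM : Disjoint Z M) {y : C → ℤ} {p : C ⊕ L → ℝ}
    (hp : p ∈ T.Fib M y) : P.om (fun c => p (.inl c)) = P.om fun c => y c :=
  om_ty hd h hZ fun c _ k => hp.1 c (hM.mono_left k)

theorem Gm.bt {Q : MvPolynomial (C ⊕ P.N) ℝ} (hM : Disjoint Z M) (h : Gm P dg blk Z M Q) :
    Bt (fun v => (P.wg dg v).mapDomain blk) M (ind (Z ∪ M)) Q := fun m hm => by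
  rw [weight_map]
  refine ⟨(h.ty m hm).2, fun ℓ k => le_antisymm ((h.ty m hm).2 ℓ) (le_trans ?_ ((h.ty m hm).1 ℓ))⟩
  simp [ind_apply, k]

theorem Gm.of_bt {Q : MvPolynomial (C ⊕ P.N) ℝ} (hl : ∀ c, Sum.inl c ∈ Q.vars → dg c ≠ 0)
    (h : Bt (fun v => (P.wg dg v).mapDomain blk) M (ind (Z ∪ M)) Q) : Gm P dg blk Z M Q :=
  ⟨hl, fun m hm => by
    have k := h m hm
    rw [weight_map] at k
    refine ⟨fun ℓ => ?_, k.1⟩
    by_cases e : ℓ ∈ M
    · exact ((k.2 ℓ e).trans (by simp [ind_apply, e])).ge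
    · simp [ind_apply, e]⟩

/-- typed forms are data -/
theorem Gm.dat (hd : ∀ c, (dg c).mapDomain blk = ind (T.ty c)) (h : P.Ok dg)
    (hZ : ∀ a, (P.wd a).mapDomain blk ≤ ind Z) (hM : Disjoint Z M)
    {Q : MvPolynomial (C ⊕ P.N) ℝ} (hQ : Gm P dg blk Z M Q) :
    T.Dat (Z ∪ M) M fun p => P.ev (fun c => p (.inl c)) Q := by
  classical
  refine ⟨fun p p' e => eval_congr fun v hv => ?_, fun ℓ hl a b p p' e => ?_⟩
  · cases v with
    | inl c =>
      obtain ⟨m, hm, k⟩ := (mem_vars_iff_mem_support _).1 hv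
      have k1 : dg c ≤ Finsupp.weight (P.wg dg) m := wt_le (isWeightedHomogeneous_monomial
        (P.wg dg) m (1 : ℝ) rfl) (v := .inl c) (by rwa [vars_monomial one_ne_zero])
      exact e (.inl c) (ind_le.1 ((hd c).ge.trans ((Finsupp.mapDomain_mono k1).trans
        (hQ.ty m hm).2))) (nonempty_iff_ne_empty.2 fun z => hQ.live c hv (by
          have := (hd c).trans ((show T.ty c = ∅ from z) ▸ ind_empty)
          rwa [← Finsupp.degree_eq_zero_iff, Finsupp.degree_mapDomain,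
            Finsupp.degree_eq_zero_iff] at this))
    | inr a =>
      exact congrArg (fun f : P.N → ℤ => (f a : ℝ)) (om_ty hd h hZ fun c n k =>
        e (.inl c) (k.trans subset_union_left) n)
  · have nz : ∀ c, T.ty c ⊆ Z → ℓ ∉ T.ty c := fun c k a => disjoint_left.1 hM (k a) hl
    have o1 : P.om (fun c => p (.inl c)) = P.om fun c => T.cmb ℓ a b p p' (.inl c) :=
      om_ty hd h hZ fun c _ k => (TT.cmb_out (v := .inl c) (nz c k)).symm
    have o2 : P.om (fun c => p' (.inl c)) = P.om fun c => T.cmb ℓ a b p p' (.inl c) :=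
      (om_ty hd h hZ fun c _ k => (e (.inl c) (nz c k)).symm).trans o1
    refine eval_lin (t := fun v => (P.wg dg v).mapDomain blk ℓ) (fun m hm => ?_) a b
      (fun v k => ?_) fun v k => ?_
    · have := ((hQ.bt hM) m hm).2 ℓ hl
      rw [Finsupp.weight_apply, Finsupp.sum, Finsupp.finsetSum_apply] at this
      exact this.trans (by simp [ind_apply, hl])
    · cases v with
      | inl c =>
        have n : ℓ ∉ T.ty c := fun b => by simp [hd c, ind_apply, b] at k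
        exact ⟨(TT.cmb_out (v := .inl c) n).symm,
          (e (.inl c) n).symm.trans (TT.cmb_out (v := .inl c) n).symm⟩
      | inr a => exact ⟨congrArg (fun f : P.N → ℤ => (f a : ℝ)) o1,
          congrArg (fun f : P.N → ℤ => (f a : ℝ)) o2⟩
    · cases v with
      | inl c =>
        refine TT.cmb_in (v := .inl c) (by_contra fun b => k ?_)
        exact (congrArg (fun f : L →₀ ℕ => f ℓ) (hd c)).trans (if_neg b)
      | inr a =>
        exact absurd (Nat.le_zero.1 ((hZ a ℓ).trans_eq (if_neg (disjoint_right.1 hM hl)))) k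

/-- a dilation of a marked letter clears denominators -/
theorem rel_div {ι : (C' ⊕ L → ℝ) → C ⊕ L → ℝ} {κ Bd : ℝ} (h : Mor T' T ι κ) (hT : T.Ok)
    (hκ : 1 ≤ κ) {y : C → ℤ} {y' : C' → ℤ} (e : ι (TT.cf y') = TT.cf y) {A : Finset L}
    {q q' ν : ℕ} {F : Fm L C} (hF : ∀ ℓ ∈ M, T.Lin ℓ F) (k : T.Rel A M y q Bd F) {x : L}
    (hx : x ∈ M) (q1 : 1 ≤ q) (q2 : 1 ≤ q') (hν : 1 ≤ ν) (hq : q ∣ q' * ν)
    (hd : ∀ p ∈ T'.Fib M y', TT.IntP p → ∀ c, x ∈ T.ty c → ∃ k : ℤ, ι p (.inl c) = ν * k) :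
    T'.Rel A M y' q' (κ ^ #M * Bd) fun p => F (ι p) := by
  obtain ⟨I, hI, hS⟩ := k
  obtain ⟨j, hj⟩ := hq
  have n0 : (ν : ℝ) ≠ 0 := by positivity
  have q0 : (q : ℝ) ≠ 0 := by positivity
  have q0' : (q' : ℝ) ≠ 0 := by positivity
  have k1 := h.rel hT hκ e (fun ℓ k => (hF ℓ k).sub ((hI.1.2 ℓ k).div q))
    (TT.Rel.of_sm (q := q') hS)
  have k2 : T'.IntF A M y' fun p => (q' : ℝ) / q * I (ι p) := ⟨(h.pull hI.1).smul _, fun p hp hi => by
    have f := h.fib e hp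
    obtain ⟨n, hn⟩ := hI.2 (fun v => if x ∈ T.tv v then ι p v / ν else ι p v)
      ⟨fun c hc => (if_neg (disjoint_right.1 hc hx)).trans (f.1 c hc), fun ℓ => by
        by_cases a : x ∈ T.tv (.inr ℓ)
        · have : x = ℓ := mem_singleton.1 a
          subst this
          simp only [if_pos a, f.2 x, if_pos hx, zero_div]
        · exact (if_neg a).trans (f.2 ℓ)⟩ fun v => by
      by_cases a : x ∈ T.tv v
      · cases v with
        | inl c =>
          obtain ⟨k, hk⟩ := hd p hp hi c a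
          exact ⟨k, by simp only [if_pos a, hk, mul_div_cancel_left₀ _ n0]⟩
        | inr ℓ =>
          have : x = ℓ := mem_singleton.1 a
          subst this
          exact ⟨0, by simp only [if_pos a, f.2 x, if_pos hx, zero_div, Int.cast_zero]⟩
      · simpa only [if_neg a] using h.int p hi v
    refine ⟨j * n, ?_⟩
    beta_reduce
    rw [(hI.1.2 x hx).scale (p₁ := fun v => if x ∈ T.tv v then ι p v / ν else ι p v) ν
      (fun v a => by rw [if_pos a, mul_div_cancel₀ _ n0]) fun v a => if_neg a, hn]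
    have : (q' : ℝ) * ν = q * j := by exact_mod_cast hj
    push_cast
    field_simp
    linear_combination n * this⟩
  refine ((k1.add (TT.Rel.of_int k2)).mono (add_zero _).le).congr fun p _ => ?_
  field_simp
  ring

/-- PULL for an abstract morphism given by substitutions -/
theorem pull0 {D : Type} {dg' : C' → Λ →₀ ℕ} {H : Set (C → ℤ)} {H1 : Set (C' → ℤ)} {q q' ν : ℕ}
    {κ Bd : ℝ} {F : D → Fm L C} {Γ : D → MvPolynomial (C ⊕ P.N) ℝ} {x : L}
    {ι : (C' ⊕ L → ℝ) → C ⊕ L → ℝ} (σ σ' : C → MvPolynomial C' ℝ) (hT : T.Ok) (hT' : T'.Ok)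
    (d1 : ∀ c, (dg c).mapDomain blk = ind (T.ty c)) (d2 : ∀ c, (dg' c).mapDomain blk = ind (T'.ty c))
    (lv : ∀ c, dg' c ≠ 0) (hm : Mor T' T ι κ) (hκ : 1 ≤ κ) (s1 : ∀ c, Bt dg' ∅ (dg c) (σ c))
    (s2 : ∀ c, Bt (fun c => (dg' c).mapDomain blk) M ((dg c).mapDomain blk) (σ' c))
    (s3 : ∀ (y : C' → ℤ) c, eval (fun c => (y c : ℝ)) (σ c) = ι (TT.cf y) (.inl c))
    (s4 : ∀ y, ∀ p ∈ T'.Fib M y, ∀ c, eval (fun c => p (.inl c)) (σ' c) = ι p (.inl c))
    (s5 : ∀ y, ∀ p ∈ T'.Fib M y, TT.IntP p → ∀ c, x ∈ T.ty c → ∃ k : ℤ, ι p (.inl c) = ν * k)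
    (hZM : Disjoint Z M) (hP : P.Ok dg) (hZ : ∀ a, (P.wd a).mapDomain blk ≤ ind Z)
    (hΓ : ∀ d, Gm P dg blk Z M (Γ d)) (hF : ∀ d, ∀ ℓ ∈ M, T.Lin ℓ (F d))
    (hR : ∀ y ∈ H, ∀ d, T.Rel (Z ∪ M) M y q Bd fun p => F d p - P.ev (fun w => p (.inl w)) (Γ d))
    (ho : Ov ι H1 H) (hx : x ∈ M) (q1 : 1 ≤ q) (q2 : 1 ≤ q') (hν : 1 ≤ ν) (hq : q ∣ q' * ν)
    (r : ℕ) : ∃ (P' : Bk C' Λ) (H' : Set (C' → ℤ)) (Γ' : D → MvPolynomial (C' ⊕ P'.N) ℝ),
      H' ⊆ H1 ∧ T'.pr H1 ≤ (2 ^ (2 ^ #Z * (r + 3) + 2) : ℝ) ^ Fintype.card P.N * T'.pr H' ∧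
      Fintype.card P'.N ≤ Fintype.card P.N * 2 ^ #Z ∧ P'.Ok dg' ∧
      (∀ a, (P'.wd a).mapDomain blk ≤ ind Z) ∧ P'.Cell H' ((1 / 2) ^ r) ∧
      (∀ d, Gm P' dg' blk Z M (Γ' d)) ∧ ∀ y ∈ H', ∀ d,
        T'.Rel (Z ∪ M) M y q' (κ ^ #M * Bd) fun p =>
          F d (ι p) - P'.ev (fun w => p (.inl w)) (Γ' d) := by
  have hs : ∀ a, (P.wd a).degree ≤ #Z := fun a => by
    rw [← Finsupp.degree_mapDomain blk]
    exact (Finsupp.degree_mono (hZ a)).trans (degree_ind Z).le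
  obtain ⟨b, H', a1, a2, a3, a4, a5⟩ := hP.lo.pull (σ := σ) (dg' := dg') (fun w _ => s1 w)
    (fun _ _ w _ => lv w) (pg_tt hT') (fun y w => (y w : ℝ)) H1 hs r
  have tz : ∀ a : (P.pl σ).CN, a.2.1.mapDomain blk ≤ ind Z := fun a =>
    (Finsupp.mapDomain_mono (Bk.sw_le a.2)).trans (hZ a.1)
  have zM : ∀ a, ∀ ℓ ∈ M, (P.wd a).mapDomain blk ℓ = 0 := fun a ℓ k =>
    Nat.le_zero.1 ((hZ a ℓ).trans_eq (if_neg (disjoint_right.1 hZM k)))
  refine ⟨(P.pl σ).cmp dg' b, H', fun d => aeval ((P.pl σ).sg b) (aeval (P.ps σ') (Γ d)), a1, a2,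
    Bk.card_cn (B := P.pl σ) hs, a3, tz, a4, fun d => .of_bt (fun w _ => lv w) ?_,
    fun y hy d => ?_⟩
  · have k1 : Bt (Sum.elim (fun c => (dg c).mapDomain blk)
        fun a => (P.wd a).mapDomain blk) M (ind (Z ∪ M)) (Γ d) := by
      convert (hΓ d).bt hZM using 2 with v
      cases v <;> rfl
    refine (Bk.ps_bt k1 fun w _ => s2 w).aeval' fun v _ => ?_
    have := Bk.sg_bt (B := P.pl σ) (dg := dg') (b := b)
      (Finsupp.mapDomain blk) Finsupp.mapDomain_mono zM v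
    cases v <;> exact this
  · obtain ⟨y0, h0, e⟩ := ho y (a1 hy)
    refine (rel_div hm hT hκ e (fun ℓ k => (hF d ℓ k).sub
      (((hΓ d).dat d1 hP hZ hZM).2 ℓ k)) (hR y0 h0 d) hx q1 q2 hν hq (s5 y)).congr
      fun p hp => ?_
    have e1 : (fun w => eval (fun w => (y w : ℝ)) (σ w)) = fun w => (y0 w : ℝ) :=
      funext fun w => (s3 y w).trans (congrFun e (.inl w))
    have k := (a5 y hy).2 σ' (fun w => p (.inl w)) (Γ d)
    rw [e1, funext (s4 y p hp), ← om_fib d1 hP hZ hZM (hm.fib e hp),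
      ← om_fib d2 a3 tz hZM hp] at k
    simp only [Bk.ev, Bk.lf]
    rw [k]
end tt

section ka
variable {τ L L' : Type} [Fintype τ] [DecidableEq τ] [Fintype L] [DecidableEq L] [DecidableEq L']
  (B : Bs L) (W : Finset (Finset τ)) (blk : τ → L) (f : Fr B.T τ L)

/-- the variable of a family and a word -/
def xv (G : f.T.C) (A : Finset τ) : MvPolynomial (f.SC W) ℝ :=
  if h : f.st G < f.M + 1 ∧ A ∈ W ∧ #A = f.T.lev G then X ⟨(G, A), h⟩ else 0

/-- **`ka` as a substitution**; `ε` are the homogenising coordinates -/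
def ks (ε : L → ℝ) (w : B.SC W) : MvPolynomial (f.SC W) ℝ :=
  C (coeff (ind w.1.2) (zr (f.θ.be w.1.1)) * ∏ a ∈ w.1.2, ε (blk a)) +
    ∑ G with f.θ.fam G = some w.1.1, ∑ A ∈ w.1.2.powerset, C ((∏ a ∈ A, ε (blk a)) *
      (coeff (ind A) (zr (f.θ.mon G)) * ∏ a ∈ w.1.2 \ A, (f.m (blk a) : ℝ))) * xv B W f G (w.1.2 \ A)

theorem eval_xv (p : f.SC W ⊕ L → ℝ) (G : f.T.C) (A : Finset τ) :
    eval (fun w => p (.inl w)) (xv B W f G A) = sF f.T (fun c => f.st c < f.M + 1) W (X G) A p := by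
  rw [sF, sP, sy_X, xv, sx]
  split_ifs with h k k
  · exact eval_X _
  · exact absurd h.2.2 k
  · exact map_zero _
  · exact map_zero _

theorem eval_ks (p : f.SC W ⊕ L → ℝ) (w : B.SC W) :
    eval (fun w => p (.inl w)) (ks B W blk f (fun ℓ => p (.inr ℓ)) w) = ka B W blk f p (.inl w) := by
  rw [Uf.ka_inl, ks]
  simp only [map_add, map_sum, map_mul, eval_C, eval_xv, mul_assoc]

theorem ks_bt (g : (τ →₀ ℕ) →+ L' →₀ ℕ) {M : Finset L'} {ε : L → ℝ}
    (h : ∀ A : Finset τ, ∏ a ∈ A, ε (blk a) ≠ 0 → ∀ ℓ ∈ M, g (ind A) ℓ = 0) (w : B.SC W) :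
    Bt (fun w' : f.SC W => g (ind w'.1.2)) M (g (ind w.1.2)) (ks B W blk f ε w) := by
  refine Bt.add ?_ (.sum _ fun G _ => .sum _ fun A hA => ?_)
  · by_cases e : ∏ a ∈ w.1.2, ε (blk a) = 0
    · rw [e, mul_zero, map_zero]; exact .zero
    · exact .C _ (h _ e)
  · by_cases e : ∏ a ∈ A, ε (blk a) = 0
    · rw [e, zero_mul, map_zero, zero_mul]; exact .zero
    · rw [← TT.ind_add_sdiff (mem_powerset.1 hA), map_add]
      refine (Bt.C _ (h _ e)).mul ?_
      rw [xv]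
      split_ifs
      · exact .X _ le_rfl fun _ _ => rfl
      · exact .zero

theorem map_ind {A : Finset τ} (h : Set.InjOn blk A) :
    (ind A).mapDomain blk = ind (A.image blk) := by
  induction A using Finset.induction_on with
  | empty => rw [image_empty, ind_empty, ind_empty, Finsupp.mapDomain_zero]
  | insert a A ha ih =>
    have k : ∀ {β : Type} [DecidableEq β] (b : β) (S : Finset β), b ∉ S →
        ind (insert b S) = Finsupp.single b 1 + ind S := fun b S hb => by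
      ext i
      by_cases e : i = b
      · subst e; simp [ind_apply, hb]
      · simp [ind_apply, e]
    rw [image_insert, k a A ha, k _ _ fun e => ?_, Finsupp.mapDomain_add, Finsupp.mapDomain_single,
      ih (h.mono (by simp))]
    obtain ⟨a', h1, h2⟩ := mem_image.1 e
    exact ha (h (by simp [h1]) (by simp) h2 ▸ h1)

theorem map_zero_of {M : Finset L} (A : Finset τ)
    (h : ∏ a ∈ A, (if blk a ∈ M then (0 : ℝ) else 1) ≠ 0) : ∀ ℓ ∈ M, (ind A).mapDomain blk ℓ = 0 :=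
  fun ℓ k => by
    by_contra z
    obtain ⟨a, ha, e⟩ := mem_image.1 (Finsupp.mapDomain_support (Finsupp.mem_support_iff.2 z))
    exact h (prod_eq_zero ha (if_pos (e ▸ k)))

theorem ka_div {M : Finset L} {x : L} (hx : x ∈ M) {y : f.SC W → ℤ} {p : f.SC W ⊕ L → ℝ}
    (hp : p ∈ (f.SY W blk).Fib M y) (hi : TT.IntP p) (w : B.SC W) (hw : x ∈ (B.SY W blk).ty w) :
    ∃ k : ℤ, ka B W blk f p (.inl w) = f.m x * k := by
  obtain ⟨a, ha, rfl⟩ := mem_image.1 hw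
  choose n hn using hi
  have z : ∀ A : Finset τ, a ∈ A → ∏ a ∈ A, p (.inr (blk a)) = 0 := fun A h =>
    prod_eq_zero h ((hp.2 _).trans (if_pos hx))
  have i : ∀ G A, ∃ k : ℤ, sF f.T (fun c => f.st c < f.M + 1) W (X G) A p = k := fun G A => by
    rw [← eval_xv, xv]
    split_ifs
    · exact ⟨_, (eval_X _).trans (hn _)⟩
    · exact ⟨0, by simp⟩
  choose k hk using i
  refine ⟨∑ G with f.θ.fam G = some w.1.1, ∑ A ∈ w.1.2.powerset, (∏ a ∈ A, n (.inr (blk a))) *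
    (coeff (ind A) (f.θ.mon G) * ((∏ a ∈ (w.1.2 \ A).erase a, (f.m (blk a) : ℤ)) *
      k G (w.1.2 \ A))), ?_⟩
  rw [Uf.ka_inl, z _ ha, mul_zero, zero_add]
  push_cast
  rw [mul_sum]
  refine sum_congr rfl fun G _ => ?_
  rw [mul_sum]
  refine sum_congr rfl fun A _ => ?_
  simp only [← hn]
  by_cases e : a ∈ A
  · rw [z A e, zero_mul, zero_mul, mul_zero]
  · rw [← mul_prod_erase _ _ (mem_sdiff.2 ⟨ha, e⟩), hk, coeff_map, eq_intCast]
    ring

variable {B W blk f}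

/-- **PULL** -/
theorem pull {D : Type} {Z M : Finset L} {P : Bk (B.SC W) τ} {H : Set (B.SC W → ℤ)}
    {H1 : Set (f.SC W → ℤ)} {q q' : ℕ} {κ Bd : ℝ} {F : D → Fm L (B.SC W)}
    {Γ : D → MvPolynomial (B.SC W ⊕ P.N) ℝ} {x : L} (hB : (B.SY W blk).Ok) (hf : (f.SY W blk).Ok)
    (hl : ∀ G, f.T.lev G ≠ 0) (hW : ∀ A ∈ W, Set.InjOn blk A)
    (hm : Mor (f.SY W blk) (B.SY W blk) (ka B W blk f) κ) (hκ : 1 ≤ κ) (hZM : Disjoint Z M)
    (hP : P.Ok fun w => ind w.1.2) (hZ : ∀ a, (P.wd a).mapDomain blk ≤ ind Z)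
    (hΓ : ∀ d, Gm P (fun w => ind w.1.2) blk Z M (Γ d))
    (hF : ∀ d, ∀ ℓ ∈ M, (B.SY W blk).Lin ℓ (F d))
    (hR : ∀ y ∈ H, ∀ d, (B.SY W blk).Rel (Z ∪ M) M y q Bd fun p =>
      F d p - P.ev (fun w => p (.inl w)) (Γ d))
    (ho : Ov (ka B W blk f) H1 H) (hx : x ∈ M) (q1 : 1 ≤ q) (q2 : 1 ≤ q') (hν : 1 ≤ f.m x)
    (hq : q ∣ q' * f.m x) (r : ℕ) :
    ∃ (P' : Bk (f.SC W) τ) (H' : Set (f.SC W → ℤ)) (Γ' : D → MvPolynomial (f.SC W ⊕ P'.N) ℝ),
      H' ⊆ H1 ∧ (f.SY W blk).pr H1 ≤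
        (2 ^ (2 ^ #Z * (r + 3) + 2) : ℝ) ^ Fintype.card P.N * (f.SY W blk).pr H' ∧
      Fintype.card P'.N ≤ Fintype.card P.N * 2 ^ #Z ∧ (P'.Ok fun w => ind w.1.2) ∧
      (∀ a, (P'.wd a).mapDomain blk ≤ ind Z) ∧ P'.Cell H' ((1 / 2) ^ r) ∧
      (∀ d, Gm P' (fun w => ind w.1.2) blk Z M (Γ' d)) ∧ ∀ y ∈ H', ∀ d,
        (f.SY W blk).Rel (Z ∪ M) M y q' (κ ^ #M * Bd) fun p =>
          F d (ka B W blk f p) - P'.ev (fun w => p (.inl w)) (Γ' d) := by
  refine pull0 (ks B W blk f fun _ => 1) (ks B W blk f fun ℓ => if ℓ ∈ M then 0 else 1) hB hf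
    (fun w => map_ind blk (hW _ w.2.2.1)) (fun w => map_ind blk (hW _ w.2.2.1))
    (fun w e => hl w.1.1 ?_) hm hκ (ks_bt B W blk f (AddMonoidHom.id _) (by simp))
    (ks_bt B W blk f (Finsupp.mapDomain.addMonoidHom blk) (map_zero_of blk))
    (fun y w => eval_ks B W blk f (TT.cf y) w) (fun y p hp w => ?_)
    (fun y p hp hi => ka_div B W blk f hx hp hi) hZM hP hZ hΓ hF hR ho hx q1 q2 hν hq r
  · rw [← w.2.2.2, ind_eq_zero.1 e, card_empty]
  · rw [← eval_ks, funext hp.2]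

end ka

end Crest.Agent.N49.Sd

end
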