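import Crest.Agent.N49.Sd.Tl
import Crest.Agent.N49.Sd.Pull
import Crest.Agent.N49.Md.Morw

/-!
# Row 49 (helper60): the links SPLIT and DIL
-/

set_option autoImplicit false

open Matrix Finset MvPolynomial

noncomputable section

namespace Crest.Agent.N49.Sd

open Po Tw Br Rm Md Sy

variable {s d : ℕ}

/-- the data are typed forms `Γ` in the coordinates and the brackets `P`, modulo `1 / q` -/
structure Spq {c : Kx d} (f : c.Fr) (H : Set (f.X → ℤ)) (n q r : ℕ) (P : Bk f.X (Lx d c.Q))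
    (Γ : Fin c.D → MvPolynomial (f.X ⊕ P.N) ℝ) : Prop where
  card : Fintype.card P.N ≤ n
  ok : P.Ok fun w => ind w.1.2
  wd : ∀ a, (P.wd a).mapDomain bk ≤ ind (univ.erase 0)
  cell : P.Cell H ((1 / 2) ^ r)
  gm : ∀ a, Gm P (fun w => ind w.1.2) bk (univ.erase 0) {0} (Γ a)
  rel : ∀ y ∈ H, ∀ a, f.S.Rel univ {0} y q (2 ^ n) fun p =>
    f.F a p - P.ev (fun w => p (.inl w)) (Γ a)

/-- **split states** -/
def SP (d : ℕ) : Pp d := fun _ f H n => ∃ q P Γ, 1 ≤ q ∧ q ≤ 2 ^ n ∧ Spq f H n q 0 P Γ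

/-- **split states without denominator**, cells of radius `2^-r` -/
def SP1 (d r : ℕ) : Pp d := fun _ f H n => ∃ P Γ, Spq f H n 1 r P Γ

theorem Spq.mono {c : Kx d} {f : c.Fr} {H : Set (f.X → ℤ)} {n n' q r : ℕ} {P : Bk f.X (Lx d c.Q)}
    {Γ : Fin c.D → MvPolynomial (f.X ⊕ P.N) ℝ} (h : Spq f H n q r P Γ) (e : n ≤ n') :
    Spq f H n' q r P Γ := ⟨h.card.trans e, h.ok, h.wd, h.cell, h.gm,
  fun y k a => (h.rel y k a).mono (pow_le_pow_right₀ one_le_two e)⟩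

theorem SP.up : (SP d).Up := fun _ _ _ _ _ e ⟨q, P, Γ, a, b, k⟩ =>
  ⟨q, P, Γ, a, b.trans (Nat.pow_le_pow_right two_pos e), k.mono e⟩

theorem SP1.up (r : ℕ) : (SP1 d r).Up := fun _ _ _ _ _ e ⟨P, Γ, k⟩ => ⟨P, Γ, k.mono e⟩

theorem ez_un : (univ.erase 0 ∪ {0} : Finset (Lb d)) = univ := by
  ext ℓ
  by_cases h : ℓ = 0 <;> simp [h]

theorem ez_dj : Disjoint (univ.erase 0 : Finset (Lb d)) {0} := by simp

/-- the data seen from a frame are data -/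
theorem Kx.Fr.Fo.dat {c : Kx d} {f : c.Fr} {n Y : ℕ} (fo : f.Fo s n Y) (o : c.Ok s) (a : Fin c.D) :
    f.S.Dat univ {0} (f.F a) :=
  (morw o.ok fo.ok fo.fw.choose_spec (Kx.wf o) fo.C).toLm.pull (o.dat a)

/-- **SPLIT** -/
theorem lk_spl : Lk (Fs s (MH d)) (Fs s (SP d)) := by
  obtain ⟨K, h⟩ := split (d + 1)
  refine Fs.same (K + 1) SP.up fun c f H n Y o le fo z _ p => ?_
  obtain ⟨P, H', q, Γ, a1, a2, a3, a4, a5, a6, a7, a8, a9, b⟩ := h _ _ _ _ f.S bk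
    (fun w => ind w.1.2) (univ.erase 0) {0} H n 0 f.F (by simp) ez_dj
    (Idf.sy_ok fo.ok.toOk (Kx.wf o)) (fun w => map_ind bk ((Kx.wf o).inj _ w.2.2.1))
    (o.τ.trans le) (Nat.zero_le _) z p
  have n2 := z.1
  have c1 : n ≤ n ^ (K + 1) := Nat.le_self_pow (by omega) _
  have c2 : n ^ K ≤ n ^ (K + 1) := Nat.pow_le_pow_right (by omega) (by omega)
  rw [ez_un] at b
  refine ⟨H', a1, (Mv.hf c2).trans (by rwa [← _root_.one_div_pow]), q, P, Γ, a7,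
    a8.trans (Nat.pow_le_pow_right two_pos c1), a3.trans c2, a4, a5, a6, a9,
    fun y k a => (b y k a).mono (pow_le_pow_right₀ one_le_two c1)⟩

/-- no pending family -/
def Bk.nil (C Λ : Type) : Bk C Λ := ⟨Empty, Empty.elim, Empty.elim, Empty.elim⟩

theorem dil_num {n : ℕ} (h : 2 ≤ n) (e A : ℕ) : n ^ e + A * n ≤ n ^ (e + A + 2) := by
  have a : n ^ e ≤ n ^ (e + A + 1) := Nat.pow_le_pow_right (by omega) (by omega)
  have b : A * n ≤ n ^ (e + A + 1) := by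
    rw [pow_succ]
    exact Nat.mul_le_mul_right _ (Nat.lt_two_pow_self.le.trans ((Nat.pow_le_pow_left h _).trans
      (Nat.pow_le_pow_right (by omega) (by omega))))
  have := Nat.mul_le_mul_left (n ^ (e + A + 1)) h
  rw [pow_succ]
  omega

theorem dil_num2 {u a r s n m N : ℕ} (h : u + (a * (r + 3) + 2 + s) * n ≤ N) (k : m ≤ n) :
    m * a ≤ N ∧ (a * (r + 3) + 2) * m + u ≤ N ∧ u + 0 + (n + 0) * s + n ≤ N := by
  have h1 := Nat.mul_le_mul_left (a * (r + 3) + 2) k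
  have h2 := Nat.mul_le_mul_left a k
  refine ⟨?_, ?_, ?_⟩ <;> nlinarith [Nat.zero_le (a * r * n), Nat.zero_le (a * n),
    Nat.zero_le (s * n)]

/-- **DIL** -/
theorem lk_dil' (mv : ∀ M, Mv.MOVE s M) (r : ℕ) :
    Lk (Fs s (SP d)) (Fs s fun c f H n => SP1 d r c f H n ∧ ∀ l, 1 ≤ f.la l) :=
  Fs.step (fun _ _ _ _ _ e k => ⟨SP1.up r _ _ _ _ _ e k.1, k.2⟩) fun M => by
  obtain ⟨e, mv⟩ := mv M
  refine ⟨e + (2 ^ d * (r + 3) + 2 + s) + 2, Mv.mM s M, fun K' => ?_⟩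
  obtain ⟨K, mv⟩ := mv K'
  refine ⟨K, ?_⟩
  rintro c f H n Y o le fo m rg z v ⟨q, P, Γ, q1, q2, k⟩
  have sb := fo.sb o le
  obtain ⟨f', ν, -, H1, a1, a2, a3, a4, a0, a5, a6, a7, a8, -⟩ := mv _ _ f.toBs _ bk 0
    (Bk.nil _ _) n 0 q H Empty Empty.elim sb m ⟨⟨(·.elim), (·.elim), (·.elim), (·.elim)⟩,
      Nat.zero_le _, (·.elim)⟩ (Nat.zero_le _) q1 q2
    (by rw [← _root_.one_div_pow]; exact z.2.2) rg fun y _ =>
      ⟨Sum.elim (fun F A => if h : f.st F < f.M + 1 ∧ A ∈ Wt d c.Q ∧ #A = f.T.lev F then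
        y ⟨(F, A), h⟩ else 0) Empty.elim, fun w => dif_pos w.2, (·.elim), (·.elim)⟩
  have n2 := z.1
  have cz : #(univ.erase 0 : Finset (Lb d)) = d := by simp
  obtain ⟨P', H', Γ', b1, b2, b3, b4, b5, b6, b7, b8⟩ := pull (x := 0) (q' := 1)
    (Idf.sy_ok sb.ok sb.wf) (Idf.sy_ok a1.toOk sb.wf) (fun G => (a1.old.ok.toTri.lev_pos G).ne')
    sb.wf.inj (morw sb.ok a1 a4 sb.wf a5) (one_le_pow₀ one_le_two) ez_dj k.ok k.wd k.gm
    (fun a => (fo.dat o a).2) (by rw [ez_un]; exact k.rel) a7 (mem_singleton_self _) q1 le_rfl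
    (a1.m 0).1 (by rw [a4.m, one_mul]; exact a0) r
  rw [cz] at b2 b3
  rw [ez_un, card_singleton, pow_one, ← pow_add] at b8
  have u := dil_num n2 e (2 ^ d * (r + 3) + 2 + s)
  generalize n ^ (e + (2 ^ d * (r + 3) + 2 + s) + 2) = N at u ⊢
  obtain ⟨u1, u2, u3⟩ := dil_num2 u k.card
  refine ⟨f', ν, H', Idf.fr_mono fo.ok.old.ok.toTri a1 (Nat.pow_le_pow_left (by omega) _), a2.le, a3,
    a4.mono (by omega), a5.trans (Nat.pow_le_pow_right two_pos (by omega)), a6,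
    fun y hy => a7 y (b1 hy), ?_, ⟨P', Γ', b3.trans u1, b4, b5, b6, b7, fun y hy a => ?_⟩,
    fun l => (by norm_num : (1 : ℝ) ≤ 1 / 2 ^ 0).trans (a4.la l).1⟩
  · rw [← pow_mul] at b2
    have := a8.trans b2
    rw [div_le_iff₀ (by positivity)] at this ⊢
    have p0 : 0 ≤ (f'.SY (Wt d c.Q) bk).pr H' := by
      by_contra h
      nlinarith [mul_pos (mul_pos (pow_pos (two_pos (α := ℝ))
        ((2 ^ d * (r + 3) + 2) * Fintype.card P.N)) (neg_pos.2 (not_le.1 h)))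
        (pow_pos (two_pos (α := ℝ)) (n ^ e))]
    refine this.trans ?_
    rw [mul_comm (2 ^ _ : ℝ), mul_assoc, ← pow_add]
    exact mul_le_mul_of_nonneg_left (pow_le_pow_right₀ one_le_two u2) p0
  · rw [Kx.Fr.cp_F o fo.ok a1]
    exact (b8 y hy a).mono (pow_le_pow_right₀ one_le_two u3)

theorem lk_dil (mv : ∀ M, Mv.MOVE s M) (r : ℕ) : Lk (Fs s (SP d)) (Fs s (SP1 d r)) :=
  (lk_dil' mv r).trans (Lk.of_imp (mon_fs _)
    fun _ _ _ _ _ ⟨o, e, f, H, a, b, c, z, v, k⟩ => ⟨o, e, f, H, a, b, c, z, v, k.1⟩)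
    (mon_fs _) (mon_fs _)

theorem spd' (mv : ∀ M, Mv.MOVE s M) (r : ℕ) :
    Lk (Fs s (MH d)) (Fs s fun c f H n => SP1 d r c f H n ∧ ∀ l, 1 ≤ f.la l) :=
  lk_spl.trans (lk_dil' mv r) (mon_fs _) (mon_fs _)

/-- from the multi-homomorphism theorem to the split state without denominator -/
theorem spd (mv : ∀ M, Mv.MOVE s M) (r : ℕ) : Lk (Fs s (MH d)) (Fs s (SP1 d r)) :=
  lk_spl.trans (lk_dil mv r) (mon_fs _) (mon_fs _)

end Crest.Agent.N49.Sd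

end
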