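import Crest.Agent.N49.Sd.Eb
import Crest.Agent.N49.Md.Emc0

/-!
# Row 49 (helper61): `kap = ka` on the kept words
-/

set_option autoImplicit false
set_option linter.unusedSectionVars false
set_option maxHeartbeats 400000

open Matrix MvPolynomial Finset

noncomputable section

namespace Crest.Agent.N49.Sd

open Po Tw Br N49.Top Rm Md Sy

namespace Kp

section ring
variable {ι τ : Type} [Fintype ι] [LinearOrder ι] [Fintype τ] [DecidableEq τ] {x : ι}
  {D D' : Finset (Pt ι)} {lt : τ → ι × ℕ} {W : Finset (Finset τ)} {s : ℕ} {V : ℕ → Pt ι → ℝ}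

theorem rr (h : Lt x D lt W) (w : Wd s D') (m : Wd s D' →₀ ℕ) (hw : w.tr ∈ D)
    (hm : ∀ v ∈ m.support, v.tr ∈ D) :
    Rr w m ↔ Finsupp.weight (fun v : Wd s D' => ind (lw lt v.tr)) m = ind (lw lt w.tr) := by
  have lv : ∀ v : Wd s D', v.tr ∈ D → #(lw lt v.tr) = v.lv := fun v k =>
    (h.card k).trans (v.card_eq (h.nx _ k))
  have dg : (Finsupp.weight (fun v : Wd s D' => ind (lw lt v.tr)) m).degree =
      Finsupp.weight Wd.lv m := by
    simp only [Finsupp.weight_apply, Finsupp.sum, map_sum, map_nsmul, Swt.deg_ind]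
    exact sum_congr rfl fun v k => by rw [lv v (hm v k)]
  constructor
  · rintro ⟨a, b, c⟩
    have e : ind (lw lt w.tr) ≤ Finsupp.weight (fun v : Wd s D' => ind (lw lt v.tr)) m := fun i => by
      rw [ind_apply]
      split_ifs with k
      · have k1 : (lt i).1 ∈ bl w.tr := mem_bl.2 (by rw [mem_lw.1 k]; nofun)
        have k2 : (lt i).1 ∈ m.support.biUnion fun v => bl v.tr := by
          by_contra n
          refine mem_bl.1 (c.2 _ k1 n x (lt_of_le_of_ne (h.hx _) fun e => ?_)) (h.nx _ hw)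
          exact mem_bl.1 k1 (e ▸ h.nx _ hw)
        obtain ⟨v, hv, k3⟩ := mem_biUnion.1 k2
        exact Nat.pos_of_ne_zero ((Lt.wt_ne m i).2 ⟨v, hv, by
          rw [mem_lw, b v hv _ (mem_bl.1 k3)]; exact mem_lw.1 k⟩)
      · exact Nat.zero_le _
    obtain ⟨d, hd⟩ := exists_add_of_le e
    have := congrArg Finsupp.degree hd
    rw [dg, a, map_add, Swt.deg_ind, lv w hw] at this
    rw [hd, (Finsupp.degree_eq_zero_iff d).1 (by omega), add_zero]
  · intro e
    have b : ∀ v ∈ m.support, Le v.tr w.tr := fun v hv => h.le (hm v hv) fun i k => by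
      have := (Lt.wt_ne m i).2 ⟨v, hv, k⟩
      rw [e, ind_apply] at this
      by_contra n; exact this (if_neg n)
    refine ⟨by rw [← dg, e, Swt.deg_ind, lv w hw], b,
      biUnion_subset.2 fun v hv => (b v hv).bl, fun i k n => absurd ?_ n⟩
    obtain ⟨c, f, rfl⟩ := h.ex hw (mem_bl.1 k)
    obtain ⟨v, hv, g⟩ := (Lt.wt_ne m c).1 (by rw [e, ind_apply, if_pos f]; nofun)
    exact mem_biUnion.2 ⟨v, hv, mem_bl.2 (by rw [mem_lw.1 g]; nofun)⟩

variable (x lt s D') in
/-- the kept words as monomials -/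
def ro : MvPolynomial (Wd s D') ℝ →ₐ[ℝ] MvPolynomial τ ℝ :=
  aeval fun v => if v.tr x = none then monomial (ind (lw lt v.tr)) 1 else 0

theorem cf (h : Lt x D lt W) (hD : ∀ t ∈ D', t x = none → t ∈ D) (w : Wd s D')
    (hw : w.tr x = none) (P : MvPolynomial (Wd s D') ℝ) :
    (Br.tw s D' V).cf ℝ w P = coeff (ind (lw lt w.tr)) (ro x D' lt s P) := by
  induction P using MvPolynomial.induction_on' with
  | add p q a b => rw [map_add, map_add, coeff_add, a, b]
  | monomial m a =>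
    rw [Sh.cf_monomial, ro, aeval_monomial, algebraMap_eq, coeff_C_mul]
    refine congrArg (a * ·) ?_
    by_cases k : ∀ v ∈ m.support, v.tr x = none
    · rw [Finsupp.prod, prod_congr rfl (g := fun v => monomial (m v • ind (lw lt v.tr)) (1 : ℝ))
        fun v hv => by rw [if_pos (k v hv), monomial_pow, one_pow], ← monomial_sum_one,
        coeff_monomial]
      simp only [Int.cast_ite, Int.cast_one, Int.cast_zero]
      exact if_congr (rr h w m (hD _ w.mem hw) fun v hv => hD _ v.mem (k v hv)) rfl rfl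
    · push Not at k
      obtain ⟨v, hv, k⟩ := k
      rw [Finsupp.prod, prod_eq_zero hv (by
        rw [if_neg k, zero_pow (Finsupp.mem_support_iff.1 hv)]), coeff_zero]
      exact (congrArg _ (if_neg fun z => k ((z.2.1 v hv x k).trans hw))).trans Int.cast_zero
end ring

variable {τ L : Type} [Fintype τ] [DecidableEq τ] [Fintype L] [DecidableEq L] {s d Q h : ℕ}
  {lt : τ → Fin (d + 2) × ℕ} {W : Finset (Finset τ)} {blk : τ → L} {x : L}
  {g : τ → Option (Fin d × Fin Q)}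

theorem mem_Dk : ∀ t ∈ grid (q1 d Q 1), t 0 = none → t ∈ Dk d Q := fun _ a b => mem_filter.2 ⟨a, b⟩

theorem ex_cw (hl : Lt 0 (Dk d Q) lt W) {B : Bs L} (hB : B.Ok s h)
    (v : ℕ → Finset (Fin (d + 2)) → ℝ) (c : B.T.C) {A : Finset τ} (a : A ∈ W)
    (b : #A = B.T.lev c) : ∃ q : B.T.Cw (R1 s d Q 1 v), kw q.1.2 ∧ q.1.1 = c ∧
      lw lt (Wd.tr q.1.2) = A := by
  obtain ⟨t, ht, rfl⟩ := (hl.wd A).1 a
  have k := hB.old.ok.toTri.lev_pos c
  have k' := hB.old.lev c
  have k2 : #(bl t) ≤ Fintype.card (Fin (d + 2)) := card_le_univ _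
  rw [hl.card ht] at b
  refine ⟨⟨(c, ⟨(⟨B.T.lev c - 1, by omega⟩, ⟨t, (mem_filter.1 ht).1⟩), ?_⟩), ?_⟩,
    (mem_filter.1 ht).2, rfl, rfl⟩
  · dsimp only at b ⊢; omega
  · refine (tw_cd (V := fun j w => v j (bl w)) _).trans (unit_ext ?_)
    rw [Finsupp.degree_single]
    show B.T.lev c - 1 + 1 = B.T.lev c
    omega

theorem ro_Yw (hl : Lt 0 (Dk d Q) lt W) {B : Bs L} (hB : B.Ok s h)
    {v : ℕ → Finset (Fin (d + 2)) → ℝ} {y : B.T.Cw (R1 s d Q 1 v) → ℤ} {ys : B.SC W → ℤ}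
    (hy : Rd lt W B v y ys) (G : B.T.C) :
    ro 0 (grid (q1 d Q 1)) lt s (B.T.Yw (R1 s d Q 1 v) (zc y) G) =
      Yp B.T.lev (sx B.T _ W (zc ys)) G := by
  have l0 : ∀ r : B.T.Cw (R1 s d Q 1 v), Wd.lv r.1.2 = B.T.lev r.1.1 :=
    Lt.cw_lv (V := fun j w => v j (bl w))
  have lv : ∀ r : B.T.Cw (R1 s d Q 1 v), kw r.1.2 → #(lw lt (Wd.tr r.1.2)) = B.T.lev r.1.1 :=
    fun r k => (hl.card (mem_Dk _ r.1.2.mem k)).trans ((Wd.card_eq r.1.2 k).trans (l0 r))
  have e : ∀ r : B.T.Cw (R1 s d Q 1 v), ro 0 (grid (q1 d Q 1)) lt s (C (zc y r) * X r.1.2) =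
      if Wd.tr r.1.2 0 = none then monomial (ind (lw lt (Wd.tr r.1.2))) (zc y r) else 0 := fun r => by
    refine (map_mul _ _ _).trans ((congrArg₂ _ (aeval_C _ _) (aeval_X _ _)).trans ?_)
    split_ifs
    · rw [algebraMap_eq, C_mul_monomial, mul_one]
    · exact mul_zero _
  refine (map_sum _ _ _).trans ((sum_congr rfl fun r _ => e r).trans ((sum_filter _ _).symm.trans ?_))
  refine sum_of_injOn (fun r => lw lt (Wd.tr r.1.2)) (fun r hr r' hr' e => ?_) (fun r hr => ?_)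
    (fun A _ n => ?_) fun r hr => ?_
  · obtain ⟨a, b⟩ := mem_filter.1 hr
    obtain ⟨a', b'⟩ := mem_filter.1 hr'
    have e1 := (mem_filter.1 a).2.trans (mem_filter.1 a').2.symm
    exact cw_ext (V := fun j w => v j (bl w)) e1 ((l0 r).trans ((congrArg _ e1).trans (l0 r').symm))
      (hl.eq (mem_Dk _ r.1.2.mem b) (mem_Dk _ r'.1.2.mem b') e)
  · obtain ⟨a, b⟩ := mem_filter.1 hr
    exact mem_powersetCard.2 ⟨subset_univ _, (lv r b).trans (congrArg _ (mem_filter.1 a).2)⟩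
  · rw [sx, dif_neg, map_zero]
    intro k
    obtain ⟨r, a, b, c⟩ := ex_cw hl hB v G k.2.1 k.2.2
    exact n ⟨r, mem_filter.2 ⟨mem_filter.2 ⟨mem_univ _, b⟩, a⟩, c⟩
  · obtain ⟨a, b⟩ := mem_filter.1 hr
    obtain rfl : r.1.1 = G := (mem_filter.1 a).2
    have k : B.st r.1.1 < B.M + 1 ∧ lw lt (Wd.tr r.1.2) ∈ W ∧
        #(lw lt (Wd.tr r.1.2)) = B.T.lev r.1.1 := ⟨Nat.lt_succ_of_le (hB.old.stg.le _).1,
      (hl.wd _).2 ⟨_, mem_Dk _ r.1.2.mem b, rfl⟩, lv r b⟩
    have z : sx B.T (fun c => B.st c < B.M + 1) W (zc ys) r.1.1 (lw lt (Wd.tr r.1.2)) =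
        zc ys ⟨_, k⟩ := dif_pos k
    exact congrArg (monomial _) ((congrArg Int.cast (hy r ⟨_, k⟩ b rfl)).symm.trans z.symm)

theorem ro_kl (hs : 0 < s) (hl : Lay d Q lt W blk x g) (P : MvPolynomial τ ℤ) :
    ro 0 (grid (q1 d Q 1)) lt s (MvPolynomial.map (Int.castRingHom ℝ)
      (rename (Sd.lt s d Q hs 1) (kl g ℤ P))) =
      scl (fun a => if blk a = x then 0 else 1) (zr P) := by
  induction P using MvPolynomial.induction_on with
  | C a => simp [ro, kl, scl]
  | add p q a b => simp only [map_add, a, b]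
  | mul_X p a b =>
    simp only [map_mul, b, map_X]
    congr 1
    rw [kl, aeval_X, scl, aeval_X]
    cases k : g a with
    | none => simp [(hl.gx a).1 k]
    | some t =>
      have n : ¬ blk a = x := fun z => by simp [(hl.gx a).2 z] at k
      have e : lw lt (Wd.tr (Sd.lt s d Q hs 1 t)) = {a} := by
        ext b
        rw [mem_lw, mem_singleton, ← hl.nm.inj.eq_iff, hl.g1 a t k]
        change Function.update (fun _ => none) t.1.succ.succ (some (t.2 : ℕ)) (lt b).1 = _ ↔ _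
        by_cases z : (lt b).1 = t.1.succ.succ <;> simp [z, Prod.ext_iff, eq_comm]
      have z : Wd.tr (Sd.lt s d Q hs 1 t) 0 = none :=
        Function.update_of_ne (Fin.succ_ne_zero t.1.succ).symm (some (t.2 : ℕ)) fun _ => none
      rw [Option.elim_some, rename_X, map_X, ro, aeval_X, if_pos z, e, Ec.ind_one, if_neg n, C_1,
        one_mul, X]

theorem scl_hom (ν : ℝ) {P : MvPolynomial τ ℝ} {n : ℕ} (h : P.IsHomogeneous n) :
    scl (fun _ => ν) P = ν ^ n • P := by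
  ext μ
  rw [Ec.coeff_scl, coeff_smul, smul_eq_mul]
  by_cases k : coeff μ P = 0
  · rw [k, mul_zero, mul_zero]
  · rw [Finsupp.prod, prod_pow_eq_pow_sum, ← h k, Finsupp.weight_apply, Finsupp.sum]
    simp

theorem kap_cf (hs : 0 < s) (hl : Lt 0 (Dk d Q) lt W) {T1 T2 : TS Unit}
    (D : Tan T1 T2 (Fin d × Fin Q)) (v : ℕ → Finset (Fin (d + 2)) → ℝ)
    (y : T2.Cw (R1 s d Q 1 v) → ℤ) (q : T1.Cw (R1 s d Q 1 v)) (a : kw q.1.2) :
    (((D.rn (Sd.lt s d Q hs 1)).kap (R1 s d Q 1 v) y q : ℤ) : ℝ) = coeff (ind (lw lt (Wd.tr q.1.2)))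
      (ro 0 (grid (q1 d Q 1)) lt s (MvPolynomial.map (Int.castRingHom ℝ)
        (rename (Sd.lt s d Q hs 1) (D.be q.1.1))) + ∑ G with D.fam G = q.1.1,
        ro 0 (grid (q1 d Q 1)) lt s (MvPolynomial.map (Int.castRingHom ℝ)
          (rename (Sd.lt s d Q hs 1) (D.mon G))) *
        ro 0 (grid (q1 d Q 1)) lt s (T2.Yw (R1 s d Q 1 v) (zc y) G)) := by
  have cm : ∀ P : MvPolynomial (Wd s (grid (q1 d Q 1))) ℤ, (((R1 s d Q 1 v).cf ℤ q.1.2 P : ℤ) : ℝ) =
      coeff (ind (lw lt (Wd.tr q.1.2))) (ro 0 (grid (q1 d Q 1)) lt s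
        (MvPolynomial.map (Int.castRingHom ℝ) P)) := fun P =>
    ((R1 s d Q 1 v).cf_map (Int.castRingHom ℝ) q.1.2 P).symm.trans
      (cf (V := fun j w => v j (bl w)) hl mem_Dk q.1.2 a _)
  rw [coeff_add]
  refine (Int.cast_add _ _).trans (congrArg₂ _ (cm _) ((cm _).trans (congrArg _ ?_)))
  refine (congrArg _ (map_sum _ _ _)).trans ((map_sum _ _ _).trans (sum_congr rfl fun G _ => ?_))
  refine (congrArg _ (map_mul _ _ _)).trans ((map_mul _ _ _).trans (congrArg₂ _ (congrArg _ ?_)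
    (congrArg _ (TS.map_Yw (S := R1 s d Q 1 v) (Int.castRingHom ℝ) y G))))
  exact (MvPolynomial.map_map _ _ _).trans (congrArg (MvPolynomial.map · _) (Subsingleton.elim _ _))

end Kp

open Kp in
theorem kap : KAP := by
  intro τ L _ _ _ _ s d Q h h' ν hs lt W blk x g B f D v v' hl hB hf hm _ hx y ys zs hy hz
  refine funext fun w => ?_
  rcases w with w | ℓ
  swap
  · rfl
  obtain ⟨q, a, b, c⟩ := ex_cw hl.nm hB v w.1.1 w.2.2.1 w.2.2.2
  have e := (congrArg Int.cast (hz q w a (Prod.ext b.symm c.symm))).trans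
    (kap_cf hs hl.nm D v y q a)
  rw [c, b, hx.be, ro_kl hs hl] at e
  have e0 : ka B W blk f (c0 x (zc ys)) (.inl w) = coeff (ind w.1.2)
      (scl (fun a => if blk a = x then (0 : ℝ) else 1) (zr (f.θ.be w.1.1)) +
        ∑ G with f.θ.fam G = some w.1.1, scl (fun a => if blk a = x then (0 : ℝ) else 1)
          (zr (f.θ.mon G)) * scl (fun a => (f.m (blk a) : ℝ))
            (Yp f.T.lev (sx f.T (fun c => f.st c < f.M + 1) W (zc ys)) G)) := rfl
  refine e0.trans (Eq.trans (congrArg (fun P => coeff (ind w.1.2)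
    (scl (fun a => if blk a = x then (0 : ℝ) else 1) (zr (f.θ.be w.1.1)) + P)) ?_) e.symm)
  refine (sum_congr rfl fun G k => ?_).trans (sum_subset (fun G k => mem_filter.2
    ⟨mem_univ _, (hx.sm G _ (mem_filter.1 k).2).1⟩) fun G k n => ?_)
  · refine Eq.trans ?_ (congrArg _ (ro_Yw hl.nm hf.toOk hy G)).symm
    rw [(hx.sm G _ (mem_filter.1 k).2).2, map_nsmul, map_nsmul, map_nsmul, ro_kl hs hl, hm,
      scl_hom _ (Ec.hom_Yp _ _ _), mul_smul_comm, smul_mul_assoc, ← Nat.cast_pow,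
      Nat.cast_smul_eq_nsmul]
  · have z : D.mon G = 0 := by
      cases m : f.θ.fam G with
      | none => exact hx.no G m
      | some F => exact (n (mem_filter.2 ⟨mem_univ G, m.trans (congrArg some
          ((hx.sm G F m).1.symm.trans (mem_filter.1 k).2))⟩)).elim
    rw [z, map_zero, map_zero, map_zero, zero_mul]

end Crest.Agent.N49.Sd

end
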