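import Crest.Agent.N49.Sd.Eb
import Crest.Agent.N49.Sd.Regx
import Crest.Agent.N49.Sd.Fibx
import Crest.Agent.N49.Rf.Rsc
import Crest.Agent.N49.Tw.Ccs
import Crest.Agent.N49.Tw.ConM
import Crest.Agent.N49.Tw.Mast0
import Crest.Agent.N49.Un.Glue

/-!
# Row 49 (helper24): the mass of the backgrounds (`MASZ`)
-/

set_option autoImplicit false

open Matrix MvPolynomial Finset Function

noncomputable section

namespace Crest.Agent.N49.Sd.Mz

open Po Tw Br N49.Top Ho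

/-- marginals from heavy fibres -/
theorem mar {Y R E : Type} {F G : Y → ℝ} {w g : R → ℝ} {k : R → E → ℝ} {c : ℝ} {i : R × E → Y}
    (hi : Injective i) (hs : Summable fun y => F y * G y) (F0 : ∀ y, 0 ≤ F y * G y)
    (e : ∀ r x, F (i (r, x)) = w r * k r x) (w0 : ∀ r, 0 ≤ w r) (g0 : ∀ r, 0 ≤ g r)
    (sw : Summable fun r => w r * g r) (hk : ∀ r, Summable (k r)) (k0 : ∀ r x, 0 ≤ k r x)
    (hc : ∀ r, c ≤ ∑' x, k r x) (hg : ∀ r x, g r ≤ G (i (r, x))) :
    c * ∑' r, w r * g r ≤ ∑' y, F y * G y := by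
  have s1 : Summable fun a : R × E => F (i a) * G (i a) := hs.comp_injective hi
  refine le_trans ?_ (tsum_comp_le_tsum_of_inj hs F0 hi)
  refine le_trans ?_ s1.tsum_prod.ge
  rw [← tsum_mul_left]
  refine (sw.mul_left c).tsum_le_tsum (fun r => ?_) s1.prod
  rw [mul_comm]
  refine (mul_le_mul_of_nonneg_left (hc r) (mul_nonneg (w0 r) (g0 r))).trans ?_
  rw [← tsum_mul_left]
  refine ((hk r).mul_left _).tsum_le_tsum (fun x => ?_) (s1.prod_factor r)
  rw [e, mul_right_comm]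
  exact mul_le_mul_of_nonneg_left (hg r x) (mul_nonneg (w0 r) (k0 r x))

/-- linear errors: the mass is at least the covolume -/
theorem zc_le {σ : Type} {U : TS σ} (h : U.Tri) (L : Matrix U.C U.C ℝ)
    (hL : ∀ a : U.C → ℤ, U.u (zc a) = L *ᵥ zc a) : U.Zc ≤ U.Z := by
  have d : L.det = U.A.det := by
    refine Eq.trans (congrArg det (Matrix.ext fun p p' => ?_)) (Li.det_lin h)
    rw [of_apply, hL, hL, zc_zero, mulVec_zero, Pi.zero_apply, sub_zero,
      show zc (Pi.single p' 1) = Pi.single p' 1 from funext fun c => by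
        simp [zc, Pi.single_apply], mulVec_single_one, col_apply]
  have i : Function.Injective L.mulVec :=
    mulVec_injective_iff_isUnit.2 ((isUnit_iff_isUnit_det _).2 (d ▸ h.unit))
  have z : U.Zc = dt (Lᵀ * U.K⁻¹ * L) := by
    rw [TS.Zc, h.D_inv, dt, dt, det_mul, det_mul, det_mul, det_mul, det_transpose, det_transpose, d]
  refine z.trans_le ((dt_le_th (posDef_conj h.pd.inv i)).trans_eq (tsum_congr fun a => ?_))
  rw [TS.wt, gs, gs, hL, sub_zero, qf_conj]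

theorem num {β η Zk Sk Zz Sz Cz Cx : ℝ} (η0 : 0 ≤ η) (cz : 0 < Cz) (cx : 0 < Cx) (zk : 0 < Zk)
    (s0 : 0 ≤ Sz) (sk : Sk ≤ Zk) (hβ : β ≤ Sk / Zk) (m : Cx * (Zz - Sz) ≤ Zk - Sk)
    (mk : |Zk - Cz * Cx| ≤ η * (Cz * Cx)) (mz : |Zz - Cz| ≤ η * Cz) : β - 3 * η ≤ Sz / Cz := by
  rcases le_total β 0 with b | b
  · exact le_trans (by linarith) (div_nonneg s0 cz.le)
  rw [le_div_iff₀ zk] at hβ
  have b1 : 0 ≤ 1 - β := sub_nonneg.2 (le_of_mul_le_mul_right (by linarith) zk)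
  have a1 := mul_le_mul_of_nonneg_left (abs_le.1 mk).2 b1
  have a2 := (abs_le.1 mz).1
  have a3 : Zz - Sz ≤ (1 - β) * (1 + η) * Cz := le_of_mul_le_mul_left (by nlinarith) cx
  rw [le_div_iff₀ cz]
  nlinarith [mul_nonneg (mul_nonneg b η0) cz.le, mul_nonneg η0 cz.le]

variable {τ : Type} {T : TS Unit} {S : Sh Unit τ} {st : T.C → ℕ} {M : ℕ}

theorem fb_mas {C n : ℕ} {a η : ℝ} {q : S.W → Prop} [DecidablePred q] (m : MAST M C)
    (hs : T.Stg st M) (rg : T.RgS st M C n a η) (h0 : 0 < η) (h1 : η ≤ 1) (sz : S.Sz n a)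
    (hq : S.Idl q) : (fb T S q st (tpw T S) 0).Mas η := by
  refine (TS.cut_sub hs sz.toOk (Mh.sub_ok sz.toOk hq) (Rx.adm hs) hq η).2 ?_
  rw [Rx.tp_tpw]
  exact m _ _ T _ st _ n a η ⟨hs, Rx.adm hs, h0, h1, rg, Sh.sub_sz sz hq⟩

theorem core {p k z x : S.W → Prop} [DecidablePred k] [DecidablePred z] [DecidablePred x]
    (t : Rx.Tr S S p (fun (_ : Unit) w => w) k z x) (hs : T.Stg st M) (o : S.Ok)
    (lin : ∀ w m, x w → S.r w m ≠ 0 → Finsupp.weight (fun v => if x v then 1 else 0) m = 1)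
    {η β : ℝ} (η0 : 0 ≤ η) (mk : (fb T S k st (tpw T S) 0).Mas η)
    (mz : (fb T S z st (tpw T S) 0).Mas η) {H' : Set (Kc T S k → ℤ)} {H : Set (Kc T S z → ℤ)}
    (hH : ∀ r e, t.cf () r e ∈ H' → r ∈ H) (hβ : β ≤ (fb T S k st (tpw T S) 0).P H') :
    β - 3 * η ≤ (fb T S z st (tpw T S) 0).N (H.indicator 1) := by
  have tk := Rx.fb_tri (p := k) hs (Rx.adm hs) o 0
  have tz := Rx.fb_tri (p := z) hs (Rx.adm hs) o 0
  have tx := Rx.fb_tri (p := x) hs (Rx.adm hs) o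
  have bk := (Bb.const (1 : ℝ)).sub (Bb.ind H')
  have bz := (Bb.const (1 : ℝ)).sub (Bb.ind H)
  have c := t.Zc_cf () hs o o 0
  rw [Fintype.prod_unique] at c
  have m := mar (c := (fb T S x st (tpw T S) 0).Zc)
    (i := fun a : (Kc T S z → ℤ) × (Kc T S x → ℤ) => t.cf () a.1 fun _ => a.2)
    (k := fun r => (fb T S x st (tpw T S) (gl T S z r 0)).wt)
    (fun a a' e => Prod.ext (t.cf_inj () e).1 (congrFun (t.cf_inj () e).2 ())) (tk.sm bk)
    (fun y => mul_nonneg (TS.wt_pos _ _).le (sub_nonneg.2 (ind_le _ _)))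
    (fun r e => (t.wt_cf () hs.cl.1.pd o.pd r _).trans (by rw [Fintype.prod_unique]))
    (fun r => (TS.wt_pos _ _).le) (fun r => sub_nonneg.2 (ind_le _ _)) (tz.sm bz)
    (fun r => (tx _).summable) (fun r e => (TS.wt_pos _ _).le)
    (fun r => ((Rx.fb_Zc hs (Rx.adm hs) o _).trans (Rx.fb_Zc hs (Rx.adm hs) o _).symm).trans_le
      ((Fx.fb_lin (st := st) x lin _).elim fun L hL => zc_le (tx _) L fun _ => hL _))
    fun r e => sub_le_sub_left (by
      by_cases i : t.cf () r (fun _ => e) ∈ H'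
      · rw [Set.indicator_of_mem (hH _ _ i)]; exact ind_le _ _
      · rw [Set.indicator_of_notMem i]; exact ind_nonneg _ _) 1
  have e1 := (tk.S_sub (.const 1) (.ind H')).trans (congrArg (· - _) (TS.S_one _))
  have e2 := (tz.S_sub (.const 1) (.ind H)).trans (congrArg (· - _) (TS.S_one _))
  refine num η0 tz.Zc_pos (tx 0).Zc_pos tk.Z_pos (TS.S_nonneg (ind_nonneg _))
    ((tk.S_mono (.ind H') (.const 1) (ind_le _)).trans_eq (TS.S_one _)) hβ
    ((congrArg (_ * ·) e2).symm.trans_le (m.trans_eq e1)) (c ▸ mk) mz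

theorem tpw_scl (xs : T.C → ℝ) : tpw (T.scl xs) S = T.tsc xs S (tpw T S) :=
  funext fun F : T.C => (congrArg (MvPolynomial.map MvPolynomial.C) (TS.scl_top F)).trans
    ((map_mul (MvPolynomial.map (σ := T.C) (MvPolynomial.C (σ := S.W) (R := ℝ)))
      (MvPolynomial.C (xs F)) (T.top.Φ F)).trans (congrArg (· * _) (map_C _ _)))

/-- normalised sums from raw data -/
def Nr {C : Type} [Fintype C] [DecidableEq C] (K A : Matrix C C ℝ) (u : (C → ℤ) → C → ℝ)
    (g : (C → ℤ) → ℝ) : ℝ := (∑' y, gs K⁻¹ (u y) * g y) / (dt K⁻¹ / |A.det|)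

theorem Nr_scl {C : Type} [Fintype C] [DecidableEq C] {K A K' A' : Matrix C C ℝ}
    {u u' : (C → ℤ) → C → ℝ} {x : C → ℝ} (hK : K.PosDef) (hx : ∀ c, x c ≠ 0)
    (k : ∀ c c', K' c c' = x c * K c c' * x c') (a : ∀ c c', A' c c' = x c * A c c')
    (e : ∀ y c, u' y c = x c * u y c) (g : (C → ℤ) → ℝ) : Nr K' A' u' g = Nr K A u g := by
  obtain rfl : K' = diagonal x * K * diagonal x :=
    Matrix.ext fun c c' => by rw [k, mul_diagonal, diagonal_mul]
  obtain rfl : A' = diagonal x * A := Matrix.ext fun c c' => by rw [a, diagonal_mul]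
  obtain rfl : u' = fun y c => x c * u y c := funext₂ e
  simp only [Nr, gs_diag hK.det_pos.ne' hx]
  rw [dt_diag, det_mul, det_diagonal, abs_mul,
    mul_div_mul_left _ _ (abs_ne_zero.2 (prod_ne_zero_iff.2 fun c _ => hx c))]

theorem fb_N {p : S.W → Prop} [DecidablePred p] (hs : T.Stg st M) (o : S.Ok)
    (g : (Kc T S p → ℤ) → ℝ) : (fb T S p st (tpw T S) 0).N g =
      Nr ((T.kw S T.K S.K).submatrix (Subtype.val : Kc T S p → _) Subtype.val)
        ((T.kw S (T.stg st).A 1).submatrix (Subtype.val : Kc T S p → _) Subtype.val)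
        (fun y c => ut (tpw T S) (zc (gl T S p y 0)) c.1) g := by
  rw [TS.N, TS.Zc_eq, Rx.fb_A hs (Rx.adm hs) o]
  exact congrArg (· / _) (tsum_congr fun y => congrArg (gs _ · * g y) (funext (Rx.fb_u 0 y)))

theorem fb_scl {K : Matrix S.W S.W ℝ} {p : S.W → Prop} [DecidablePred p] {xs : T.C → ℝ}
    (hs : T.Stg st M) (o : S.Ok) (o' : (S.setK K).Ok) (hx : ∀ c, xs c ≠ 0)
    (hK : ∀ w w', p w → p w' → K w w' = S.K w w') (g : (Kc T S p → ℤ) → ℝ) :
    (fb (T.scl xs) (S.setK K) p st (tpw _ _) 0).N g = (fb T S p st (tpw T S) 0).N g := by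
  refine (fb_N (T := T.scl xs) (S := S.setK K) (p := p) (hs.scl hx) o' g).trans
    (Eq.trans ?_ (fb_N hs o g).symm)
  refine Nr_scl (C := Kc T S p) (x := fun c => xs c.1.1.1)
    ((TS.kw_posDef hs.cl.1.pd o.pd).submatrix Subtype.val_injective) (fun c => hx _)
    (fun c c' => ?_) (fun c c' => ?_) (fun y c => ?_) g
  · change (T.scl xs).K c.1.1.1 c'.1.1.1 * K c.1.1.2 c'.1.1.2 =
      _ * (T.K c.1.1.1 c'.1.1.1 * S.K c.1.1.2 c'.1.1.2) * _
    rw [TS.scl_K, hK _ _ c.2 c'.2]; ring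
  · exact (congrArg (· * _) ((congrFun₂ (TS.scl_A (T := T.stg st) (s := xs)) c.1.1.1 c'.1.1.1).trans
      (diagonal_mul _ _ _ _))).trans (mul_assoc _ _ _)
  · rw [tpw_scl]
    exact TS.tsc_u (T := T) (S := S) (Ψ := tpw T S) _ c.1

theorem tr {s d Q : ℕ} (v : ℕ → Finset (Fin (d + 2)) → ℝ) : Rx.Tr (R1 s d Q 1 v) (R1 s d Q 1 v)
    (fun w => w.tr 1 = none) (fun (_ : Unit) w => w) kw zw xw where
  cl :=
    { inj := fun _ _ _ h => h
      com := fun _ _ _ _ => rfl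
      dis := fun _ _ _ _ _ _ => rfl
      sur := fun w => ⟨(), w, rfl⟩
      cd := fun _ _ => rfl
      r := fun _ _ _ => congrArg _ Finsupp.mapDomain_id
      loc := fun _ _ _ _ w _ => ⟨w, rfl⟩
      eps := fun _ _ => rfl
      idl := (Rx.tr one_pos v).cl.idl
      hK := fun _ _ _ => rfl
      hK0 := fun _ _ _ _ h => (h rfl).elim
      sep := (Rx.tr one_pos v).cl.sep }
  kz _ w := by rw [kw, zw, xw]; tauto
  zp _ h := h.2
  xp _ h := h.2
  iz := (Rx.tr one_pos v).iz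

end Mz

open Po Tw Br N49.Top Ho Mz in
theorem masz : MASZ := by
  intro s d Q M C n T st xs v v' a η β H' H m hs rg h0 h1 hv e hx n1 hn hH hβ
  have sz : (R1 s d Q 1 v).Sz n a := Un.gr_sz rg.pos (fun j A => (hv j A).1) n1 hn
  have t := tr (s := s) (Q := Q) v
  have c := core (H := H) t hs sz.toOk
    (fun _ _ h r => Fx.xw_lin h ((tw_r (V := fun j w => v j (bl w))).1 r)) h0.le
    (fb_mas m hs rg h0 h1 sz (Rx.idl (fun j w => v j (bl w)) 0)) (fb_mas m hs rg h0 h1 sz t.iz)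
    (fun r x i => Set.mem_of_eq_of_mem (funext fun c => ?_) (hH _ i)) hβ
  · have f := fb_scl (S := R1 s d Q 1 v) (K := (R1 s d Q 1 v').K) (p := zw) hs sz.toOk
      (gr_ok (s := s) (q := q1 d Q 1) fun j A => (hv j A).2) hx (fun w w' i _ => ?_) (H.indicator 1)
    · exact c.trans_eq f.symm
    change diagonal (fun w : Wd s _ => v' w.lv (bl w.tr)) w w' =
      diagonal (fun w : Wd s _ => v w.lv (bl w.tr)) w w'
    rw [diagonal_apply, diagonal_apply, e _ _ (fun k => mem_bl.1 k i.1) fun k => mem_bl.1 k i.2]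
  · exact (show t.cf () r x (t.eqv T () (.inl c)) = r c by simp [Rx.Tr.cf]).symm

end Crest.Agent.N49.Sd

end
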