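import Crest.Agent.N49.Sd.Eb

/-!
# Row 49 (helper11): a trivial form is almost integral at short directions
-/

set_option autoImplicit false

open Finset

noncomputable section

namespace Crest.Agent.N49.Sd

open Po Tw Br N49.Top Rm Md

theorem relb : RELB := by
  intro L C _ _ _ _ T x y y' G B t ok hG hR hy ht hs
  obtain ⟨I, ⟨hI, hz⟩, hS⟩ := hR
  set p : C ⊕ L → ℝ := c0 x (zc y') with hp
  have hf : p ∈ T.Fib {x} y := by
    refine ⟨fun c hc => ?_, fun l => ?_⟩
    · have := hy c (by simpa using hc)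
      simp [hp, c0, zc, this]
    · simp [hp, c0]
  have hi : TT.IntP p := by
    rintro (c | l)
    · exact ⟨y' c, by simp [hp, c0, zc]⟩
    · by_cases h : l = x
      · exact ⟨0, by simp [hp, c0, h]⟩
      · exact ⟨1, by simp [hp, c0, h]⟩
  obtain ⟨k, hk⟩ := hz p hf hi
  refine ⟨k, ?_⟩
  have hl : ∀ F : Fm L C, T.Lin x F → F (T.cmb x (1 / t) 0 p p) = 1 / t * F p := fun F h => by
    rw [h _ _ _ _ fun _ _ => rfl]; ring
  have hf' : T.cmb x (1 / t) 0 p p ∈ T.Fib {x} y := by
    refine ⟨fun c hc => ?_, fun l => ?_⟩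
    · have hx : x ∉ T.tv (.inl c) := by simpa [TT.tv] using hc
      rw [TT.cmb, if_neg hx]
      exact hf.1 c hc
    · rw [TT.cmb, hf.2 l]
      by_cases h : l = x
      · simp [h]
      · have : x ∉ T.tv (.inr l) := by simpa [TT.tv] using fun h' => h h'.symm
        rw [if_neg this]
  have hc : T.Cube univ {x} (T.cmb x (1 / t) 0 p p) := by
    intro c _ hc
    have hx : x ∈ T.ty c := by simpa using hc
    have h1 := hl _ ((ok.dat c ⟨x, hx⟩).2 x hx)
    rw [h1, abs_mul, abs_of_pos (one_div_pos.2 ht), one_div, inv_mul_le_iff₀ ht, mul_one]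
    exact hs c hx
  have h := hS _ hf' hc
  simp only at h
  rw [hl _ (hG.2 x (mem_singleton_self x)), hl _ (hI.2 x (mem_singleton_self x)), hk,
    Nat.cast_one, div_one, ← mul_sub, abs_mul, abs_of_pos (one_div_pos.2 ht), one_div,
    inv_mul_le_iff₀ ht] at h
  exact h

end Crest.Agent.N49.Sd

end
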