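import Crest.Agent.N49.Sd.Eb
import Crest.Agent.N49.Sd.Insp
import Crest.Agent.N49.Sd.Nrm
import Crest.Agent.N49.Sd.Tanr

/-!
# Row 49 (helper82): short directions stay short
-/

set_option autoImplicit false

open Matrix MvPolynomial Finset

noncomputable section

namespace Crest.Agent.N49.Sd

open Po Tw Br N49.Top

namespace Sl

variable {s d : ℕ} {Dd : Finset (Pt (Fin (d + 2)))}

/-- a word of the direction is a product only if one factor is a word of the direction -/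
theorem xw_fac {w : Wd s Dd} {m : Wd s Dd →₀ ℕ} (h : xw w) (r : Rr w m) :
    ∃ w' ∈ m.support, xw w' := by
  have a : (1 : Fin (d + 2)) ∈ m.support.biUnion fun w' => bl w'.tr := by
    by_contra n
    have := r.2.2.2 1 (by simpa [bl] using h.2) n 0 Fin.zero_lt_one
    simp [bl, h.1] at this
  obtain ⟨w', k, k'⟩ := mem_biUnion.1 a
  refine ⟨w', k, by_contra fun z => z ((r.2.1 w' k 0 z).trans h.1), by simpa [bl] using k'⟩

theorem cf_zero {R Lt : Type} [CommRing R] (V : ℕ → Pt (Fin (d + 2)) → ℝ) {f : Lt → Wd s Dd}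
    (hf : ∀ t, ¬ xw (f t)) {w : Wd s Dd} (h : xw w) (P : MvPolynomial Lt R)
    {Z : MvPolynomial (Wd s Dd) R} (hZ : ∀ w' ∈ Z.vars, ¬ xw w') :
    (Br.tw s Dd V).cf R w (rename f P * Z) = 0 := by
  classical
  by_contra z
  obtain ⟨m, k, k'⟩ := Sh.cf_ne z
  obtain ⟨w', a, b⟩ := xw_fac h (tw_r.1 k')
  rcases mem_union.1 (vars_mul _ _ ((mem_vars_iff_mem_support _).2 ⟨m, mem_support_iff.2 k, a⟩)) with c | c
  · obtain ⟨t, -, rfl⟩ := mem_vars_rename _ _ c
    exact hf t b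
  · exact hZ _ c b

theorem lt_nx {Q n : ℕ} (hs : 0 < s) (t : Fin d × Fin Q) : ¬ xw (lt s d Q hs n t) := fun h =>
  h.2 (Function.update_of_ne (a := 1) (a' := t.1.succ.succ)
    (fun e => by simpa using congrArg Fin.val e) (some (t.2 : ℕ)) fun _ => none)

theorem fb_sq {τ : Type} {S : Sh Unit τ} {V : S.W → ℝ} {T : TS Unit} {g : T.C → ℝ}
    (hS : S.K = diagonal V) (hT : T.K = diagonal g) (hV : ∀ w, 0 < V w) (hd : ∀ F, 0 < g F)
    (p : S.W → Prop) [DecidablePred p] (st : T.C → ℕ) (Ψ : T.Twd S) (b : T.Cw S → ℤ)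
    (u : T.Cw S → ℝ) {R : ℝ} (h : qf (fb T S p st Ψ b).K⁻¹ (fun c => u c.1) ≤ R) (c : T.Cw S)
    (hc : p c.1.2) : u c ^ 2 ≤ R * (g c.1.1 * V c.1.2) := by
  have e := Nr.qf_dg (C := Kc T S p) (K := (fb T S p st Ψ b).K)
    (d := fun c => g c.1.1.1 * V c.1.1.2)
    (fun c c' => (Nr.sh_K hS hT c.1 c'.1).trans (if_congr Subtype.ext_iff.symm rfl rfl))
    (fun c => (mul_pos (hd _) (hV _)).ne') fun c => u c.1
  rw [← div_le_iff₀ (mul_pos (hd _) (hV _))]
  refine le_trans ?_ (e.symm.trans_le h)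
  exact single_le_sum (f := fun c : Kc T S p => u c.1 ^ 2 / (g c.1.1.1 * V c.1.1.2))
    (fun c _ => div_nonneg (sq_nonneg _) (mul_pos (hd _) (hV _)).le) (mem_univ ⟨c, hc⟩)

theorem main {τ : Type} {S : Sh Unit τ} (h : ∀ w m, |S.r w m| ≤ 1) {T1 T2 : TS Unit}
    (D : Tan T1 T2 S.W) (hD : D.Rid S) {sc : T2.C → ℝ} {X t : ℝ} (h0 : ∀ G, sc G ≠ 0)
    (hX : ∀ G, |sc G| * l1 (MvPolynomial.map (Int.castRingHom ℝ) (D.mon G)) ≤ X) (X0 : 0 ≤ X)
    (t0 : 0 ≤ t) (p : S.W → Prop) (y : T2.Cw S → ℤ) (c : T1.Cw S)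
    (hb : S.cf ℝ c.1.2 (D.bu c.1.1) = 0) (hL : ∀ c' : T2.Cw S, ¬ p c'.1.2 → Ip.Lz D c c' = 0)
    (hu : ∀ c' : T2.Cw S, p c'.1.2 → |(T2.tw S (tpw T2 S)).u (zc y) c' / sc c'.1.1| ≤ t) :
    |(T1.tw S (tpw T1 S)).u (zc (D.kap S y)) c| ≤
      X * Fintype.card S.W * Fintype.card T2.C * t := by
  classical
  have e : zc (D.kap S y) = fun q => (S.cf ℤ q.1.2 (D.be q.1.1) : ℤ) + D.L S (zc y) q := by
    funext q
    simp only [zc, Ip.kap_eq, Ip.L_eq]
    push_cast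
    rfl
  obtain ⟨u, hu'⟩ : ∃ u : T2.Cw S → ℝ, u = (T2.tw S (tpw T2 S)).u (zc y) := ⟨_, rfl⟩
  have e2 : D.L S u c = D.L S (fun c' => if p c'.1.2 then u c' else 0) c := by
    rw [Ip.L_eq, Ip.L_eq]
    refine sum_congr rfl fun c' _ => ?_
    split_ifs with k
    · rfl
    · rw [hL c' k]; simp
  have e3 : (T1.tw S (tpw T1 S)).u (zc (D.kap S y)) c = D.L S u c := by
    refine (congrArg (fun z : T1.Cw S → ℝ => (T1.tw S (tpw T1 S)).u z c) e).trans
      ((congrFun (hD _) c).trans ?_)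
    rw [hu']
    exact (congrArg (· + _) hb).trans (zero_add _)
  rw [e3, e2]
  replace hu : ∀ c' : T2.Cw S, p c'.1.2 → |u c' / sc c'.1.1| ≤ t := by rw [hu']; exact hu
  refine (Nr.L_le h D h0 hX _ c).trans ((sum_le_card_nsmul _ _ (X * t) fun c' _ => ?_).trans ?_)
  · refine mul_le_mul_of_nonneg_left ?_ X0
    split_ifs with k
    · exact hu c' k
    · simpa using t0
  · have hc : (Fintype.card (T2.Cw S) : ℝ) ≤ Fintype.card T2.C * Fintype.card S.W := by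
      exact_mod_cast (Fintype.card_subtype_le _).trans_eq (Fintype.card_prod _ _)
    rw [nsmul_eq_mul]
    refine (mul_le_mul_of_nonneg_right (le_trans (by exact_mod_cast card_le_univ _) hc)
      (mul_nonneg X0 t0)).trans_eq (by ring)

end Sl
open Sl

theorem sml : SML := by
  intro s d Q M1 M2 hs T1 T2 st1 st2 D v v' X R t y h1 h2 hD hI ⟨_, sc, hK2, hsc⟩ hv t0 hR hq
  have d0 : ∀ G, 0 < sc G ^ 2 := fun G => sq_pos_of_ne_zero (hsc G).1
  have p1 := fb_sq (S := R1 s d Q 1 v') (V := fun w => v' (Wd.lv w) (bl (Wd.tr w))) rfl hK2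
    (fun _ => (hv _ _).2) d0 xw st2 _ y _ hq
  refine ⟨fun c hc => by rw [hK2, diagonal_apply_eq]; exact p1 c hc, fun c hc => ?_⟩
  have o : (R1 s d Q 1 v).Ok := Ho.gr_ok fun j B => (hv j B).1
  have X0 : 0 ≤ X := le_trans (mul_nonneg (abs_nonneg _) (l1_nonneg _)) (hsc (D.bs c.1.1)).2
  have rid := (tanr _ _ T1 T2 D (R1 s d Q 1 v) (Sd.lt s d Q hs 1) st1 st2 0 o h1.cl.1 h2.cl.1
    (by rwa [show (fun t => (R1 s d Q 1 v).dg (Sd.lt s d Q hs 1 t)) = fun _ => 1 from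
      funext fun t => tw_dg (V := fun j w => v j (bl w)) _])).2 hI
  have hW : (Fintype.card (R1 s d Q 1 v).W : ℝ) ≤ s * #(grid (q1 d Q 1)) := by
    exact_mod_cast (Fintype.card_subtype_le _).trans_eq (by simp)
  refine (main (S := R1 s d Q 1 v) (fun w m => ?_) _ rid (fun G => (hsc G).1)
    (fun G => le_trans ?_ (hsc G).2) X0 t0 xw y c ?_ (fun c' k => ?_) fun c' k => ?_).trans ?_
  · change |if Rr w m then (1 : ℤ) else 0| ≤ 1
    split_ifs <;> simp
  · change _ * l1 (MvPolynomial.map _ (rename _ (D.mon G))) ≤ _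
    rw [map_rename]
    exact mul_le_mul_of_nonneg_left (l1_rename _ _) (abs_nonneg _)
  · have := cf_zero (fun j w => v j (bl w)) (lt_nx (n := 1) hs) hc (D.bu c.1.1) (Z := 1) (by simp)
    rw [mul_one] at this
    exact this
  · refine ite_eq_right_iff.2 fun _ => cf_zero (fun j w => v j (bl w)) (lt_nx (n := 1) hs) hc
      (D.mon c'.1.1) fun w' a => ?_
    have b : w' = c'.1.2 := mem_singleton.1 ((vars_X (R := ℤ) (n := c'.1.2)).subset a)
    exact b ▸ k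
  · have a := p1 c' k
    have b := hR (Wd.lv c'.1.2) (bl (Wd.tr c'.1.2)) (by simp [bl, k.1]) (by simpa [bl] using k.2)
    refine abs_le.2 (abs_le_of_sq_le_sq' ?_ t0)
    rw [div_pow, div_le_iff₀ (d0 _)]
    refine le_trans a ?_
    rw [mul_left_comm, mul_comm]
    exact mul_le_mul_of_nonneg_right b (sq_nonneg _)
  · gcongr

end Crest.Agent.N49.Sd

end
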