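import Crest.Agent.N49.Sd.Sp
import Crest.Agent.N49.Sd.Ogc
import Crest.Agent.N49.Sd.Kap
import Crest.Agent.N49.Sd.Masz
import Crest.Agent.N49.Sd.Sml
import Crest.Agent.N49.Sd.Relb
import Crest.Agent.N49.Md.Xq
import Crest.Agent.N49.Md.Morw

/-!
# Row 49 (helper1): the bridge from the last frame state to the end of the step
-/

set_option autoImplicit false

open Matrix MvPolynomial Finset

noncomputable section

namespace Crest.Agent.N49.Sd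

open Po Tw Br N49.Top Rm Md

namespace E2

section ball
variable {τ L : Type} [Fintype τ] [DecidableEq τ] [Fintype L] [DecidableEq L] {s d Q h h' ν n M1 : ℕ}
  {lt : τ → Fin (d + 2) × ℕ} {W : Finset (Finset τ)} {blk : τ → L} {x : L}
  {g : τ → Option (Fin d × Fin Q)} {B : Bs L} {f : Fr B.T τ L}

theorem ball (hs : 0 < s) (lay : Lay d Q lt W blk x g) (oB : B.Ok s h) (o : f.Ok s h')
    (fw : f.Fw ν n) (wf : Wf s W blk) (lm : Lm (f.SY W blk) (B.SY W blk) (ka B W blk f))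
    {Φ : B.T.C → MvPolynomial B.T.C ℝ} {xs : f.T.C → ℝ}
    {D : Tan (B.T.setΦ Φ) (f.T.scl xs) (Fin d × Fin Q)} (s1 : (B.T.setΦ Φ).Stg B.st M1)
    (e1 : (B.T.setΦ Φ).top.Φ = B.T.Φ) (s2 : (f.T.scl xs).Stg f.st f.M) (x0 : ∀ G, xs G ≠ 0)
    (ok : D.Ok (fun _ => 1) B.st f.st 0) (id : D.Id) {X R t δ : ℝ} (nb : D.Nb X)
    (xr : Xr g f.θ ν D.fam D.mon D.be) {v1 v2 : ℕ → Finset (Fin (d + 2)) → ℝ}
    (hv : ∀ j A, 0 < v1 j A ∧ 0 < v2 j A) (t0 : 0 < t)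
    (hR : ∀ j A, 0 ∉ A → 1 ∈ A → R * v2 j A ≤ t ^ 2) {H0 : Set (B.SC W → ℤ)}
    (iv : ∀ w ∈ H0, ∀ w', (∀ c, x ∉ (B.SY W blk).ty c → w' c = w c) → w' ∈ H0) {Dt : Type}
    {F : Dt → Fm L (B.SC W)} (dat : ∀ a, (B.SY W blk).Dat univ {x} (F a))
    (δ1 : (2 ^ n) ^ s * t * 2 ^ n ≤ δ)
    (δ2 : X * (s * #(grid (q1 d Q 1))) * Fintype.card f.T.C * t ≤ δ)
    (y : (f.T.scl xs).Cw (R1 s d Q 1 v2) → ℤ) {ys ys0 : f.SC W → ℤ}
    (rd : Rd lt W f.toBs v2 y ys) (ag : ∀ c, x ∉ (f.SY W blk).ty c → ys c = ys0 c)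
    (ov : ∃ w ∈ H0, ka B W blk f (TT.cf ys0) = TT.cf w)
    (rl : ∀ a, (f.SY W blk).Rel univ {x} ys0 1 (2 ^ n) fun p => F a (ka B W blk f p))
    (hq : qf (fb (f.T.scl xs) (R1 s d Q 1 v2) xw f.st (tpw _ _) y).K⁻¹
      (fun c => ((f.T.scl xs).tw (R1 s d Q 1 v2) (tpw _ _)).u (zc y) c.1) ≤ R) :
    (D.rn (Sd.lt s d Q hs 1)).kap (R1 s d Q 1 v1) y ∈ Bl0 s Q lt W x B v1 H0 F δ := by
  obtain ⟨e, a1, -, -, -, -⟩ := syk τ L s d Q h lt W blk x g B v1 lay oB fun j A => (hv j A).1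
  obtain ⟨e', -, b2, b3, b4, -⟩ := syk τ L s d Q h' lt W blk x g f.toBs v2 lay o.toOk
    fun j A => (hv j A).2
  obtain ⟨m1, m2⟩ := sml s d Q M1 f.M hs (B.T.setΦ Φ) (f.T.scl xs) B.st f.st D v1 v2 X R t y s1 s2
    ok id nb hv t0.le hR hq
  set y' : B.T.Cw (R1 s d Q 1 v1) → ℤ := (D.rn (Sd.lt s d Q hs 1)).kap (R1 s d Q 1 v1) y with hy
  have rz : Rd lt W B v1 y' fun c => y' (e.symm c).1 :=
    (a1 ℤ y' _).2 fun q => by rw [e.symm_apply_apply]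
  have kp := kap τ L s d Q h h' ν hs lt W blk x g B f
    ⟨D.fam, D.mon, D.be, D.bu, D.bs, D.nu, D.gr⟩ v1 v2 lay oB o fw.m (fun j A => (hv j A).1) xr y ys
    _ rd rz
  obtain ⟨w, hw, ew⟩ := ov
  refine ⟨_, iv w hw _ fun c hc => ?_, rz, fun a => ?_, fun c hc => ?_⟩
  · have := lm.off (ℓ := x) (p := c0 x (zc ys)) (p' := TT.cf ys0) (by
      rintro (c | ℓ) m
      · exact congrArg Int.cast (ag c m)
      · exact if_neg fun e => m (mem_singleton.2 e.symm)) (.inl c) hc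
    rw [kp, ew] at this
    exact Int.cast_injective (α := ℝ) this
  · obtain ⟨k, hk⟩ := relb L _ (f.SY W blk) x ys0 ys _ (2 ^ n) ((2 ^ n) ^ s * t)
      (Idf.sy_ok o.toOk wf) (lm.pull (dat a)) (rl a) ag (by positivity) fun c hc => by
        obtain ⟨q, rfl⟩ := e'.surjective c
        have xq := (b3 q).1 hc
        have u := m1 q.1 xq
        have e2 : ((f.T.scl xs).tw (R1 s d Q 1 v2) (tpw _ _)).u (zc y) q.1 =
            xs q.1.1.1 * (f.T.tw (R1 s d Q 1 v2) (tpw _ _)).u (zc y) q.1 := by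
          rw [Mz.tpw_scl]; exact TS.tsc_u (T := f.T) _ _
        have e3 : (f.T.scl xs).K q.1.1.1 q.1.1.1 = xs q.1.1.1 ^ 2 := by
          rw [TS.scl_K, o.old.K, one_apply_eq, mul_one, sq]
        rw [e2, e3, mul_pow, mul_left_comm] at u
        have u2 := (le_of_mul_le_mul_left u (sq_pos_of_ne_zero (x0 _))).trans
          (hR _ _ (by simpa [bl] using xq.1) (by simpa [bl] using xq.2))
        refine (congrArg abs (b4 (zc y) (zc ys) _ q fun q c m n =>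
          congrArg Int.cast (rd q c m n))).trans_le ((abs_mul _ _).trans_le (mul_le_mul ?_
            (abs_le_of_sq_le_sq' u2 t0.le |> abs_le.2) (abs_nonneg _) (by positivity)))
        rw [abs_prod]
        exact ((prod_le_prod (fun _ _ => abs_nonneg _) fun a _ => (abs_of_pos (lt_of_lt_of_le
          (by positivity) (fw.la (blk a)).1)).trans_le (fw.la _).2).trans_eq (prod_const _)).trans
          (pow_le_pow_right₀ (one_le_pow₀ one_le_two) (wf.le _ (e' q).2.2.1))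
    exact ⟨k, (congrArg (fun p => |F a p - k|) kp).symm.trans_le (hk.trans δ1)⟩
  · have e4 : tpw (B.T.setΦ Φ) (R1 s d Q 1 v1) = tpw B.T (R1 s d Q 1 v1) := funext fun F =>
      congrArg (MvPolynomial.map MvPolynomial.C)
        ((congrFun e1 F).trans (congrFun (top_Φ oB.old.ok) F).symm)
    have := m2 c hc
    rw [e4] at this
    exact this.trans δ2
end ball

variable {s d Q : ℕ}

/-- the variances of the symbol tower -/
def vk (la : Fin (d + 1) → ℝ) (_ : ℕ) (A : Finset (Fin (d + 2))) : ℝ :=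
  ((∏ i ∈ A, (Fin.cons 1 la : Fin (d + 2) → ℝ) i) ^ 2)⁻¹

theorem vk_vw (h : Lt 0 (Dk d Q) Br.gl (gW d Q)) {la : Fin (d + 1) → ℝ} (l0 : ∀ l, 0 < la l) :
    Vw Br.gl (gk (Q := Q)) Q la (vk la) := fun j t ht => by
  have e : ∏ i ∈ bl t, (Fin.cons 1 la : Fin (d + 2) → ℝ) i =
      ∏ a ∈ lw (Br.gl (Q := Q)) t, la (gk a) := by
    refine (prod_bij (fun a _ => (Br.gl a).1) (fun a m => ?_) (fun a m b k e => ?_)
      (fun i m => ?_) fun a _ => rfl).symm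
    · simp [bl, mem_lw.1 m]
    · exact gl_inj (Prod.ext e (Option.some.inj ((mem_lw.1 m).symm.trans (e ▸ mem_lw.1 k))))
    · obtain ⟨b, p, q⟩ := h.ex ht (i := i) (by simpa [bl] using m)
      exact ⟨b, p, q⟩
  rw [vk, e]
  exact inv_mul_cancel₀ (pow_pos (prod_pos fun _ _ => l0 _) 2).ne'

theorem vk_lo {la : Fin (d + 1) → ℝ} {n : ℕ} (h : ∀ l, 1 / 2 ^ n ≤ la l ∧ la l ≤ 2 ^ n) (j : ℕ)
    (A : Finset (Fin (d + 2))) : 1 / 2 ^ (n * (d + 2) * 2) ≤ vk la j A := by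
  have p : (1 : ℝ) ≤ 2 ^ n := one_le_pow₀ one_le_two
  have a : ∀ i, 0 < (Fin.cons 1 la : Fin (d + 2) → ℝ) i ∧
      (Fin.cons 1 la : Fin (d + 2) → ℝ) i ≤ 2 ^ n :=
    Fin.cases ⟨one_pos, p⟩ fun l => ⟨lt_of_lt_of_le (by positivity) (h l).1, (h l).2⟩
  rw [one_div, vk, pow_mul, pow_mul]
  refine inv_anti₀ (pow_pos (prod_pos fun i _ => (a i).1) 2) (pow_le_pow_left₀
    (prod_pos fun i _ => (a i).1).le ?_ 2)
  exact ((prod_le_prod (fun i _ => (a i).1.le) fun i _ => (a i).2).trans_eq (prod_const _)).trans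
    (pow_le_pow_right₀ p ((card_le_univ _).trans_eq (Fintype.card_fin _)))

theorem nb_mono {T1 T2 : TS Unit} {Lt : Type} {D : Tan T1 T2 Lt} {X X' : ℝ} (h : D.Nb X)
    (e : X ≤ X') : D.Nb X' :=
  let ⟨a, sc, b, c⟩ := h; ⟨a, sc, b, fun G => ⟨(c G).1, (c G).2.trans e⟩⟩

theorem gam {ε γ b : ℝ} {P : ℕ} (e0 : 0 < ε) (p : 1 ≤ P) (h : (1 + ε) ^ P ≤ γ)
    (hb : b ≤ ε / 2 / (1 + ε)) : (1 + ε / 2) ^ P ≤ γ * (1 - b) := by
  obtain ⟨P, rfl⟩ := Nat.exists_eq_add_of_le' p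
  rw [le_div_iff₀ (by positivity)] at hb
  have a : 1 + ε / 2 ≤ (1 + ε) * (1 - b) := by linarith
  have c : 0 ≤ 1 - b := by nlinarith
  refine le_trans ?_ (mul_le_mul_of_nonneg_right h c)
  rw [pow_succ, pow_succ, mul_assoc]
  exact mul_le_mul (pow_le_pow_left₀ (by positivity) (by linarith) _) a (by positivity)
    (by positivity)

theorem card_kc (T : TS Unit) (v : ℕ → Finset (Fin (d + 2)) → ℝ)
    (p : (R1 s d Q 1 v).W → Prop) [DecidablePred p] : Fintype.card (Kc T (R1 s d Q 1 v) p) ≤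
      Fintype.card T.C * (s * #(grid (q1 d Q 1))) := by
  refine (Fintype.card_subtype_le _).trans ((Fintype.card_subtype_le _).trans ?_)
  rw [Fintype.card_prod]
  refine Nat.mul_le_mul_left _ ((Fintype.card_subtype_le _).trans ?_)
  rw [Fintype.card_prod, Fintype.card_fin, Fintype.card_coe]

theorem up_un {o : Og s d} : Co.Up s 0 o.g.V.T o.g.V.π (o.g.V.T.un o.Nw) o.g.V.π :=
  Co.Up.of_D (Oc.un_stg o.h.stg o.h.wh).cl.1
    (o.h.stg.cl.1.un_D (Oc.blv o.h.stg o.h.wh) o.h.wh.e) _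

/-- the variances of the old ring -/
def vo (o : Og s d) (j : ℕ) (A : Finset (Fin (d + 2))) : ℝ :=
  if 1 ∈ A then o.g.v j A else o.g.v j A / o.cp

theorem vo_lo {o : Og s d} {ε : ℝ} (k : o.Ok ε) (j : ℕ) (A : Finset (Fin (d + 2))) :
    1 / 2 ^ o.n ≤ vo o j A := by
  have a := (k.v j A).1
  have b : 0 < o.cp := by linarith [k.cp.1]
  unfold vo
  split_ifs
  · exact a
  · exact a.trans (le_div_self (le_trans (by positivity) a) b k.cp.2)

/-- the main case -/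
theorem main {o : Og s d} {ε : ℝ} (k : o.Ok ε) (e0 : 0 < ε) (F0 : o.g.V.T.C) (m : ℕ)
    {f : o.cx.Fr} {H : Set (f.X → ℤ)} {n Y C L G N β : ℕ} (hn : o.cx.n ≤ n) (fo : f.Fo s n Y)
    (ma : MAST f.M C) (r1 : f.Rg C N (1 / 2 ^ N) (1 / 2 ^ N))
    (r2 : f.Rg 1 β (1 / 2 ^ β) (1 / 2 ^ β)) (sz : Rm.Sz n f.S H) (ov : Ov f.k H o.cx.H)
    (rl : RL d o.cx f H n) (hL : Real.exp (-L) ≤ ε / 2 / (1 + ε))
    (hG : s * #(grid (q1 d o.Q 1)) ≤ G)
    (hN : n * (d + 2) * 2 + (n + G + L + 1 + (n * s + G + 3 * n) * 2) ≤ N) :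
    Ea s d (ε / 2) ⟨o.N, m, o.A, o.α, o.g⟩ f.M N β Y := by
  have hs : 0 < s := lt_of_lt_of_le (Nat.succ_pos _) k.cx.ds
  have lay := Oc.lay o.h.ok
  have n2 : o.cx.n = 2 * o.n := rfl
  have c2 := k.cx.n2
  have Qn := k.Qn
  obtain ⟨ν, fw⟩ := fo.fw
  have l0 : ∀ l, 0 < f.la l := fun l => lt_of_lt_of_le (by positivity) (fw.la l).1
  have s0 := Oc.un_stg o.h.stg o.h.wh
  have s1 : (o.cx.B.T.setΦ (o.g.V.T.un o.Nw).Φ).Stg o.cx.B.st o.g.M := s0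
  have e1 : (o.cx.B.T.setΦ (o.g.V.T.un o.Nw).Φ).top.Φ = o.cx.B.T.Φ :=
    funext fun F : o.g.V.T.C => Oc.un_top o.h.stg o.h.wh F
  obtain ⟨γ, a1, a2, a3, a4, a5, a6, -, a8, a9⟩ := Fr.xq k.cx.ok.old s1 e1 fo.ok fo.st fw F0
    (id : Lx d o.Q → Option (Fin d × Fin o.Q))
  have k0 : ∀ j A, 1 / 2 ^ N ≤ vk f.la j A := fun j A =>
    (Un.half_le (by omega)).trans (vk_lo fw.la j A)
  set τ := n * s + G + 3 * n with hτ
  let v2 : ℕ → Finset (Fin (d + 2)) → ℝ := fun j A =>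
    if 0 ∉ A ∧ 1 ∉ A then vk f.la j A else 1 / 2 ^ N
  have k2 : ∀ j A, 1 / 2 ^ N ≤ v2 j A := fun j A => by
    simp only [v2]; split_ifs; exacts [k0 j A, le_rfl]
  have k1 : ∀ j A, 1 / 2 ^ N ≤ vo o j A := fun j A => (Un.half_le (by omega)).trans (vo_lo k j A)
  have p0 : (0 : ℝ) < 1 / 2 ^ N := by positivity
  obtain ⟨e, -, b2, b3, -, b5⟩ := syk _ _ s d o.Q _ Br.gl (Wt d o.Q) gk 0 id f.toBs (vk f.la) lay
    fo.ok.toOk fun j A => p0.trans_le (k0 j A)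
  have G2 : G ≤ 2 ^ G := Nat.lt_two_pow_self.le
  have cK : Fintype.card (Kc (f.T.scl f.θ.xs) (R1 s d o.Q 1 v2) xw) + L ≤ 2 ^ (n + G + L + 1) := by
    have a := (card_kc (f.T.scl f.θ.xs) v2 xw).trans (Nat.mul_le_mul fo.C (hG.trans G2))
    have b : L < 2 ^ L := Nat.lt_two_pow_self
    have c : 2 ^ n * 2 ^ G ≤ 2 ^ (n + G + L) := (pow_add 2 n G).ge.trans
      (Nat.pow_le_pow_right two_pos (by omega))
    have c' : 2 ^ L ≤ 2 ^ (n + G + L) := Nat.pow_le_pow_right two_pos (by omega)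
    rw [pow_succ]; omega
  have γ0 : 0 ≤ o.γ := le_trans (by positivity) k.γ.1
  refine ⟨k.α, hs, o.Q, o.g.M, f.M, o.cx.B.T.setΦ (o.g.V.T.un o.Nw).Φ, f.T.scl f.θ.xs, o.g.st,
    f.st, f.xd _ F0 id ν γ, vo o, v2, o.g.V.π, o.g.V.c,
    Bl0 s o.Q Br.gl (Wt d o.Q) 0 o.cx.B (vo o) o.cx.H o.cx.F (1 / 2 ^ n), o.γ,
    (2 ^ (n + G + L + 1) : ℕ), {z | ∃ y : Kc f.T (R1 s d o.Q 1 (vk f.la)) kw → ℤ,
      (fun c => y (e.symm c)) ∈ H ∧ z = fun c => y ⟨c.1, c.2.1⟩}, s1, a6, le_rfl, a1, a2, a3,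
    nb_mono a4 (pow_le_pow_right₀ one_le_two (by omega)), k.cs.ok.2.2,
    (up_un.trans (a9 _ k.cs.ok.2.2).2).mono (by simp), k.Q.1, by omega,
    fo.C.trans (Nat.pow_le_pow_right two_pos (by omega)), fun j B => ⟨k1 j B, k2 j B⟩,
    a8 _ _ _ _ r2, γ0, gam e0 (Nat.one_le_pow _ _ k.Q.1) k.γ.1 ((bz_le (L := L)
      (by exact_mod_cast cK) (by positivity)).trans hL),
    (ogc k e0.le (fun j A => p0.trans_le (k1 j A)) (fun _ _ _ => rfl) (Un.half_le hn)).mono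
      subset_rfl γ0 (Un.half_le (by omega)), ?_, ?_⟩
  · have := masz s d o.Q f.M C N f.T f.st f.θ.xs (vk f.la) v2 _ _ ((1 / 2) ^ n)
      {y | (fun c => y (e.symm c)) ∈ H} {z | ∃ y : Kc f.T (R1 s d o.Q 1 (vk f.la)) kw → ℤ,
        (fun c => y (e.symm c)) ∈ H ∧ z = fun c => y ⟨c.1, c.2.1⟩} ma fo.ok.old.stg r1 p0
      (div_le_one_of_le₀ (one_le_pow₀ one_le_two) (by positivity))
      (fun j A => ⟨k0 j A, p0.trans_le (k2 j A)⟩) (fun j A a b => (if_pos ⟨a, b⟩).symm) a5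
      (by omega) (by omega) (fun y hy => ⟨y, hy, rfl⟩)
      (sz.2.2.trans_eq (b5 (vk_vw lay.nm l0) H))
    rw [_root_.one_div_pow] at this
    have := Un.half_mul (a := n) (b := N) (k := 2) (x := 4) (by norm_num) (by nlinarith)
    push_cast at this
    linarith
  · rintro y ⟨y0, h0, ez⟩ hq
    refine ball (ys := fun c => y (e.symm c).1) (ys0 := fun c => y0 (e.symm c)) (t := 1 / 2 ^ τ) hs
      lay k.cx.ok fo.ok fw (Kx.wf k.cx) (morw k.cx.ok fo.ok fw (Kx.wf k.cx) fo.C).toLm s1 e1 a6 a5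
      a1 a3 a4 (xr_xd f _ F0 id ν γ) (fun j A => ⟨p0.trans_le (k1 j A), p0.trans_le (k2 j A)⟩)
      (by positivity) (fun j A _ b => ?_) (fun w hw w' a => ?_) k.cx.dat ?_ ?_ y
      (fun q c a b => ?_) (fun c hc => ?_) (ov _ h0) (rl _ h0) hq
    · simp only [v2, if_neg fun z : 0 ∉ A ∧ 1 ∉ A => z.2 b]
      rw [mul_comm, _root_.one_div_pow, ← pow_mul]
      exact Un.half_mul le_rfl (by omega)
    · have : o.h.zy w' = o.h.zy w := funext fun r => a _ fun z => by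
        simpa using (o.h.mem_ty (.inl r)).1 z
      exact (congrArg (· ∈ o.W) this).mpr hw
    · have := Un.half_mul (a := n) (b := τ) (x := (2 ^ n) ^ s * 2 ^ n) (k := n * s + n)
        (by rw [← pow_mul, ← pow_add]) (by omega)
      push_cast at this
      linarith
    · have := Un.half_mul (a := n) (b := τ) (x := 2 ^ n * (s * #(grid (q1 d o.Q 1))) *
        Fintype.card f.T.C) (k := n + G + n) (by
          rw [pow_add, pow_add]
          exact Nat.mul_le_mul (Nat.mul_le_mul_left _ (hG.trans G2)) fo.C) (by omega)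
      push_cast at this
      linarith
    · have : c = e ⟨q, a⟩ := Subtype.ext (b.trans (b2 ⟨q, a⟩).symm)
      exact congrArg (fun r : Kc f.T (R1 s d o.Q 1 (vk f.la)) kw => y r.1)
        (e.symm_apply_eq.2 this)
    · obtain ⟨q, rfl⟩ := e.surjective c
      simp only [e.symm_apply_apply]
      exact congrFun ez ⟨q.1, q.2, by_contra fun z => hc ((b3 q).2 ⟨q.2, z⟩)⟩

/-- no coordinates -/
theorem emp {o : Og s d} {ε : ℝ} (k : o.Ok ε) (e0 : 0 < ε) [IsEmpty o.g.V.T.C] (m β : ℕ)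
    {L N : ℕ} (hn : o.cx.n ≤ N) (ne : o.cx.H.Nonempty) (hL : Real.exp (-L) ≤ ε / 2 / (1 + ε)) :
    Ea s d (ε / 2) ⟨o.N, m, o.A, o.α, o.g⟩ 0 N β 0 := by
  have hs : 0 < s := lt_of_lt_of_le (Nat.succ_pos _) k.cx.ds
  have n2 : o.cx.n = 2 * o.n := rfl
  have Qn := k.Qn
  have s0 := Oc.un_stg o.h.stg o.h.wh
  have i : IsEmpty (o.g.V.T.un o.Nw).C := ‹_›
  have s1 : (o.g.V.T.un o.Nw).Stg o.g.st 0 := ⟨s0.cl, s0.tri, s0.lev, fun c => i.elim c⟩
  have k1 : ∀ j A, 1 / 2 ^ N ≤ vo o j A := fun j A => (Un.half_le (by omega)).trans (vo_lo k j A)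
  have p0 : (0 : ℝ) < 1 / 2 ^ N := by positivity
  have γ0 : 0 ≤ o.γ := le_trans (by positivity) k.γ.1
  have up : ∀ π, Co.Up s 0 o.g.V.T o.g.V.π (o.g.V.T.un o.Nw) π := fun π => by
    obtain rfl : π = o.g.V.π := funext fun c => i.elim c
    exact up_un
  have ic : ∀ p : (R1 s d o.Q 1 (vo o)).W → Prop,
      IsEmpty (Kc (o.g.V.T.un o.Nw) (R1 s d o.Q 1 (vo o)) p) := fun p => ⟨fun c => i.elim c.1.1.1⟩
  refine ⟨k.α, hs, o.Q, o.g.M, 0, o.g.V.T.un o.Nw, o.g.V.T.un o.Nw, o.g.st, o.g.st,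
    ⟨id, 0, 0, 0, id, 0, 0⟩, vo o, vo o, o.g.V.π, o.g.V.c,
    Bl0 s o.Q Br.gl (Wt d o.Q) 0 o.cx.B (vo o) o.cx.H o.cx.F (1 / 2 ^ N), o.γ, L, Set.univ, s0, s1,
    le_rfl, by constructor <;> exact fun c => i.elim c, fun c => i.elim c, fun c => i.elim c,
    ⟨rfl, 1, Matrix.ext fun c => i.elim c, fun c => i.elim c⟩, k.cs.ok.2.2,
    up _, k.Q.1, by omega, by simp,
    fun j B => ⟨k1 j B, k1 j B⟩, ⟨fun _ _ => 1 / 2 ^ β / (β + 1), fun _ => 1 / 2 ^ β / (β + 1),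
      fun t _ => ⟨by positivity, ?_, fun _ => ⟨le_rfl, ?_⟩⟩, fun t a _ b => by omega,
      fun t a => by simp at a⟩, γ0, gam e0 (Nat.one_le_pow _ _ k.Q.1) k.γ.1 ((bz_le (L := L)
      (by have := ic xw; simp) (by positivity)).trans hL),
    (ogc k e0.le (fun j A => p0.trans_le (k1 j A)) (fun _ _ _ => rfl) (Un.half_le hn)).mono
      subset_rfl γ0 (Un.half_le (by omega)), ?_, fun y _ _ => ?_⟩
  · exact div_le_one_of_le₀ ((div_le_one_of_le₀ (one_le_pow₀ one_le_two) (by positivity)).trans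
      (by simp)) (by positivity)
  · rw [pow_one, mul_div_cancel₀ _ (by positivity)]
  · have t := Rx.fb_tri (S := R1 s d o.Q 1 (vo o)) (p := zw) s1 (Rx.adm s1) (Br.tw_ok
      (V := fun j w => vo o j (bl w)) (dc_grid _) fun j t => p0.trans_le (k1 j _)) 0
    have z := Mz.zc_le t 0 fun a => funext fun c => (ic zw).elim c
    rw [Set.indicator_univ]
    refine le_trans ?_ (((one_le_div t.Zc_pos).2 z).trans_eq (TS.N_one _).symm)
    exact div_le_one_of_le₀ (one_le_pow₀ one_le_two) (by positivity)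
  · obtain ⟨w, hw⟩ := ne
    refine ⟨w, hw, fun q => i.elim q.1.1, fun a => ⟨0, ?_⟩, fun c => i.elim c.1.1⟩
    have e : o.cx.F a (c0 0 (zc w)) = o.η a (o.h.zy w) ⬝ᵥ zc (o.h.wy w) :=
      o.h.F_eq (o.η a) (P := c0 0 (zc w)) fun _ => rfl
    have z : o.η a (o.h.zy w) ⬝ᵥ zc (o.h.wy w) = 0 := sum_eq_zero fun r _ => i.elim r.1.1.1
    exact (congrArg (fun t : ℝ => |t - (0 : ℤ)|) (e.trans z)).trans_le (by simp)

theorem ea_mono {ε : ℝ} {c : Cx d} {M M' n β Y : ℕ} (e : M ≤ M') :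
    Ea s d ε c M n β Y → Ea s d ε c M' n β Y :=
  fun ⟨a0, hs, Q, M1, M2, T1, T2, st1, st2, D, v1, v2, π, x, Bl, γ, R, H, s1, s2, a1, o⟩ =>
    ⟨a0, hs, Q, M1, M2, T1, T2, st1, st2, D, v1, v2, π, x, Bl, γ, R, H, s1, s2, a1.trans e, o⟩

end E2

open E2 in
/-- **the bridge to the last state** -/
theorem endb2 (hm : ∀ M, ∃ C, MAST M C) (s d : ℕ) : ENDB s d := fun ε e0 => by
  refine ⟨ε / 2, by positivity, fun M => ?_⟩
  obtain ⟨C, hC⟩ := unif_C hm (fun _ _ _ => MAST.mono) M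
  obtain ⟨L, hL⟩ : ∃ L : ℕ, Real.exp (-L) ≤ ε / 2 / (1 + ε) := by
    obtain ⟨L, h⟩ := exists_nat_ge (ε / 2 / (1 + ε))⁻¹
    refine ⟨L, ?_⟩
    rw [Real.exp_neg]
    exact inv_le_of_inv_le₀ (by positivity) (by linarith [Real.add_one_le_exp (L : ℝ)])
  obtain ⟨e, e1, h⟩ := (show Pl fun n => n * (d + 2) * 2 + (n + s * (n + 1) ^ (d + 2) + L + 1 +
    (n * s + s * (n + 1) ^ (d + 2) + 3 * n) * 2) by pl).ge 1
  refine ⟨e, M, fun K' => ⟨(e + 1) * C + e * K' + e, ?_⟩⟩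
  rintro ⟨N, m, A, α, g⟩ n Y n2 ⟨o, ⟨rfl, rfl, rfl, rfl⟩, k, -, hn, f, H, fo, hM, rg, sz, ov, rl⟩
  have h := h n n2
  beta_reduce at h
  refine ⟨n ^ e, by omega, le_rfl, ?_⟩
  rcases isEmpty_or_nonempty o.g.V.T.C with i | ⟨⟨F0⟩⟩
  · refine mon_ea _ _ _ _ _ _ _ le_rfl (Nat.zero_le _) (ea_mono (Nat.zero_le _)
      (emp k e0 m _ (by omega) ?_ hL))
    obtain ⟨y, hy⟩ : H.Nonempty := by
      rw [Set.nonempty_iff_ne_empty]
      rintro rfl
      have := sz.2.2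
      simp only [TT.pr, Set.indicator_empty, tsum_zero, zero_div] at this
      exact this.not_gt (by positivity)
    exact let ⟨w, a, _⟩ := ov y hy; ⟨w, a⟩
  · have Qn : o.Q ≤ n := k.Qn.trans (le_trans (by omega : o.n ≤ 2 * o.n) hn)
    refine mon_ea _ _ _ _ _ _ _ ?_ ?_ (ea_mono hM (main k e0 F0 m hn fo (hC _ hM)
      (rg_of rg fo.ok.old.stg (by omega) (Un.pw_one n2 e) (by omega) (ex_le (by omega) (by omega))
        (ex_le (by omega) (by omega))) rg sz ov rl hL (Nat.mul_le_mul_left s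
      (card_grid_le (b := n) (k := d + 2) (fun i => by unfold q1; split_ifs <;> omega) (by simp))) h))
    · rw [← pow_mul]; exact Nat.pow_le_pow_right (by omega) (by omega)
    · exact le_trans (by omega) (Nat.le_self_pow (by omega) _)

end Crest.Agent.N49.Sd

end
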