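import Crest.Agent.N49.Sd.Sy0
import Crest.Agent.N49.Sw.Ent0

/-!
# Row 49 (helper29): the entry of the symmetrisation loop (`DIL` after helper60)
-/

set_option autoImplicit false

open Matrix Finset MvPolynomial

noncomputable section

namespace Crest.Agent.N49.Sd

open Po Tw Br Rm Md Sy

variable {s d : ℕ}

/-- **DIL** -/
theorem lk_dil1 (mv : ∀ M, Mv.MOVE s M) (r : ℕ) : Lk (Fs s (SP d))
    (Fs s fun c f H n => SP1 d r c f H n ∧ ∀ l, 1 ≤ f.la l) :=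
  Fs.step (fun _ _ _ _ _ e h => ⟨SP1.up r _ _ _ _ _ e h.1, h.2⟩) fun M => by
  obtain ⟨e, mv⟩ := mv M
  refine ⟨e + (2 ^ d * (r + 3) + 2 + s) + 2, Mv.mM s M, fun K' => ?_⟩
  obtain ⟨K, mv⟩ := mv K'
  refine ⟨K, ?_⟩
  rintro c f H n Y o le fo m rg z v ⟨q, P, Γ, q1, q2, k⟩
  have sb := fo.sb o le
  obtain ⟨f', ν, -, H1, a1, a2, a3, a4, a0, a5, a6, a7, a8, -⟩ := mv _ _ f.toBs _ bk 0
    (Bk.nil _ _) n 0 q H Empty Empty.elim sb m ⟨⟨(·.elim), (·.elim), (·.elim), (·.elim)⟩,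
      Nat.zero_le _, (·.elim)⟩ (Nat.zero_le _) q1 q2
    (by rw [← _root_.one_div_pow]; exact z.2.2) rg fun y _ =>
      ⟨Sum.elim (fun F A => if h : f.st F < f.M + 1 ∧ A ∈ Wt d c.Q ∧ #A = f.T.lev F then
        y ⟨(F, A), h⟩ else 0) Empty.elim, fun w => dif_pos w.2, (·.elim), (·.elim)⟩
  have n2 := z.1
  have cz : #(univ.erase 0 : Finset (Lb d)) = d := by simp
  obtain ⟨P', H', Γ', b1, b2, b3, b4, b5, b6, b7, b8⟩ := pull (x := 0) (q' := 1)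
    (Idf.sy_ok sb.ok sb.wf) (Idf.sy_ok a1.toOk sb.wf) (fun G => (a1.old.ok.toTri.lev_pos G).ne')
    sb.wf.inj (morw sb.ok a1 a4 sb.wf a5) (one_le_pow₀ one_le_two) ez_dj k.ok k.wd k.gm
    (fun a => (fo.dat o a).2) (by rw [ez_un]; exact k.rel) a7 (mem_singleton_self _) q1 le_rfl
    (a1.m 0).1 (by rw [a4.m, one_mul]; exact a0) r
  rw [cz] at b2 b3
  rw [ez_un, card_singleton, pow_one, ← pow_add] at b8
  have u := dil_num n2 e (2 ^ d * (r + 3) + 2 + s)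
  generalize n ^ (e + (2 ^ d * (r + 3) + 2 + s) + 2) = N at u ⊢
  obtain ⟨u1, u2, u3⟩ := dil_num2 u k.card
  refine ⟨f', ν, H', Idf.fr_mono fo.ok.old.ok.toTri a1 (Nat.pow_le_pow_left (by omega) _), a2.le, a3,
    a4.mono (by omega), a5.trans (Nat.pow_le_pow_right two_pos (by omega)), a6,
    fun y hy => a7 y (b1 hy), ?_, ⟨P', Γ', b3.trans u1, b4, b5, b6, b7, fun y hy a => ?_⟩,
    fun ℓ => (by simpa using (a4.la ℓ).1 : 1 ≤ f'.la ℓ)⟩
  · rw [← pow_mul] at b2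
    have := a8.trans b2
    rw [div_le_iff₀ (by positivity)] at this ⊢
    have p0 : 0 ≤ (f'.SY (Wt d c.Q) bk).pr H' := by
      by_contra h
      nlinarith [mul_pos (mul_pos (pow_pos (two_pos (α := ℝ))
        ((2 ^ d * (r + 3) + 2) * Fintype.card P.N)) (neg_pos.2 (not_le.1 h)))
        (pow_pos (two_pos (α := ℝ)) (n ^ e))]
    refine this.trans ?_
    rw [mul_comm (2 ^ _ : ℝ), mul_assoc, ← pow_add]
    exact mul_le_mul_of_nonneg_left (pow_le_pow_right₀ one_le_two u2) p0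
  · rw [Kx.Fr.cp_F o fo.ok a1]
    exact (b8 y hy a).mono (pow_le_pow_right₀ one_le_two u3)

/-- **the entry** -/
theorem entl (mv : ∀ M, Mv.MOVE s M) : ENTL s d :=
  (lk_spl.trans (lk_dil1 mv 0) (mon_fs _) (mon_fs _)).trans
    (Lk.of_imp (mon_fs _) fun _ _ _ _ _ ⟨o, e, f, H, fo, m, g, z, v, k, j⟩ =>
      ⟨o, e, f, H, fo, m, g, z, v, j, Sw.ent_pt o k⟩) (mon_fs _) (mon_fs _)

end Crest.Agent.N49.Sd

end
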