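import Crest.Agent.N49.Sd.Tl

/-!
# Row 49 (helper72): the tail of the chain ends on a frame with unit widths
-/

set_option autoImplicit false

open Matrix Finset

noncomputable section

namespace Crest.Agent.N49.Sd

open Po Tw Br Rm Md

variable {s d : ℕ}

theorem lk_mv' (mv : ∀ M, Mv.MOVE s M) {l : ℕ} (hl : l ≤ s) {P' : Pp d} (up : P'.Up)
    (h : ∀ (c : Kx d) (f : c.Fr) H n q (P1 : Bk f.T.C Unit), 1 ≤ q → q ≤ 2 ^ n →
      Mv.Pn f.toBs P1 n (l - 1) → Mv.RS f.toBs (Wt d c.Q) bk 0 P1 H q n f.F →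
      (l = 0 → Mv.RS f.toBs (Wt d c.Q) bk 0 P1 H 1 n f.F) → (∀ ℓ, 1 ≤ f.la ℓ ∧ f.la ℓ ≤ 1) →
      P' c f H n) :
    Lk (Fs s (PS d l)) (Fs s P') := Fs.step up fun M => by
  obtain ⟨e, mv⟩ := mv M
  refine ⟨e + 1, Mv.mM s M, fun K' => ?_⟩
  obtain ⟨K, mv⟩ := mv K'
  refine ⟨K, ?_⟩
  rintro c f H n Y o le fo m r z v ⟨P, q, a, b, g, k⟩
  obtain ⟨f', ν, P1, H', a1, a2, a3, a4, -, a5, a6, a7, a8, a9, b1, b2⟩ := mv _ _ f.toBs _ bk 0 P n l q H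
    _ f.F (fo.sb o le) m a hl b g (by rw [← _root_.one_div_pow]; exact z.2.2) r k
  have n2 := z.1
  have c1 : n ≤ n ^ (e + 1) := Nat.le_self_pow (by omega) _
  have c2 : n ^ e ≤ n ^ (e + 1) := Nat.pow_le_pow_right (by omega) (by omega)
  have cF := Kx.Fr.cp_F o fo.ok a1
  refine ⟨f', ν, H', Idf.fr_mono fo.ok.old.ok.toTri a1 (Nat.pow_le_pow_left (by omega) _), a2.le, a3,
    a4.mono (by omega), a5.trans (Nat.pow_le_pow_right (by omega) c2), a6, a7, (Mv.hf c2).trans a8,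
    h c (f.cp f') H' _ q P1 b (g.trans (Nat.pow_le_pow_right (by omega) c1)) (a9.mono c2 le_rfl)
      ?_ (fun l0 => ?_) fun ℓ => (by simpa using a4.la ℓ : 1 ≤ f'.la ℓ ∧ f'.la ℓ ≤ 1)⟩
  · rw [cF]; exact b1.mono subset_rfl c2
  · rw [cF]
    exact (b2 ⟨fun x => a.ok.ne x
      ((Finsupp.degree_eq_zero_iff _).1 (Nat.le_zero.1 (l0 ▸ a.lv x)))⟩).mono subset_rfl c2

/-- from the pending families to the last state, with unit widths -/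
theorem movl1 (mv : ∀ M, Mv.MOVE s M) : Lk (Fs s (PS d s))
    (Fs s fun c f H n => RL d c f H n ∧ ∀ ℓ, f.la ℓ = 1) := by
  have a : Lk (Fs s (PS d s)) (Fs s (PS d 0)) :=
    Lk.loop (A := fun l => Fs s (PS d l)) (fun _ => mon_fs _) s fun j k =>
      lk_mv mv k (PS.up j) fun c f H n q P b g p r _ => ⟨P, q, p, b, g, r⟩
  have b : Lk (Fs s (PS d 0)) (Fs s fun c f H n => RS1 d c f H n ∧ ∀ ℓ, f.la ℓ = 1) :=
    lk_mv' mv (Nat.zero_le _) (fun _ _ _ _ _ e h => ⟨RS1.up _ _ _ _ _ e h.1, h.2⟩)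
      fun c f H n q P _ _ p _ r u => ⟨⟨P, p, r rfl⟩, fun ℓ => (u ℓ).2.antisymm (u ℓ).1⟩
  have c : Lk (Fs s fun c f H n => RS1 d c f H n ∧ ∀ ℓ, f.la ℓ = 1)
      (Fs s fun c f H n => RL d c f H n ∧ ∀ ℓ, f.la ℓ = 1) := Lk.of_imp (mon_fs _) (by
    rintro c M n β Y ⟨o, e, f, H, fo, m, r, z, v, ⟨P, p, k⟩, u⟩
    exact ⟨o, e, f, H, fo, m, r, z, v, fun y hy i => by
      have := Mv.rx0 _ _ f.toBs _ bk 0 P s _ _ n 1 H _ f.F fo.ok.toOk (Kx.wf o) p k y hy i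
      exact this, u⟩)
  exact (a.trans b (mon_fs _) (mon_fs _)).trans c (mon_fs _) (mon_fs _)

/-- the same with `1 ≤ la` -/
theorem movl' (mv : ∀ M, Mv.MOVE s M) : Lk (Fs s (PS d s))
    (Fs s fun c f H n => RL d c f H n ∧ ∀ ℓ, 1 ≤ f.la ℓ) :=
  (movl1 mv).trans (Lk.of_imp (mon_fs _) fun _ _ _ _ _ ⟨o, e, f, H, fo, m, r, z, v, k, u⟩ =>
    ⟨o, e, f, H, fo, m, r, z, v, k, fun ℓ => (u ℓ).ge⟩) (mon_fs _) (mon_fs _)

end Crest.Agent.N49.Sd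

end
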