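import Crest.Agent.N49.Sd.Sy0
import Crest.Agent.N49.Sd.Tl2
import Crest.Agent.N49.Sw.Ent

/-!
# Row 49 (helper43): the symmetrisation loop
-/

set_option autoImplicit false

open Finset

noncomputable section

namespace Crest.Agent.N49.Sd

open Tw Rm Md Sw

/-- typed forms are data; the brackets only see the background -/
def DATV : Prop := ∀ (τ L : Type) [Fintype τ] [DecidableEq τ] [Fintype L] [DecidableEq L] (B : Bs L)
  (W : Finset (Finset τ)) (blk : τ → L) (x : τ) (s h : ℕ) (Bt : Bk (VV B.T.C τ) τ), B.Ok s h →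
  Wf s W blk → Al s W blk x → Tyd blk x Bt →
  (∀ p p' : B.SC W ⊕ L → ℝ, (∀ w, x ∉ w.1.2 → p (.inl w) = p' (.inl w)) →
    Bt.om (uv B W p) = Bt.om (uv B W p')) ∧
  ∀ q Γ, Tyf blk x Bt q Γ → (B.SY W blk).Dat univ {blk x} fun p => Bt.ev (uv B W p) Γ

theorem zx_id {τ L : Type} [Fintype τ] [DecidableEq τ] [Fintype L] [DecidableEq L] (B : Bs L)
    (W : Finset (Finset τ)) (p : B.SC W ⊕ L → ℝ) : Fz.zx B W W id p = p := by
  funext v
  rcases v with w | l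
  · refine sum_eq_single_of_mem w (by simp) fun w0 h k => absurd ?_ k
    rw [mem_filter, image_id] at h
    exact Subtype.ext (Prod.ext h.2.1 h.2.2)
  · rfl

/-- the brackets are split again along a frame -/
theorem rsp1 (dv : DATV) (rs : RSPL) {τ L D : Type} [Fintype τ] [DecidableEq τ] [Fintype L]
    [DecidableEq L] {B : Bs L} {W : Finset (Finset τ)} {blk : τ → L} {x : τ} {s n k : ℕ}
    {f : Fr B.T τ L} {Bt : Bk (VV B.T.C τ) τ} {Γ : D → MvPolynomial (VV B.T.C τ ⊕ Bt.N) ℝ}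
    {q : Finset L → Prop} (H : Set (f.SC W → ℤ)) (hB : B.Ok s n) (hf : f.Ok s n) (w : Wf s W blk)
    (al : Al s W blk x) (hc : Fintype.card f.T.C ≤ 2 ^ k) (t : Tyd blk x Bt)
    (hq : ∀ S S', S' ⊆ S → q S → q S')
    (g : ∀ a, Tyf blk x Bt (fun w => q (w.mapDomain blk).support) (Γ a)) :
    ∃ (B2 : Bk (VV f.T.C τ) τ) (Γ2 : D → MvPolynomial (VV f.T.C τ ⊕ B2.N) ℝ)
      (H' : Set (f.SC W → ℤ)), H' ⊆ H ∧ (f.SY W blk).pr H ≤
        (2 ^ (2 ^ s + 2) : ℝ) ^ Fintype.card Bt.N * (f.SY W blk).pr H' ∧ Tyd blk x B2 ∧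
      Fintype.card B2.N ≤ Fintype.card Bt.N * 2 ^ s ∧
      (∀ a, Tyf blk x B2 (fun w => q (w.mapDomain blk).support) (Γ2 a)) ∧
      ∀ y ∈ H', ∀ p ∈ (f.SY W blk).Fib {blk x} y, ∀ a,
        Bt.ev (uv B W (ka B W blk f p)) (Γ a) = B2.ev (uv f.toBs W p) (Γ2 a) := by
  have ci : ∀ v : τ →₀ ℕ, v.comapDomain id Function.injective_id.injOn = v := fun v => by
    ext; rfl
  obtain ⟨B2, Γ2, H', e1, e2, e3, e4, e5, e6⟩ := rs _ _ _ _ B W W blk blk id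
    Function.injective_id x s n f Bt 0 Γ q _ _ H id
    (fun y => Bt.om (uv B W (ka B W blk f (TT.cf y)))) (pg_tt (Idf.sy_ok hf.toOk w)) hB hf al al
    (fun _ => rfl) t hq (fun a => by simp only [ci]; exact g a) fun y _ a => by
      rw [zx_id, Pi.zero_apply, sub_zero]
      exact (t.bo.ok.tri.abs_le _ a).trans (by norm_num)
  refine ⟨B2, Γ2, H', e1, e2, e3, e4, e5, fun y hy p hp a => ?_⟩
  rw [← e6 y hy p hp a, zx_id, Bk.ev, Bk.lf, (dv _ _ B W blk x s n Bt hB w al t).1 _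
    (ka B W blk f (TT.cf y)) fun v hv => ?_]
  have mo := (morf _ _ B W blk f s n k hB hf w hc).toLm
  have u : Disjoint ((B.SY W blk).ty v) {blk x} := disjoint_singleton_right.2 fun h => by
    obtain ⟨a, h1, h2⟩ := mem_image.1 h
    exact hv (al.one a h2 ▸ h1)
  rcases ((B.SY W blk).ty v).eq_empty_or_nonempty with h0 | h0
  · exact mo.dead v h0 _ _ fun c' hc' => hp.1 c' (by simp [hc'])
  · refine (mo.dat v h0).1 _ _ ?_
    rintro (c' | ℓ) a _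
    · exact hp.1 c' (u.mono_left a)
    · rw [hp.2 ℓ, if_neg fun k => disjoint_left.1 u (a (by simp)) k]; rfl

variable {s d : ℕ}

/-- the context rooted at a frame -/
def Kx.Fr.rt {c : Kx d} (f : c.Fr) (H : Set (f.X → ℤ)) (G : Fin c.D → Fm (Lb d) f.X) (n : ℕ) :
    Kx d := ⟨c.Q, f.toBs, H, c.D, G, n⟩

/-- a link run from a frame -/
theorem Lk.rt {P P' : Pp d} (h : Lk (Fs s P) (Fs s P')) (M : ℕ) : ∃ e M', ∀ K', ∃ K,
    ∀ (c : Kx d) (f : c.Fr) (H : Set (f.X → ℤ)) (G : Fin c.D → Fm (Lb d) f.X) (n Y : ℕ), c.Ok s →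
    c.n ≤ n → f.Fo s n Y → f.M = M → f.Rg 1 (n ^ K) (1 / 2 ^ n ^ K) (1 / 2 ^ n ^ K) →
    Rm.Sz n f.S H → (∀ a, f.S.Dat univ {0} (G a)) → P (f.rt H G n) (f.toBs.fr _) H n →
    ∃ (f' : Md.Fr f.T (Lx d c.Q) (Lb d)) (H' : Set (f'.SC (Wt d c.Q) → ℤ)) (n' : ℕ), n ≤ n' ∧
      n' ≤ n ^ e ∧ n ≤ n ^ K ∧ f'.Ok s (n ^ K) ∧ f'.M ≤ M' ∧ f'.θ.St f.st f'.st ∧
      (∃ ν, f'.Fw ν n') ∧ Fintype.card f'.T.C ≤ 2 ^ n' ∧
      f'.Rg 1 (n' ^ K') (1 / 2 ^ n' ^ K') (1 / 2 ^ n' ^ K') ∧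
      Rm.Sz n' (f'.SY (Wt d c.Q) bk) H' ∧ Ov (ka f.toBs (Wt d c.Q) bk f') H' H ∧
      P' (f.rt H G n) f' H' n' := by
  obtain ⟨e, M', h⟩ := h M
  refine ⟨e, M', fun K' => ?_⟩
  obtain ⟨K, h⟩ := h K'
  refine ⟨2 * K + 1, fun c f H G n Y o le fo m rg z g p => ?_⟩
  have n2 := z.1
  obtain ⟨n1, b1, b2, -, -, f', H1, k, b3, b4, b5, b6, b7⟩ := h (f.rt H G n) n n n2
    ⟨⟨o.ds, n2, fo.bs, o.τ.trans le, fo.C, o.D.trans le, g⟩, le_rfl,
    f.toBs.fr _, H, ⟨(idf _ _ f.toBs _ bk s n fo.bs (Kx.wf o)).1, Md.Tan.St.id' _ _ _,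
      ⟨1, fw_id fo.bs⟩, fo.C⟩, m.le,
    Un.rg_mono fo.ok.old.stg rg (Nat.pow_le_pow_right (by omega) (by omega)), z,
    fun y hy => ⟨y, hy, Idf.ka_id _ _ _ _⟩, p⟩
  have c1 : (n + n) ^ K ≤ n ^ (2 * K + 1) := by
    refine le_trans ?_ (Nat.pow_le_pow_right (by omega) (show 2 * K ≤ _ by omega))
    rw [pow_mul]; exact Nat.pow_le_pow_left (by nlinarith) _
  exact ⟨f', H1, n1, b1, b2, Nat.le_self_pow (by omega) _,
    Idf.fr_mono fo.ok.old.ok.toTri k.ok c1, b3, k.st, k.fw, k.C, b4, b5, b6, b7⟩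

theorem pr_cut {a b : ℝ} {m A k N : ℕ} (h : (1 / 2 : ℝ) ^ m ≤ a) (e : a ≤ (2 ^ A) ^ k * b)
    (u : m + A * k ≤ N) : (1 / 2 : ℝ) ^ N ≤ b := by
  rw [← pow_mul] at e
  have p : (0 : ℝ) < 2 ^ (A * k) := by positivity
  refine le_trans (pow_le_pow_of_le_one (by norm_num) (by norm_num) u) ?_
  rw [pow_add, _root_.one_div_pow (n := A * k), mul_one_div, div_le_iff₀ p, mul_comm]
  exact h.trans e

/-- **the pending families are removed** -/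
theorem turn (dv : DATV) (rs : RSPL)
    (mv : Lk (Fs s (PS d s)) (Fs s fun c f H n => RL d c f H n ∧ ∀ l, 1 ≤ f.la l))
    {q : Finset (Lb d) → Prop} (hq : ∀ S S', S' ⊆ S → q S → q S') {O : Type 1} {ok : O → Prop}
    {cx : O → Kx d} : Stp s ok cx (ASP s d q) (AS0 d q) := fun M => by
  obtain ⟨e, M', mv⟩ := mv.rt M
  refine ⟨e + (2 ^ s + 3) + 2 + (d * d + 3), M', fun K' => ?_⟩
  obtain ⟨K, mv⟩ := mv ((e + (2 ^ s + 3) + 2 + (d * d + 3)) * K')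
  refine ⟨K, ?_⟩
  rintro c f H n Y ⟨-, o, le, fo, m, rg, z, -⟩ ⟨P, Bt, Γ, a1, a2, a3, a4, a5⟩
  generalize cx c = c at *
  have n2 := z.1
  have w := Kx.wf o
  have al : Al s (Wt d c.Q) bk none := al_gW o.ds
  have eF : ∀ G, Kx.Fr.F (c := f.rt H G n) (f.toBs.fr _) = G := fun G => by
    funext a p; exact congrArg (G a) (Idf.ka_id _ _ _ p)
  obtain ⟨f', H1, n1, b1, b2, b0, k1, b3, k2, ⟨ν, k3⟩, k4, b4, b5, b6, b7, b8⟩ := mv c f H
    (fun a p => f.F a p - Bt.ev (uv f.toBs (Wt d c.Q) p) (Γ a)) n Y o le fo m rg z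
    (fun a => (fo.dat o a).sub ((dv _ _ f.toBs _ bk none s n Bt fo.bs w al a2).2 _ _ (a4 a)))
    ⟨P, 1, a1, le_rfl, Nat.one_le_two_pow, by rw [eF]; exact a5⟩
  obtain ⟨B2, Γ2, H', e1, e2, e3, e4, e5, e6⟩ := rsp1 dv rs H1 (Idf.bs_mono fo.bs b0) k1 w al k4
    a2 hq a4
  have u := dil_num n2 e (2 ^ s + 3)
  have u' : n ^ (e + (2 ^ s + 3) + 2) ≤ n ^ (e + (2 ^ s + 3) + 2 + (d * d + 3)) :=
    Nat.pow_le_pow_right (by omega) (by omega)
  have u1 := Nat.mul_le_mul_left (2 ^ s + 2) a3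
  have u2 := Nat.mul_le_mul_right (2 ^ s) a3
  have v : ∀ {a b : ℕ}, a ≤ b → 2 ^ a ≤ 2 ^ b := Nat.pow_le_pow_right two_pos
  have r : (n ^ (e + (2 ^ s + 3) + 2 + (d * d + 3))) ^ K' ≤
      n1 ^ ((e + (2 ^ s + 3) + 2 + (d * d + 3)) * K') := by
    rw [← pow_mul]; exact Nat.pow_le_pow_left b1 _
  generalize n ^ (e + (2 ^ s + 3) + 2 + (d * d + 3)) = N at *
  have u3 : n1 + (2 ^ s + 3) * n ≤ N := by omega
  rw [add_mul] at u3
  refine ⟨f', ν, H', N, by omega, le_rfl, k1, b3, k2, k3.mono (by omega), k4.trans (v (by omega)),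
    Un.rg_mono k1.old.stg b4 r, ⟨by omega, b5.2.1.trans (v (by omega)),
      pr_cut b5.2.2 e2 (by rw [add_mul _ _ n] at u1; omega)⟩, fun y hy => b6 y (e1 hy), b8, B2, Γ2, e3,
    e4.trans (by rw [mul_comm n] at u2; omega), e5, fun y hy a => ?_⟩
  rw [fo.cp_F o k1]
  exact ((b7 y (e1 hy) a).congr fun p hp => congrArg (f.F a (ka f.toBs _ bk f' p) - ·)
    (e6 y hy p hp a).symm).mono (pow_le_pow_right₀ one_le_two (by omega))

/-- the rank of a block set -/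
def rkS {d : ℕ} (S : Finset (Lb d)) : ℕ := ∑ l ∈ S, 2 ^ (l : ℕ)

theorem rkS_mono {S S' : Finset (Lb d)} (h : S ⊆ S') : rkS S ≤ rkS S' := sum_le_sum_of_subset h

theorem rkS_inj : Function.Injective (rkS (d := d)) := fun S S' h => by
  have k : ∀ S : Finset (Lb d), rkS S = ∑ i ∈ S.map Fin.valEmbedding, 2 ^ i := fun S => by
    rw [sum_map]; rfl
  rw [k, k] at h
  exact map_injective _ (Finset.geomSum_injective le_rfl h)

theorem AS0.imp {q q' : Finset (Lb d) → Prop} (h : ∀ S, 0 ∈ S → q S → q' S) {c : Kx d} {f : c.Fr}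
    {H : Set (f.X → ℤ)} {n : ℕ} (a : AS0 d q c f H n) : AS0 d q' c f H n := by
  obtain ⟨l, Bt, Γ, a1, a2, a3, a4⟩ := a
  refine ⟨l, Bt, Γ, a1, a2, fun i => ⟨(a3 i).live, fun m hm => ?_⟩, a4⟩
  obtain ⟨b1, b2, b3⟩ := (a3 i).ty m hm
  refine ⟨b1, b2, h _ (Finsupp.mem_support_iff.2 fun k => ?_) b3⟩
  have := Et.le_md bk (Finsupp.weight (Bt.wg Prod.snd) m) none
  rw [b2] at this
  exact absurd (this.trans_eq k) (by simp)

theorem lk_imp {ε : ℝ} {P P' : Pp d} (h : ∀ c f H n, P c f H n → P' c f H n) :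
    Lk (Oa (s := s) ε (Fs s P)) (Oa ε (Fs s P')) :=
  Lk.of_imp (mon_oa (mon_fs _)) fun _ _ _ _ _ ⟨a, o, e, f, H, k, m, r, z, v, p⟩ =>
    ⟨a, o, e, f, H, k, m, r, z, v, h _ _ _ _ p⟩

theorem as_end (dv : DATV) : Lk (Fs s (AS0 d fun _ => False)) (Fs s (AP s d fun _ => False)) :=
  Lk.of_imp (mon_fs _) fun c _ n _ _ ⟨o, e, f, H, k, m, r, z, v, _, Bt, Γ, a1, a2, a3, a4⟩ =>
    ⟨o, e, f, H, k, m, r, z, v, Bk.nil _ _, Bt, Γ, Et.pn_nil _ _, a1, a2, a3,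
      Et.rs_of k.bs (Kx.wf o) (fun a => (k.dat o a).sub
        ((dv _ _ f.toBs _ bk none s n Bt k.bs (Kx.wf o) (al_gW o.ds) a1).2 _ _ (a3 a))) a4⟩

/-- **the symmetrisation link** -/
theorem syml (en : ENTL s d) (st : STEPL s d) (dv : DATV) (rs : RSPL) (mv : ∀ M, Mv.MOVE s M) :
    SYML s d := by
  refine ⟨1, one_pos, fun ε _ _ => ?_⟩
  have mo : ∀ P : Pp d, Mon (Oa (s := s) ε (Fs s P)) := fun P => mon_oa (mon_fs P)
  have lp := Lk.loop (A := fun j => Oa (s := s) ε (Fs s (AS0 d fun S => rkS S < j)))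
    (fun _ => mo _) (rkS (univ : Finset (Lb d)) + 1) fun j _ => by
      by_cases h : ∃ U : Finset (Lb d), 0 ∈ U ∧ rkS U = j
      · obtain ⟨U, h0, rfl⟩ := h
        have dn : ∀ S S' : Finset (Lb d), S' ⊆ S → rkS S < rkS U → rkS S' < rkS U :=
          fun _ _ a b => (rkS_mono a).trans_lt b
        exact (st ε _ _ U ⟨dn, fun S a => (Nat.lt_succ_iff_lt_or_eq.1 a).imp id fun b => rkS_inj b,
          fun S a => (rkS_mono a.1).lt_of_ne fun b => a.ne (rkS_inj b),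
          fun S a b => absurd (rkS_mono b) (not_le.2 a)⟩ h0).oa.trans
            (turn dv rs (movl' mv) dn).oa (mo _) (mo _)
      · exact lk_imp fun _ _ _ _ a => a.imp fun S a b =>
          (Nat.lt_succ_iff_lt_or_eq.1 b).resolve_right fun k => h ⟨S, a, k⟩
  exact (((en.oa.trans (lk_imp fun _ _ _ _ a => a.imp fun S _ _ =>
    Nat.lt_succ_of_le (rkS_mono (subset_univ S))) (mo _) (mo _)).trans lp (mo _) (mo _)).trans
      (lk_imp fun _ _ _ _ a => a.imp fun _ _ b => absurd b (Nat.not_lt_zero _)) (mo _) (mo _)).trans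
    ((as_end dv).trans Sw.ext (mon_fs _) (mon_fs _)).oa (mo _) (mo _)

end Crest.Agent.N49.Sd

end
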