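import Crest.Agent.N49.Sd.All
import Crest.Agent.N49.Sd.Endb2
import Crest.Agent.N49.Sd.Entl
import Crest.Agent.N49.Sd.Syl
import Crest.Agent.N49.Sw.Rspl
import Crest.Agent.N49.He.Hx2

/-!
# Row 49 (helper12): the row from the transitions and the step of the symmetrisation
-/

set_option autoImplicit false

namespace Crest.Agent.N49.Sd

variable {s d : ℕ}

theorem symlA (hd : d < s) (dv : DATV) (st : STEPL s d) : SYML s d :=
  syml (entl (moveU (by omega))) st dv Sw.rspl (moveU (by omega))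

/-- **the row modulo `HER`, `STEPL`, `DATV`** -/
theorem rowB (dv : DATV) (h : ∀ s d, d < s → HER s d) (st : ∀ s d, d < s → STEPL s d)
    (k : ℕ) (hk : 3 ≤ k) :
    ∃ C c ε : ℝ, 0 < C ∧ 0 < c ∧ 0 < ε ∧ ∀ N : ℕ, 2 ≤ N → ∀ A : Finset ℕ,
      A ⊆ Finset.Icc 1 N → (∀ a d : ℕ, 0 < d → ∃ i, i < k ∧ a + i * d ∉ A) →
        (A.card : ℝ) ≤ C * N * Real.exp (-(c * Real.log N ^ ε)) :=
  rowA h (fun s d hd => symlA hd dv (st s d hd)) (fun s d _ => endb2 mstA s d) k hk

end Crest.Agent.N49.Sd
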