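import Crest.Agent.N49.Sd.Al2
import Crest.Agent.N49.Sw.Datv

/-!
# Row 49 (helper12): the row from `TRN2` and `STEPL`
-/

set_option autoImplicit false

namespace Crest.Agent.N49.Sd

/-- **the row modulo `TRN2`, `STEPL`** -/
theorem rowC (h : ∀ s d, d < s → He.TRN2 s d) (st : ∀ s d, d < s → STEPL s d)
    (k : ℕ) (hk : 3 ≤ k) :
    ∃ C c ε : ℝ, 0 < C ∧ 0 < c ∧ 0 < ε ∧ ∀ N : ℕ, 2 ≤ N → ∀ A : Finset ℕ,
      A ⊆ Finset.Icc 1 N → (∀ a d : ℕ, 0 < d → ∃ i, i < k ∧ a + i * d ∉ A) →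
        (A.card : ℝ) ≤ C * N * Real.exp (-(c * Real.log N ^ ε)) :=
  rowB Sw.datv (fun s d hd => He.her2 (h s d hd)) st k hk

end Crest.Agent.N49.Sd
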