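import Crest.Agent.N49.Sd.Ed
import Crest.Agent.N49.Rf.Ext2

/-!
# Row 49 (helper70): the end of the step from the insertion
-/

set_option autoImplicit false

open Matrix MvPolynomial Finset

noncomputable section

namespace Crest.Agent.N49.Sd

open Po Tw Br N49.Top Un

theorem N_ite {U : TS Unit} (h : U.Tri) {η B x : ℝ} (m : U.Mas η) (h1 : η ≤ 1)
    {P : (U.C → ℤ) → Prop} {_ : DecidablePred P} {g : (U.C → ℤ) → ℝ}
    (hg : ∀ y, 0 ≤ g y ∧ g y ≤ B) (k : x ≤ U.N fun y => if P y then g y else 0) :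
    x / 2 ≤ U.E g := by
  have k2 := h.S_mono (f := fun y => if P y then g y else 0) (g := g)
    (.of_mem (B := B) (fun y => by split_ifs; exacts [(hg _).1, le_rfl])
      fun y => by split_ifs; exacts [(hg _).2, (hg y).1.trans (hg y).2])
    (.of_mem (fun _ => (hg _).1) fun _ => (hg _).2)
    fun y => by split_ifs; exacts [le_rfl, (hg _).1]
  have k3 := k.trans (div_le_div_of_nonneg_right k2 h.Zc_pos.le)
  have z := h.Zc_pos
  refine le_trans ?_ (div_le_div_of_nonneg_left (TS.S_nonneg fun y => (hg y).1) h.Z_pos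
    (show _ ≤ 2 * U.Zc by
      have := (abs_le.1 m).2
      nlinarith))
  rw [mul_comm 2, ← div_div]
  linarith

set_option maxHeartbeats 400000 in
theorem enda (ins : INS2) (reg : REGX) (tan : TANR) (nrm : NRM) (kwt : KWT) (pos : POS) : ENDA := by
  intro s d Q n M1 M2 C n' hs T1 T2 st1 st2 D v1 v2 π c A α Bl γ κ β R X a lam η H ms hn s1 s2 ok
    adq hid nb hπ hα hl hv ha rg h0 h1 n1 n2 hγ hκ hβ hb cell hH hB
  have a0 : 0 < a := lt_of_lt_of_le (by positivity) ha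
  have p1 : ∀ j B, 0 < v1 j B := fun j B => a0.trans_le (hv j B).1
  have p2 : ∀ j B, 0 < v2 j B := fun j B => a0.trans_le (hv j B).2
  have fb' : ∀ (V : Ctr) y, 0 ≤ fA V A α y ∧ fA V A α y ≤ 1 / α := fun V y =>
    ⟨div_nonneg (ind_nonneg _ _) hα.le, div_le_div_of_nonneg_right (ind_le _ _) hα.le⟩
  obtain ⟨Y, hY⟩ := reg s d Q n M1 M2 hs T1 T2 st1 st2 D v1 v2 (fA ⟨T1, π, c⟩ A α) Bl γ κ β R H hn
    s1 s2 (fun j B => ⟨p1 j B, p2 j B⟩) hγ hκ hβ (fun y => (fb' ⟨T1, π, c⟩ y).1) hb cell hH hB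
  have o1 : (R1 s d Q n v1).Ok := gr_ok p1
  have sz : (R1 s d Q n fun _ _ => lam).Sz n' lam := gr_sz hl (fun _ _ => le_rfl) n1 n2
  obtain ⟨ok', rid⟩ := tan _ _ T1 T2 D (R1 s d Q n v1) (lt s d Q hs n) st1 st2 0 o1 s1.cl.1 s2.cl.1
    ((show (fun _ => 1) = fun t => (R1 s d Q n v1).dg (lt s d Q hs n t) from
      funext fun t => (tw_dg (V := fun j w => v1 j (bl w)) (lt s d Q hs n t)).symm) ▸ ok)
  obtain ⟨idl, kw'⟩ := kwt s d _ (fun j w => v1 j (bl w)) (dc_grid (q1 d Q n)) fun _ _ => p1 _ _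
  have pf : ∀ z, 0 ≤ PF T1 s (q1 d Q n) v1 (fun _ => fA ⟨T1, π, c⟩ A α) z ∧
      PF T1 s (q1 d Q n) v1 (fun _ => fA ⟨T1, π, c⟩ A α) z ≤ (1 / α) ^ #(pts (q1 d Q n)) :=
    fun z => prod_le_pow _ fun _ => fb' ⟨T1, π, c⟩ _
  obtain ⟨Ψ, r, adm, -, hi⟩ := @ins Unit T1 T2 (R1 s d Q n v1) kw
    (inferInstanceAs (DecidablePred (kw (s := s) (D := grid (q1 d Q n))))) st1 st2 M1 M2
    (D.rn (lt s d Q hs n)) (T1.tw0 _) (R1 s d Q n v2).K (R1 s d Q n fun _ _ => lam).K Y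
    (fun _ => PF T1 s (q1 d Q n) v1 fun _ => fA ⟨T1, π, c⟩ A α) _ o1 (gr_ok (q := q1 d Q n) p2)
    sz.toOk idl s1 s2 ok' (fun F μ k => adq F μ fun G m z => k G m (by
      change rename _ (D.mon G) = 0
      rw [z, map_zero])) (rid hid) (s1.adm o1) (kw' T1 s1.cl.1)
    (nrm _ _ s _ (fun j w => v1 j (bl w)) (fun j w => v2 j (bl w)) T1 T2 D _ kw st1 st2 _ _ X a lam
      nb hl (fun _ _ => hv _ _) ha) fun _ z => (abs_of_nonneg (pf z).1).trans_le (pf z).2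
  obtain ⟨x, hx⟩ := pos s d Q n 0 T1 T2 st1 st2 v1 (D.rn (lt s d Q hs n)) π c A α lam r p1 s2.cl.1
    ok' hπ
  have e : (D.rn (lt s d Q hs n)).pi π = D.pi π := funext fun G =>
    congrArg (· * _) (constantCoeff_rename _ (D.mon G))
  erw [e] at hx
  refine ⟨Ψ, x, adm, ?_⟩
  have tr := TS.tw_tri (S := R1 s d Q n fun _ _ => lam) s2.cl adm sz.toOk
  have m : (T2.tw (R1 s d Q n fun _ _ => lam) Ψ).Mas η := (TS.lw_mas s2 adm sz.toOk).1
    (ms _ _ T2 _ st2 Ψ n' lam η ⟨s2, adm, h0, by linarith, rg, sz⟩)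
  have k1 := hY.trans (hi.trans_eq (TS.lw_N (S := R1 s d Q n fun _ _ => lam) s2 adm sz.toOk _))
  have k2 := N_ite tr m (by linarith) (fun y => pf _) k1
  exact (le_trans (le_of_eq (by ring)) k2).trans_eq
    (congrArg (T2.tw (R1 s d Q n fun _ _ => lam) Ψ).E (funext hx))

end Crest.Agent.N49.Sd

end
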