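import Crest.Agent.N49.Sd.Al3
import Crest.Agent.N49.St.All
import Crest.Agent.N49.Pk.All
import Crest.Agent.N49.Pk.Pk2b
import Crest.Agent.N49.He.Dnum
import Crest.Agent.N49.He.Djzi
import Crest.Agent.N49.He.Cor
import Crest.Agent.N49.He.Dfina
import Crest.Agent.N49.He.Dlam
import Crest.Agent.N49.He.Dcut
import Crest.Agent.N49.He.Dsok
import Crest.Agent.N49.He.Dbld
import Crest.Agent.N49.He.Dloc3
import Crest.Agent.N49.He.Dmom

/-!
# Row 49 (helper12): the row from the last open statements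
-/

set_option autoImplicit false

namespace Crest.Agent.N49.Sd

theorem trnD {s d : ℕ} (sta : He.STA s d) (gex : He.GEX s d) (jz : He.JZT) : He.TRN2 s d :=
  He.dnum s d (He.djzi jz s d) (He.cor He.dfina (He.ddt s d) (He.dcut s d) (He.dsok s d)
    (He.dbld s d (He.dloc3 s d)) sta (He.dmom s d (He.dloc3 s d)) gex)

theorem stepD {s d : ℕ} (wf : Wf.WITF s d) (tw : Sw.TWB) : STEPL s d :=
  St.stepA wf tw fun M => Pk.pkA (Pk.pk2A s M)

/-- **the row modulo `STA`, `GEX`, `JZT`, `WITF`, `TWB`** -/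
theorem rowD (sta : ∀ s d, He.STA s d) (gex : ∀ s d, He.GEX s d) (jz : He.JZT)
    (wf : ∀ s d, Wf.WITF s d) (tw : Sw.TWB) (k : ℕ) (hk : 3 ≤ k) :
    ∃ C c ε : ℝ, 0 < C ∧ 0 < c ∧ 0 < ε ∧ ∀ N : ℕ, 2 ≤ N → ∀ A : Finset ℕ,
      A ⊆ Finset.Icc 1 N → (∀ a d : ℕ, 0 < d → ∃ i, i < k ∧ a + i * d ∉ A) →
        (A.card : ℝ) ≤ C * N * Real.exp (-(c * Real.log N ^ ε)) :=
  rowC (fun s d _ => trnD (sta s d) (gex s d) jz) (fun s d _ => stepD (wf s d) tw) k hk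

end Crest.Agent.N49.Sd
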