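import Crest.Agent.N49.Sd.Al4
import Crest.Agent.N49.Wf.Wf
import Crest.Agent.N49.He.Dgex9
import Crest.Agent.N49.He.Dsta
import Crest.Agent.N49.He.Dsmg
import Crest.Agent.N49.He.Dwit
import Crest.Agent.N49.He.Dlft
import Crest.Agent.N49.He.Dphb
import Crest.Agent.N49.He.Dasm
import Crest.Agent.N49.He.Sok2
import Crest.Agent.N49.He.Jzt
import Crest.Agent.N49.He.Jza
import Crest.Agent.N49.He.Jphz
import Crest.Agent.N49.He.Jsgn
import Crest.Agent.N49.He.Jcvf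
import Crest.Agent.N49.He.Jemv2
import Crest.Agent.N49.He.Jdetv
import Crest.Agent.N49.He.Jbgd
import Crest.Agent.N49.He.Jsumv2
import Crest.Agent.N49.He.Jemp2

/-!
# Row 49 (helper12): the row from `BGV` and `TWB`
-/

set_option autoImplicit false

namespace Crest.Agent.N49.Sd

open He He.Ji

theorem staE (s d : ℕ) : He.STA s d :=
  dsta (dwit s d) (dcut s d) (dlft s d) (dsmg s d) (dphb s d) (dasm s d (dloc3 s d)) (dsok s d)
    (hsb s d) (mub s d)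

theorem jztE (bgv : BGV) : JZT := jzt jzA phz sgn fnh cvf emv2 detv bgv bgd sumv2 emp2

/-- **the row modulo `BGV`, `TWB`** -/
theorem rowE (bgv : BGV) (tw : Sw.TWB) (k : ℕ) (hk : 3 ≤ k) :
    ∃ C c ε : ℝ, 0 < C ∧ 0 < c ∧ 0 < ε ∧ ∀ N : ℕ, 2 ≤ N → ∀ A : Finset ℕ,
      A ⊆ Finset.Icc 1 N → (∀ a d : ℕ, 0 < d → ∃ i, i < k ∧ a + i * d ∉ A) →
        (A.card : ℝ) ≤ C * N * Real.exp (-(c * Real.log N ^ ε)) :=
  rowD staE (fun s d => dgex9 s d (dloc3 s d)) (jztE bgv) Wf.witf tw k hk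

end Crest.Agent.N49.Sd
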