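import Crest.Agent.N49.Sd.Ed

/-!
# Row 49 (helper71): the points seen from the new tower (`POS`)
-/

set_option autoImplicit false

open Matrix MvPolynomial Finset

noncomputable section

namespace Crest.Agent.N49.Sd

open Po Tw Br N49.Top Un

namespace Ps

variable {τ : Type} {S : Sh Unit τ}

theorem hom_zero (o : S.Ok) {P : MvPolynomial S.W ℤ} (h : P.IsWeightedHomogeneous S.dg 0) :
    P = C (coeff 0 P) := by
  ext m
  rw [coeff_C]
  split_ifs with e
  · rw [e]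
  · by_contra z
    have := h z
    rw [Finsupp.weight_apply, Finsupp.sum, sum_eq_zero_iff] at this
    obtain ⟨w, hw⟩ := Finsupp.support_nonempty_iff.2 (Ne.symm e)
    exact (mul_pos (Nat.pos_of_ne_zero (Finsupp.mem_support_iff.1 hw)) (o.dg_pos w)).ne' (this w hw)

theorem pw_cf (o : S.Ok) (T : TS Unit) (χ : S.W → ℤ) (y : T.Cw S → ℤ) (F : T.C) :
    T.pw S χ y F = ∑ w with S.cd w = T.deg F, χ w * S.cf ℤ w (T.Yw S y F) := by
  rw [← TS.sum_cw]
  exact sum_congr rfl fun p hp => by rw [← (mem_filter.1 hp).2, TS.cf_Yw o]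

theorem pw_L (o : S.Ok) {T1 T2 : TS Unit} (h2 : T2.Tri) {D : Tan T1 T2 S.W} {st1 : T1.C → ℕ}
    {st2 : T2.C → ℕ} {N : ℕ} (h : D.Ok S.dg st1 st2 N) (χ : S.W → ℤ) (y : T2.Cw S → ℤ) {F : T1.C}
    (e : T1.lev F = 1) : T1.pw S χ (D.L S y) F =
      ∑ G with D.fam G = F, coeff 0 (D.mon G) * T2.pw S χ y G := by
  have : T1.pw S χ (D.L S y) F = ∑ w with S.cd w = T1.deg F, χ w * S.cf ℤ w (∑ G with D.fam G = F,
      MvPolynomial.map (Int.castRingHom ℤ) (D.mon G) * T2.Yw S y G) := by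
    rw [← TS.sum_cw]
    exact sum_congr rfl fun p hp => by rw [← (mem_filter.1 hp).2]; rfl
  simp only [this, map_sum, mul_sum]
  rw [sum_comm]
  refine sum_congr rfl fun G hG => ?_
  by_cases z : D.mon G = 0
  · simp [z]
  have f := (mem_filter.1 hG).2
  have l : T2.lev G = 1 := le_antisymm (by simpa [f, e] using h.le G z) (h2.lev_pos G)
  have d : T1.deg F = T2.deg G := Finsupp.ext fun u => by
    have := e.trans l.symm
    rwa [TS.lev, TS.lev, Finsupp.degree_eq_sum, Finsupp.degree_eq_sum, Fintype.sum_unique,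
      Fintype.sum_unique] at this
  have k := hom_zero o (by simpa [f, e, l] using h.hm G)
  rw [pw_cf o, mul_sum, d]
  refine sum_congr rfl fun w _ => ?_
  conv_lhs => rw [k]
  rw [map_C, Sh.cf_C_mul]
  simp only [eq_intCast, Int.cast_id]
  ring

theorem dot_L (o : S.Ok) {T1 T2 : TS Unit} (h2 : T2.Tri) {D : Tan T1 T2 S.W} {st1 : T1.C → ℕ}
    {st2 : T2.C → ℕ} {N : ℕ} (h : D.Ok S.dg st1 st2 N) (χ : S.W → ℤ) (y : T2.Cw S → ℤ)
    {π : T1.C → ℤ} (e : ∀ F, π F ≠ 0 → T1.lev F = 1) :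
    π ⬝ᵥ T1.pw S χ (D.L S y) = D.pi π ⬝ᵥ T2.pw S χ y := by
  rw [dotProduct, dotProduct, ← sum_fiberwise (s := univ) (g := D.fam)]
  refine sum_congr rfl fun F _ => ?_
  by_cases z : π F = 0
  · rw [z, zero_mul, sum_eq_zero fun G hG => by
      rw [Tan.pi, (mem_filter.1 hG).2, z, mul_zero, zero_mul]]
  · rw [pw_L o h2 h χ y (e F z), mul_sum]
    exact sum_congr rfl fun G hG => by rw [Tan.pi, (mem_filter.1 hG).2]; ring

theorem pw_add (T : TS Unit) (χ : S.W → ℤ) (y z : T.Cw S → ℤ) :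
    T.pw S χ (y + z) = T.pw S χ y + T.pw S χ z := funext fun F => by
  simp only [TS.pw, Pi.add_apply, mul_add, sum_add_distrib]

theorem prod_q1 (d Q n : ℕ) (g : Pt (Fin (d + 2)) → ℝ) : ∏ ω ∈ pts (q1 d Q n), g ω =
    ∏ ω ∈ pts (q0 d Q n), g (Function.extend Fin.succ ω fun _ => some 0) := by
  have e : ∀ i : Fin (d + 1), q1 d Q n i.succ = q0 d Q n i := fun i => by
    have : i.succ = 1 ↔ i = 0 := (Fin.succ_injective _).eq_iff' rfl
    simp [q1, q0, this]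
  have e1 : ∀ (ω : Pt (Fin (d + 1))) (i : Fin (d + 1)),
      Function.extend Fin.succ ω (fun _ => some 0) i.succ = ω i := fun ω i =>
    (Fin.succ_injective _).extend_apply _ _ i
  have e0 : ∀ ω : Pt (Fin (d + 1)), Function.extend Fin.succ ω (fun _ => some 0) 0 = some 0 :=
    fun ω => Function.extend_apply' _ _ _ fun ⟨i, h⟩ => Fin.succ_ne_zero i h
  refine (prod_bij' (fun ω _ => Function.extend Fin.succ ω fun _ => some 0)
    (fun ω _ i => ω i.succ) (fun ω h => ?_) (fun ω h => ?_) (fun ω _ => funext (e1 ω))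
    (fun ω h => funext fun i => ?_) fun _ _ => rfl).symm
  · refine Fintype.mem_piFinset.2 fun i => Fin.cases ?_ (fun i => ?_) i
    · rw [e0]; simp [q1]
    · rw [e1, e]; exact Fintype.mem_piFinset.1 h i
  · exact Fintype.mem_piFinset.2 fun i => e i ▸ Fintype.mem_piFinset.1 h i.succ
  · refine Fin.cases ?_ (fun i => e1 _ i) i
    have := Fintype.mem_piFinset.1 h 0
    rw [e0]
    simpa [q1, eq_comm] using this

theorem fA_kap (o : S.Ok) {T1 T2 : TS Unit} (h2 : T2.Tri) {D : Tan T1 T2 S.W} {st1 : T1.C → ℕ}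
    {st2 : T2.C → ℕ} {N : ℕ} (h : D.Ok S.dg st1 st2 N) (χ : S.W → ℤ) (y : T2.Cw S → ℤ)
    {π : T1.C → ℤ} (e : ∀ F, π F ≠ 0 → T1.lev F = 1) (c : ℤ) (A : Finset ℕ) (α : ℝ)
    (r : T1.Cw S → ℤ) : fA ⟨T1, π, c⟩ A α (T1.pw S χ (r + D.kap S y)) =
      fA ⟨T2, D.pi π, c + π ⬝ᵥ T1.pw S χ (r + fun p => S.cf ℤ p.1.2 (D.be p.1.1))⟩ A α
        (T2.pw S χ y) := by
  have k : D.kap S y = (fun p => S.cf ℤ p.1.2 (D.be p.1.1)) + D.L S y := funext fun _ => rfl
  have k' : c + π ⬝ᵥ T1.pw S χ (r + D.kap S y) =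
      c + π ⬝ᵥ T1.pw S χ (r + fun p => S.cf ℤ p.1.2 (D.be p.1.1)) + D.pi π ⬝ᵥ T2.pw S χ y := by
    rw [k, ← add_assoc r, pw_add, dotProduct_add, dot_L o h2 h _ y e, add_assoc]
  exact congrArg (fun z => (zs A).indicator (1 : ℤ → ℝ) z / α) k'

end Ps

open Ps in
theorem pos : POS := fun s d Q n N T1 T2 st1 st2 v D π c A α lam r hv h2 h e => by
  refine ⟨fun ω => c + π ⬝ᵥ T1.pw (R1 s d Q n v)
    (gp s (q1 d Q n) v (Function.extend Fin.succ ω fun _ => some 0))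
    (r + fun p => (R1 s d Q n v).cf ℤ p.1.2 (D.be p.1.1)), fun y => ?_⟩
  rw [PF, prod_q1]
  refine prod_congr rfl fun ω _ => ?_
  rw [fA_kap (Un.gr_ok hv) h2 h _ y e c A α r]
  rfl

end Crest.Agent.N49.Sd

end
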