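import Crest.Agent.N49.Sd.Enda
import Crest.Agent.N49.Sd.InsA
import Crest.Agent.N49.Sd.Regx
import Crest.Agent.N49.Sd.Fibx
import Crest.Agent.N49.Sd.Tanr
import Crest.Agent.N49.Sd.Nrm
import Crest.Agent.N49.Sd.Kwt
import Crest.Agent.N49.Sd.Pos

/-!
# Row 49 (helper70): the end of the step, unconditional
-/

namespace Crest.Agent.N49.Sd

theorem endaA : ENDA := enda insA (regx fibx) tanr nrm kwt pos

end Crest.Agent.N49.Sd
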