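import Crest.Agent.N49.Sd.Sp
import Crest.Agent.N49.Br.Kzr
import Crest.Agent.N49.Top.Pl

/-!
# Row 49 (helper20): the first link of a step
-/

set_option autoImplicit false

open Finset Matrix

namespace Crest.Agent.N49.Sd

open Po Tw Br Rm Md N49.Top

namespace Ol

theorem tw {a b : ℕ} (h : a ≤ b) : (2 : ℝ) ^ a ≤ 2 ^ b := pow_le_pow_right₀ one_le_two h

theorem ball {n a b k i : ℕ} {x c : ℝ} (c0 : 0 < c) (hc : c ≤ 2 ^ i) (hx : x ≤ 1 / 2 ^ n)
    (e : a + b + i * k ≤ n) : 2 ^ a * x ≤ 1 / (2 ^ b * c ^ k) := by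
  refine (mul_le_mul_of_nonneg_left hx (by positivity)).trans ?_
  rw [mul_one_div, div_le_div_iff₀ (by positivity) (by positivity), one_mul]
  refine le_trans ?_ (tw e)
  rw [pow_add, pow_add, pow_mul, mul_assoc]
  gcongr

theorem pos_of {t x : ℝ} (h : 0 < (1 - t) * x) (k : t < 1) : 0 < x :=
  (pos_iff_pos_of_mul_pos h).1 (sub_pos.2 k)

theorem num {P : ℕ} (h : 2 ≤ P) : P ≤ P ^ 340 ∧ P ^ 74 ≤ P ^ 340 ∧ P ^ 68 ≤ P ^ 340 ∧
    (P ^ 68) ^ 2 ≤ P ^ 340 ∧ (P ^ 68) ^ 3 ≤ P ^ 340 ∧ (P ^ 68) ^ 5 = P ^ 340 ∧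
    Wt.wn (P ^ 68) ≤ 19 * P ^ 340 ∧ P ≤ P ^ 74 / 3 := by
  have k : ∀ a ≤ 340, P ^ a ≤ P ^ 340 := fun a e => Nat.pow_le_pow_right (by omega) e
  have a := k 68 (by norm_num)
  have b : (P ^ 68) ^ 2 ≤ P ^ 340 := by rw [← pow_mul]; exact k _ (by norm_num)
  have c := k 0 (by norm_num)
  refine ⟨by simpa using k 1 (by norm_num), k _ (by norm_num), a, b,
    by rw [← pow_mul]; exact k _ (by norm_num), by rw [← pow_mul], by
      unfold Wt.wn; generalize P ^ 68 = E at *; nlinarith, ?_⟩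
  have := Nat.pow_le_pow_left h 73
  rw [Nat.le_div_iff_mul_le three_pos, pow_succ']
  exact Nat.mul_le_mul_left _ (le_trans (by norm_num) this)

end Ol

open Ol

/-- **the first link** -/
theorem ogl (hm : ∀ M, ∃ C, MAST M C) {s d : ℕ} (hd : d < s) : OG s d := by
  intro ε ε0 e0 e1
  have hs : 1 ≤ s := by omega
  obtain ⟨j0, hj⟩ := s1p hm s d ε hs e0
  have m0 : 0 < min ε 1 := lt_min e0 one_pos
  set ε1 := min (min ε 1 / 2) ε0 with hε
  have p1 : 0 < ε1 := lt_min (by positivity) e1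
  obtain ⟨j1, hj1⟩ := pow_unbounded_of_one_lt (ε1⁻¹ + 16) one_lt_two
  obtain ⟨ee0, hj⟩ := hj (j0 + j1) (by omega)
  set E := ⌊ε⁻¹⌋₊
  obtain ⟨e, he, hP⟩ := (show Pl fun X => X * (X ^ (E + (j0 + j1))) ^ d +
    (d * X ^ (E + (j0 + j1)) + 1) + s * ((X ^ (E + (j0 + j1)) + 1) ^ d * 4) + X ^ E + X +
      (X ^ (E + (j0 + j1))) ^ d + X ^ (E + (j0 + j1)) by pl).ge ee0
  obtain ⟨b0, hj⟩ := hj e he
  refine ⟨ε1, p1, min_le_right _ _, fun M => ?_⟩
  obtain ⟨C, hC⟩ := unif_C hm (fun _ _ _ => MAST.mono) M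
  refine ⟨340 * e + 6, M + 1, fun K' => ⟨b0 + (e + 1) * C + (340 * e + 6) * (K' + 1),
    fun c X Y X2 hin => ?_⟩⟩
  obtain ⟨b, hb, p⟩ := hin.le X2
  obtain ⟨m2, lo, -, hM, hX, -⟩ := hin
  obtain ⟨N, m, A, α, g⟩ := c
  dsimp only at p m2 lo hM hX
  have hP := hP X X2
  beta_reduce at hP
  obtain ⟨h, W, γ, g1, g2, hW, ko⟩ := hj b (by omega) N m A α g _ _ m2 lo p rfl rfl
  have mX : m ≤ X := hX ▸ le_Xs _
  have cX : Fintype.card g.V.T.C ≤ 2 ^ X := hX ▸ card_le_Xs p.cs hs (by omega)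
  have vl : ∀ j B, 1 / 2 ^ X ^ E ≤ g.v j B := hX ▸ p.lo
  have rg : g.V.T.RgS g.st g.M 1 (X ^ b) (1 / 2 ^ X ^ b) (1 / 2 ^ X ^ b) := hX ▸ p.rg
  have jQ : 2 ^ j1 ≤ X ^ (E + (j0 + j1)) :=
    (Nat.pow_le_pow_left X2 j1).trans (Un.pw_le X2 (by omega))
  have nX : 64 * (X ^ e) ^ 340 ≤ X ^ (340 * e + 6) := by
    rw [pow_add, mul_comm 340, pow_mul, mul_comm]
    exact Nat.mul_le_mul_left _ (Nat.pow_le_pow_left X2 6)
  have r1 := rg_of (C := C) (a := 1 / 2 ^ X ^ (340 * e + 6)) (η := 1 / 2) rg p.stg (by omega)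
    (Un.pw_one X2 e) (by omega) (ex_le (by omega) (by nlinarith)) (ex_half (by omega))
  have r2 := Un.rg_mono p.stg rg (show (64 * (X ^ e) ^ 340) ^ K' ≤ X ^ b from
    (Nat.pow_le_pow_left nX _).trans (by rw [← pow_mul]; exact Un.pw_le X2 (by nlinarith)))
  revert h W
  rw [← hX] at g1 g2 ⊢
  generalize X ^ (E + (j0 + j1)) = Q at *
  generalize X ^ e = P at *
  generalize X ^ (340 * e + 6) = Z at *
  intro h W hW ko
  have Q1 : 1 ≤ Q := Nat.one_le_two_pow.trans jQ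
  have P2 : 2 ≤ P := by omega
  obtain ⟨n1, n2, n3, n4, n5, n6, n7, n8⟩ := num P2
  have cI : Fintype.card (gS s g Q).I + 2 ≤ 2 ^ (3 * P) := by
    have a := (gS s g Q).card_I
    change _ ≤ Fintype.card g.V.T.C * (s * (#(zq (0 : Fin (d + 2)) 1 fun _ => Q) * 4)) at a
    rw [card_zq] at a
    have b : 2 ^ X ≤ 2 ^ P := Nat.pow_le_pow_right two_pos (by omega)
    have c : P < 2 ^ P := Nat.lt_two_pow_self
    have := a.trans (Nat.mul_le_mul (cX.trans b) (show _ ≤ P by omega))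
    rw [mul_comm, pow_mul]; nlinarith [Nat.mul_le_mul c.le c.le, Nat.mul_le_mul P2 c.le]
  have cI' : (Fintype.card (gS s g Q).I : ℝ) + 2 ≤ 2 ^ (3 * P) := by exact_mod_cast cI
  have c0 : (0 : ℝ) < Fintype.card (gS s g Q).I + 2 := by positivity
  have a0 : 0 < α := lt_of_lt_of_le (by positivity) lo
  have mq : m * Q ^ d ≤ P := (Nat.mul_le_mul_right _ mX).trans (by omega)
  have av : ∀ k ≤ 32 * P ^ 340, ∀ j B, (1 / 2 ^ Z : ℝ) * 2 ^ k ≤ g.v j B := fun k e j B => by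
    have := Un.half_mul (a := X ^ E) (b := Z) (le_refl (2 ^ k)) (by omega)
    push_cast at this
    exact this.trans (vl j B)
  have w0 := Kg.cw_pos (I := (gS s g Q).I)
  have w1 := Kg.cw_le (I := (gS s g Q).I)
  have l0 := cL_pos (gS s g Q).I
  have l1 := cL_le (gS s g Q).I
  have a1 : ∀ j B, (1 / 2 ^ Z : ℝ) ≤ g.v j B := fun j B => by simpa using av 0 (by omega) j B
  obtain ⟨k, η, W', sb, hk, hW', kz⟩ := h.kz (P := P) (fun z a η => ⟨prod_nonneg fun _ _ =>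
      fA_nonneg a0.le _, (prod_le_prod (fun _ _ => fA_nonneg a0.le _) fun _ _ => fA_le lo _).trans (by
        rw [prod_const, ← pow_mul]
        exact tw ((Nat.mul_le_mul_left m (card_zp d Q)).trans mq))⟩) P2 rfl
    (cI'.trans (tw (by omega))) ((r1.sh_mas (hC _ hM) p.stg (by norm_num) (by norm_num)
      (szb _ _ h 1 1 G1 _ _ _ P (by positivity) (by positivity) (by positivity) (by omega)
        (le_trans (by rw [show #(gS s g Q).Z = (Q + 1) ^ d from card_zq d Q]; rfl)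
          (show s * ((Q + 1) ^ d * 4) ≤ P by omega)) fun j t => ⟨a1 _ _, a1 _ _,
          (mul_le_of_le_one_right (by positivity) (mul_le_one₀ w1 l0.le l1)).trans (a1 _ _),
          av _ (by omega) _ _⟩)).mono (by norm_num)) W hW ko
  obtain ⟨Nw, ρ, gc, ρ1, ρ2⟩ := exists_gc (c := 2 ^ (32 * P ^ 340)) p hs h (by positivity)
  rw [← hX] at ρ1
  have hf : ∀ {a}, a ≤ 32 * P ^ 340 → (1 : ℝ) / 2 ^ (32 * P ^ 340) ≤ 1 / 2 ^ a := Un.half_le
  have sG : s * ((Q + 1) ^ d * 2) ≤ P := le_trans (by gcongr; norm_num)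
    (show s * ((Q + 1) ^ d * 4) ≤ P by omega)
  let o : Og s d := ⟨g, Q, 32 * P ^ 340, Nw, ρ, gc, N, A, α, cL (gS s g Q).I,
    (1 - 16 / 2 ^ (j0 + j1)) * γ, W', k, η⟩
  have ok : o.cx.Ok s := ⟨hd, show 2 ≤ 2 * (32 * P ^ 340) by omega,
    gc.bs ((Un.half_le (show X ^ E ≤ 2 * (32 * P ^ 340) by omega)).trans ρ1) ρ2
      (one_le_pow₀ one_le_two) (tw (show 32 * P ^ 340 ≤ 2 * (32 * P ^ 340) by omega)),
    card_Gt.trans_le (show d * Q + 1 ≤ 2 * (32 * P ^ 340) by omega),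
    cX.trans (Nat.pow_le_pow_right two_pos (show X ≤ 2 * (32 * P ^ 340) by omega)),
    show k ≤ 2 * (32 * P ^ 340) by omega, fun a => gc.F_dat _⟩
  have on : o.n = 32 * P ^ 340 := rfl
  have gp : (1 : ℝ) ≤ (1 - 16 / 2 ^ (j0 + j1)) * γ := (one_le_pow₀ (by linarith)).trans g1
  have sx : (0 : ℝ) < 16 / 2 ^ (j0 + j1) := by positivity
  refine ⟨64 * P ^ 340, by omega, nX, o, ⟨rfl, rfl, rfl, rfl⟩, ⟨ok, p.cs,
    ⟨Q1, le_trans (by linarith) (hj1.le.trans (by exact_mod_cast jQ))⟩, a0,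
    ⟨(hf (show X ^ E ≤ _ by omega)).trans ρ1, ρ2⟩,
    fun j B => ⟨(hf (by omega)).trans (vl j B), p.hi j B⟩,
    ⟨2 ^ m, one_le_pow₀ one_le_two,
      (pow_mul _ _ _).ge.trans (tw (show m * Q ^ d ≤ 32 * P ^ 340 by omega)),
      tw (show _ ≤ 32 * P ^ 340 by omega), fun y => ⟨fA_nonneg a0.le y, fA_le lo y⟩⟩,
    (Nat.pow_le_pow_left cI 2).trans ((pow_mul _ _ _).ge.trans
      (Nat.pow_le_pow_right two_pos (show _ ≤ 32 * P ^ 340 by omega))),
    ⟨le_trans (by norm_num) (cL_ge _), l1⟩,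
    ⟨(pow_le_pow_left₀ (by positivity) (by linarith [min_le_left (min ε 1 / 2) ε0]) _).trans g1, ?_⟩,
    ⟨2 ^ P ^ 74, one_le_pow₀ one_le_two, tw (show _ ≤ 32 * P ^ 340 by omega), fun z hz => ?_⟩,
    fun z hz a σ hσ sh => ?_, fun z hz => (kz z hz).1.trans (tw (show _ ≤ 32 * P ^ 340 by omega)),
    fun z hz => ?_, show Q ≤ 32 * P ^ 340 by omega⟩, ok, show 2 * (32 * P ^ 340) = _ by omega,
    max_le (hM.trans M.le_succ) (by omega),
    gc.rg r2, by omega, gc.card.trans ?_, le_trans ?_ (gc.pr (gc.mas (hC _ hM) r1 (by norm_num)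
      (by norm_num) (by omega) sG (one_le_pow₀ one_le_two) (av _ le_rfl)) W')⟩
  · have t : 16 / 2 ^ (j0 + j1) < (1 : ℝ) := (div_lt_one (by positivity)).2
      (lt_of_lt_of_le (by linarith [inv_pos.2 p1]) (tw (Nat.le_add_left j1 j0)))
    exact ((mul_le_of_le_one_left (pos_of (one_pos.trans_le gp) t).le
      (by linarith)).trans g2).trans (tw (show Q ^ d ≤ 32 * P ^ 340 by omega))
  · obtain ⟨S, u, v⟩ := (kz z hz).2.2.2
    exact ⟨(ko z (sb hz)).1, S, (hf (by omega)).trans u, fun a q hq =>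
      (hf (by omega)).trans (v a q hq)⟩
  · have := (kz z hz).2.2.1 a _ σ id hσ.1 hσ.2.summable fun i hi => by
      rw [qf_smul]
      exact (ball (k := 1) c0 cI' (sh i hi) (show P ^ 74 + 5 * (P ^ 68) ^ 5 + 3 * P * 1 ≤ _ by
        omega)).trans_eq (by rw [pow_one])
    rw [hσ.2.tsum_eq, mul_one] at this
    exact (hf (by omega)).trans this
  · obtain ⟨r, r0, r1, r2⟩ := (kz z hz).2.1
    refine ⟨r, r0, fun q => le_trans ?_ (gz_le_gd (h.lin z).1 (one_le_pow₀ one_le_two)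
      (ko z (sb hz)).1 _ q), fun x u v => r2 x ⟨fun a => ?_, ?_⟩⟩
    · refine (mul_le_mul (hf (show 4 * (P ^ 68) ^ 5 + 1 ≤ _ by omega)) (r1 q) (r0.1 q)
        (by positivity)).trans ?_
      rw [← mul_assoc]
      refine mul_le_mul_of_nonneg_right ?_ (Kg.gz_nonneg _ _ _)
      rw [pow_succ, one_div_mul_eq_div, div_le_iff₀ (by positivity)]
      nlinarith [pow_pos (two_pos (α := ℝ)) (4 * (P ^ 68) ^ 5)]
    · simpa using ball (a := 0) (k := 1) c0 cI' (u a) (show 0 + 8 * (P ^ 68) ^ 2 + 3 * P * 1 ≤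
        32 * P ^ 340 by omega)
    · rw [qf_smul]
      exact ball c0 cI' v (show P ^ 74 + 17 * (P ^ 68) ^ 2 + 3 * P * 3 ≤ 32 * P ^ 340 by omega)
  · refine (Nat.mul_le_mul cX (sG.trans Nat.lt_two_pow_self.le)).trans ?_
    rw [← pow_add]
    exact Nat.pow_le_pow_right two_pos (by omega)
  · rw [_root_.one_div_pow, le_div_iff₀ two_pos]
    have := Un.half_mul (a := (P ^ 68) ^ 3) (b := 64 * P ^ 340) (le_refl (2 ^ 1)) (by omega)
    push_cast at this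
    exact this.trans hW'

end Crest.Agent.N49.Sd
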