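import Crest.Agent.N49.Sd.Fk
import Crest.Agent.N49.Mv.Move
import Crest.Agent.N49.Mv.Abs
import Crest.Agent.N49.Mv.Rx0

/-!
# Row 49 (helper72): links between frame states; the tail of the chain
-/

set_option autoImplicit false

open Matrix Finset

noncomputable section

namespace Crest.Agent.N49.Sd

open Po Tw Br Rm Md

variable {s d : ℕ}

/-- properties that allow a larger size -/
def Pp.Up (P : Pp d) : Prop := ∀ c f H n n', n ≤ n' → P c f H n → P c f H n'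

theorem Kx.Fr.Fo.mon2 {c : Kx d} {f : c.Fr} {n n' Y Y' : ℕ} (fo : f.Fo s n Y) (o : c.Ok s)
    (e : n ≤ n') (e' : Y ≤ Y') : f.Fo s n' Y' :=
  ⟨Idf.fr_mono o.ok.old.ok.toTri fo.ok e', fo.st, fo.fw.imp fun _ h => h.mono e,
    fo.C.trans (Nat.pow_le_pow_right (by omega) e)⟩

theorem sz_mono {L C : Type} [Fintype L] [DecidableEq L] [Fintype C] [DecidableEq C] {T : TT L C}
    {H : Set (C → ℤ)} {n n' : ℕ} (h : Rm.Sz n T H) (e : n ≤ n') : Rm.Sz n' T H :=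
  ⟨h.1.trans e, h.2.1.trans (Nat.pow_le_pow_right (by omega) e),
    (pow_le_pow_of_le_one (by norm_num) (by norm_num) e).trans h.2.2⟩

/-- **links that keep the frame and shrink the set** -/
theorem Fs.same {P P' : Pp d} (e : ℕ) (up : P'.Up)
    (h : ∀ (c : Kx d) (f : c.Fr) H n Y, c.Ok s → c.n ≤ n → f.Fo s n Y → Rm.Sz n f.S H →
      Ov f.k H c.H → P c f H n → ∃ H' ⊆ H, 1 / 2 ^ n ^ e ≤ f.S.pr H' ∧ P' c f H' (n ^ e)) :
    Lk (Fs s P) (Fs s P') := fun M => ⟨e + 1, M, fun K' => ⟨(e + 1) * K' + 1, by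
  rintro c n Y h2 ⟨o, le, f, H, fo, m, r, z, v, p⟩
  obtain ⟨H', s1, s2, s3⟩ := h c f H n Y o le fo z v p
  have a : n ≤ n ^ (e + 1) := Nat.le_self_pow (by omega) _
  have b : n ^ e ≤ n ^ (e + 1) := Nat.pow_le_pow_right (by omega) (by omega)
  refine ⟨n ^ (e + 1), a, le_rfl, o, le.trans a, f, H',
    fo.mon2 o a ((by omega : Y ≤ n + Y).trans (Nat.le_self_pow (by omega) _)), m,
    Mv.rg_dn fo.ok.old r le_rfl ?_, ⟨by omega, (sz_mono z a).2.1, ?_⟩,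
    fun y k => v y (s1 k), up _ _ _ _ _ b s3⟩
  · rw [← pow_mul]; exact Nat.pow_le_pow_right (by omega) (by omega)
  · rw [_root_.one_div_pow]; exact (Mv.hf b).trans s2⟩⟩

theorem Kx.Fr.cp_k {c : Kx d} {f : c.Fr} {f' : Md.Fr f.T (Lx d c.Q) (Lb d)} {h h' : ℕ}
    (o : c.Ok s) (a : f.Ok s h) (b : f'.Ok s h') (p : (f.cp f').X ⊕ Lb d → ℝ) :
    (f.cp f').k p = f.k (ka f.toBs (Wt d c.Q) bk f' p) :=
  (Md.comp' tcmp cot _ _ c.B _ bk f f' s _ _ _ o.ok a b (Kx.wf o)).2 p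

theorem Kx.Fr.cp_F {c : Kx d} {f : c.Fr} {f' : Md.Fr f.T (Lx d c.Q) (Lb d)} {h h' : ℕ}
    (o : c.Ok s) (a : f.Ok s h) (b : f'.Ok s h') :
    (f.cp f').F = fun i p => f.F i (ka f.toBs (Wt d c.Q) bk f' p) :=
  funext fun i => funext fun p => congrArg (c.F i) (Kx.Fr.cp_k o a b p)

/-- **links that refine the frame** -/
theorem Fs.step {P P' : Pp d} (up : P'.Up) (h : ∀ M, ∃ e M', ∀ K', ∃ K, ∀ (c : Kx d) (f : c.Fr) H n
    Y, c.Ok s → c.n ≤ n → f.Fo s n Y → f.M = M → f.Rg 1 (n ^ K) (1 / 2 ^ n ^ K) (1 / 2 ^ n ^ K) →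
    Rm.Sz n f.S H → Ov f.k H c.H → P c f H n →
    ∃ (f' : Md.Fr f.T (Lx d c.Q) (Lb d)) (ν : ℕ) (H' : Set (f'.SC (Wt d c.Q) → ℤ)),
      f'.Ok s ((n + Y) ^ K) ∧ f'.M ≤ M' ∧ f'.θ.St f.st f'.st ∧ f'.Fw ν (n ^ e) ∧
      Fintype.card f'.T.C ≤ 2 ^ n ^ e ∧ f'.Rg 1 (n ^ K') (1 / 2 ^ n ^ K') (1 / 2 ^ n ^ K') ∧
      Ov (ka f.toBs (Wt d c.Q) bk f') H' H ∧ 1 / 2 ^ n ^ e ≤ (f'.SY (Wt d c.Q) bk).pr H' ∧
      P' c (f.cp f') H' (n ^ e)) : Lk (Fs s P) (Fs s P') := fun M0 => by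
  choose e M' h using h
  choose K h using h
  obtain ⟨E, hE⟩ : ∃ E, ∀ M ≤ M0, e M ≤ E :=
    ⟨(range (M0 + 1)).sup e, fun M k => le_sup (f := e) (mem_range.2 (by omega))⟩
  obtain ⟨M1, hM⟩ : ∃ E, ∀ M ≤ M0, M' M ≤ E :=
    ⟨(range (M0 + 1)).sup M', fun M k => le_sup (f := M') (mem_range.2 (by omega))⟩
  refine ⟨E + 2, M1, fun K' => ?_⟩
  obtain ⟨K0, hK⟩ : ∃ K0, ∀ M ≤ M0, K M ((E + 2) * K') ≤ K0 :=
    ⟨(range (M0 + 1)).sup fun M => K M ((E + 2) * K'), fun M k =>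
      le_sup (f := fun M => K M ((E + 2) * K')) (mem_range.2 (by omega))⟩
  refine ⟨s + 1 + (K0 + 3) * 2, ?_⟩
  rintro c n Y h2 ⟨o, le, f, H, fo, m, r, z, v, p⟩
  have k1 := hK _ m
  have k2 := hE _ m
  obtain ⟨f', ν, H', a1, a2, a3, a4, a5, a6, a7, a8, a9⟩ := h f.M ((E + 2) * K') c f H n Y o le fo rfl
    (Mv.rg_dn fo.ok.old r le_rfl (Nat.pow_le_pow_right (by omega) (by omega))) z v p
  obtain ⟨ν0, w⟩ := fo.fw
  have b1 : n ≤ n ^ (E + 1) := Nat.le_self_pow (by omega) _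
  have b2 : n ^ e f.M ≤ n ^ (E + 1) := Nat.pow_le_pow_right (by omega) (by omega)
  have b3 : n ^ (E + 1) * 2 ≤ n ^ (E + 2) := by rw [pow_succ n (E + 1)]; gcongr
  have b4 : n ^ e f.M ≤ n ^ (E + 2) := by omega
  have cm := Md.comp' tcmp cot _ _ c.B _ bk f f' s _ _ _ o.ok fo.ok a1 (Kx.wf o)
  refine ⟨n ^ (E + 2), by omega, le_rfl, o, by omega, f.cp f', H',
    ⟨Idf.fr_mono o.ok.old.ok.toTri cm.1 ?_, stc _ _ _ _ _ _ _ _ _ _ _ fo.ok.θ fo.st a3,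
      ⟨_, (w.comp a4 a1.θ bk).mono (by omega)⟩, a5.trans (Nat.pow_le_pow_right (by omega) b4)⟩,
    a2.trans (hM _ m), by rw [← pow_mul]; exact a6, ⟨by omega, (Mv.card_SC _ _).trans ?_, ?_⟩,
    fun y k => ?_, up _ _ _ _ _ b4 a9⟩
  · have c1 : n + Y ≤ (n + Y) ^ (K0 + 1) := Nat.le_self_pow (by omega) _
    have c2 : (n + Y) ^ K f.M ((E + 2) * K') ≤ (n + Y) ^ (K0 + 1) :=
      Nat.pow_le_pow_right (by omega) (by omega)
    have c3 : (n + Y) ^ (K0 + 1) * 2 ^ 2 ≤ (n + Y) ^ (K0 + 3) := by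
      rw [pow_add (n + Y) (K0 + 1) 2]; gcongr; omega
    have c4 : s + 1 ≤ (n + Y) ^ (s + 1) :=
      Nat.lt_two_pow_self.le.trans (Nat.pow_le_pow_left (by omega) _)
    rw [pow_add, pow_mul]
    gcongr
    omega
  · have := o.τ
    calc _ ≤ 2 ^ n ^ e f.M * 2 ^ n := Nat.mul_le_mul a5 (Nat.pow_le_pow_right (by omega) (by omega))
      _ ≤ _ := by rw [← pow_add]; exact Nat.pow_le_pow_right (by omega) (by omega)
  · rw [_root_.one_div_pow]; exact (Mv.hf b4).trans a8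
  · obtain ⟨y1, k1, e1⟩ := a7 y k
    obtain ⟨y2, k2, e2⟩ := v y1 k1
    exact ⟨y2, k2, (cm.2 _).trans ((congrArg f.k e1).trans e2)⟩

/-- no pending family, no denominator -/
def RS1 (d : ℕ) : Pp d := fun c f H n => ∃ P : Bk f.T.C Unit,
  Mv.Pn f.toBs P n 0 ∧ Mv.RS f.toBs (Wt d c.Q) bk 0 P H 1 n f.F

theorem PS.up (l : ℕ) : (PS d l).Up := fun _ _ _ _ _ e ⟨P, q, a, b, c, k⟩ =>
  ⟨P, q, a.mono e le_rfl, b, c.trans (Nat.pow_le_pow_right (by omega) e), k.mono subset_rfl e⟩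

theorem RS1.up : (RS1 d).Up := fun _ _ _ _ _ e ⟨P, a, k⟩ =>
  ⟨P, a.mono e le_rfl, k.mono subset_rfl e⟩

/-- **absorption** -/
theorem absl : ABSL s d :=
  Fs.same (2 * s + 3) (PS.up s) fun c f H n Y o le fo z _ ⟨P, q, Pi, a, b, e, g, k⟩ => by
    have h : n ≤ n ^ (2 * s + 3) := Nat.le_self_pow (by omega) _
    obtain ⟨P', p1, p2⟩ := Mv.abs _ _ f.toBs _ bk 0 P s n q H _ f.F Pi (fo.sb o le) a
      ((Fintype.card_fin _).trans_le (o.D.trans le)) b g k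
    exact ⟨H, subset_rfl, by rw [← _root_.one_div_pow]; exact (sz_mono z h).2.2, P', q, p1, b,
      e.trans (Nat.pow_le_pow_right (by omega) h), p2⟩

theorem lk_mv (mv : ∀ M, Mv.MOVE s M) {l : ℕ} (hl : l ≤ s) {P' : Pp d} (up : P'.Up)
    (h : ∀ (c : Kx d) (f : c.Fr) H n q (P1 : Bk f.T.C Unit), 1 ≤ q → q ≤ 2 ^ n →
      Mv.Pn f.toBs P1 n (l - 1) → Mv.RS f.toBs (Wt d c.Q) bk 0 P1 H q n f.F →
      (l = 0 → Mv.RS f.toBs (Wt d c.Q) bk 0 P1 H 1 n f.F) → P' c f H n) :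
    Lk (Fs s (PS d l)) (Fs s P') := Fs.step up fun M => by
  obtain ⟨e, mv⟩ := mv M
  refine ⟨e + 1, Mv.mM s M, fun K' => ?_⟩
  obtain ⟨K, mv⟩ := mv K'
  refine ⟨K, ?_⟩
  rintro c f H n Y o le fo m r z v ⟨P, q, a, b, g, k⟩
  obtain ⟨f', ν, P1, H', a1, a2, a3, a4, -, a5, a6, a7, a8, a9, b1, b2⟩ := mv _ _ f.toBs _ bk 0 P n l q H
    _ f.F (fo.sb o le) m a hl b g (by rw [← _root_.one_div_pow]; exact z.2.2) r k
  have n2 := z.1
  have c1 : n ≤ n ^ (e + 1) := Nat.le_self_pow (by omega) _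
  have c2 : n ^ e ≤ n ^ (e + 1) := Nat.pow_le_pow_right (by omega) (by omega)
  have cF := Kx.Fr.cp_F o fo.ok a1
  refine ⟨f', ν, H', Idf.fr_mono fo.ok.old.ok.toTri a1 (Nat.pow_le_pow_left (by omega) _), a2.le, a3,
    a4.mono (by omega), a5.trans (Nat.pow_le_pow_right (by omega) c2), a6, a7, (Mv.hf c2).trans a8,
    h c (f.cp f') H' _ q P1 b (g.trans (Nat.pow_le_pow_right (by omega) c1)) (a9.mono c2 le_rfl)
      ?_ fun l0 => ?_⟩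
  · rw [cF]; exact b1.mono subset_rfl c2
  · rw [cF]
    exact (b2 ⟨fun x => a.ok.ne x
      ((Finsupp.degree_eq_zero_iff _).1 (Nat.le_zero.1 (l0 ▸ a.lv x)))⟩).mono subset_rfl c2

/-- from the pending families to the last state -/
theorem movl (mv : ∀ M, Mv.MOVE s M) : MOVL s d := by
  have a : Lk (Fs s (PS d s)) (Fs s (PS d 0)) :=
    Lk.loop (A := fun l => Fs s (PS d l)) (fun _ => mon_fs _) s fun j k =>
      lk_mv mv k (PS.up j) fun c f H n q P b g p r _ => ⟨P, q, p, b, g, r⟩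
  have b : Lk (Fs s (PS d 0)) (Fs s (RS1 d)) :=
    lk_mv mv (Nat.zero_le _) RS1.up fun c f H n q P _ _ p _ r => ⟨P, p, r rfl⟩
  have c : Lk (Fs s (RS1 d)) (Fs s (RL d)) := Lk.of_imp (mon_fs _) (by
    rintro c M n β Y ⟨o, e, f, H, fo, m, r, z, v, P, p, k⟩
    exact ⟨o, e, f, H, fo, m, r, z, v, fun y hy i => by
      have := Mv.rx0 _ _ f.toBs _ bk 0 P s _ _ n 1 H _ f.F fo.ok.toOk (Kx.wf o) p k y hy i
      exact this⟩)
  exact (a.trans b (mon_fs _) (mon_fs _)).trans c (mon_fs _) (mon_fs _)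

end Crest.Agent.N49.Sd

end
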