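import Crest.Agent.N49.Sd.Sp
import Crest.Agent.N49.Sd.Stt
import Crest.Agent.N49.Md.Tpc
import Crest.Agent.N49.Md.Fw2
import Crest.Agent.N49.Md.Tfb

/-! # Row 49 (helper35): the link TOP -/

set_option autoImplicit false
set_option linter.unusedSectionVars false

open Finset

noncomputable section

namespace Crest.Agent.N49.Sd

open Tw Br Rm Md Sy

/-- hereditary rectangles of a context -/
def Hr (s c k0 S h M β : ℕ) {d : ℕ} (x : Kx d) : Prop :=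
  ∀ (C' : Type) [Fintype C'] [DecidableEq C'] (T' : TT (Lb d) C') ι (k : ℕ),
    Ref S x.SY k C' T' ι → k ≤ k0 → ∀ (H1 : Set (C' → ℤ)) (n1 a1 a2 : ℕ) (j : Lb d), j ≠ 0 →
    Ov ι H1 x.H → x.n ≤ n1 → k ≤ n1 → Rm.Sz n1 T' H1 → n1 ^ c ≤ a1 → a1 ≤ a2 →
    (n1 + a2) ^ c ≤ S + 1 → GG ((n1 + a2) ^ c) T' ((Xf x.B (Wt d x.Q) bk s k0 h M 1 β).push ι k) →
    (1 / 2 : ℝ) ^ (n1 ^ c) ≤ T'.RM0 univ {0} j H1 1 (2 ^ (n1 ^ c)) (fun _ a p => x.F a (ι p)) a1 a2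

/-- **HER**: the contexts of the origins have hereditary rectangles -/
def HER (s d : ℕ) : Prop := ∃ c : ℕ, 1 ≤ c ∧ ∀ k0 Kt : ℕ, ∃ ε0 : ℝ, 0 < ε0 ∧ ∀ M0 E M1 : ℕ,
  ∃ KH : ℕ, ∀ (ε : ℝ) (o : Og s d), 0 < ε → ε ≤ ε0 → o.Ok ε → o.cx.B.M ≤ M0 →
    o.cx.B.Rg 1 (o.cx.n ^ KH) (1 / 2 ^ o.cx.n ^ KH) (1 / 2 ^ o.cx.n ^ KH) →
    Hr s c k0 (o.cx.n ^ Kt) (o.cx.n ^ E) M1 (o.cx.n ^ KH) o.cx

namespace Tp
variable {L C : Type} [Fintype L] [DecidableEq L]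

theorem gx_imp {b : ℕ} : ∀ (g : ℕ) (C : Type) [Fintype C] [DecidableEq C] (T : TT L C)
    (X Y : Hk L C), (∀ (C' : Type) [Fintype C'] [DecidableEq C'] (T' : TT L C') ι k,
      X C' T' ι k → Y C' T' ι k) → GX b g C T X → GX b g C T Y := by
  intro g
  induction g with
  | zero => exact fun C _ _ T X Y e h => ⟨h.1, e _ _ _ _ h.2⟩
  | succ g ih =>
    refine fun C _ _ T X Y e h => ⟨h.1, e _ _ _ _ h.2.1, fun j a q ha h1 h2 => ?_⟩
    refine le_trans (T.pr_sub ?_) (h.2.2 j a q ha h1 h2)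
    exact fun z hz k => hz (ih _ _ _ _ (fun _ _ _ _ _ _ => e _ _ _ _) k)

/-- the depth hook -/
def Dp (C : Type) (D : ℕ) : Hk L C := fun _ _ _ _ _ k => k ≤ D

variable [Fintype C] [DecidableEq C]

theorem gx_dp {b D : ℕ} : ∀ (g : ℕ) (C' : Type) [Fintype C'] [DecidableEq C'] (T : TT L C') ι k,
    k + g ≤ D → Good b g L C' T → GX b g C' T ((Dp C D).push ι k) := by
  intro g
  induction g with
  | zero => exact fun C' _ _ T ι k e h => ⟨h, e⟩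
  | succ g ih =>
    refine fun C' _ _ T ι k e h => ⟨h, show k + 0 ≤ D by omega, fun j a q ha _ _ => ?_⟩
    refine le_trans (T.pr_sub ?_) (h.2.2.2.2 j a ha)
    intro z hz k'
    refine hz ?_
    rw [Hk.push_push]
    exact ih _ _ _ _ (by omega) k'

theorem dp_gx {b D : ℕ} (j : L) (hb : 1 ≤ b) : ∀ (g : ℕ) (C' : Type) [Fintype C'] [DecidableEq C']
    (T : TT L C') ι k, GX b g C' T ((Dp C D).push ι k) → k + g ≤ D := by
  intro g
  induction g with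
  | zero => exact fun C' _ _ T ι k h => h.2
  | succ g ih =>
    intro C' _ _ T ι k h
    by_contra e
    have u : T.pr Set.univ ≤ (1 / 2) ^ b := by
      refine le_trans (T.pr_sub ?_) (h.2.2 j 0 1 (Nat.zero_le _) le_rfl le_rfl)
      intro z _ k'
      rw [Hk.push_push] at k'
      have := ih _ _ _ _ k'
      omega
    have := half_anti hb
    rw [h.ok.pr_univ] at u
    linarith
end Tp

theorem top {s d : ℕ} (t : ∀ c, TPC s (d + 1) c) (gx : ∀ M, GXF s (d + 1) 0 M 1) (h : HER s d) :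
    TOPL s d := by
  obtain ⟨c, c1, h⟩ := h
  obtain ⟨k0, Kt, t⟩ := t c
  obtain ⟨ε0, e0, h⟩ := h k0 Kt
  refine ⟨ε0, e0, fun ε e2 e1 M => ?_⟩
  obtain ⟨E, M1, e, M', t⟩ := t M
  obtain ⟨KH, h⟩ := h M E M1
  obtain ⟨C0, K1, M2, gx⟩ := gx M
  refine ⟨e + 1, M', fun K' => ?_⟩
  obtain ⟨K, t⟩ := t KH (2 * K')
  have pb : PB fun n => (n ^ (Kt + 1)) ^ K1 := (PB.idt.pow _).pow _
  obtain ⟨K2, hK⟩ : PB fun n => ((n ^ (Kt + 1)) ^ K1 + 1) ^ C0 + (n ^ (Kt + 1)) ^ K1 + n ^ K +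
      n ^ KH + n ^ e := (((((pb.add (.const 1)).pow _).add pb).add (PB.idt.pow _)).add
        (PB.idt.pow _)).add (PB.idt.pow _)
  refine ⟨K2, fun o n Y n2 ⟨ok, x, hn, hM, rg, sz⟩ => ?_⟩
  subst hn
  have E1 := hK _ n2
  simp only at E1
  have w : Wf s (Wt d o.cx.Q) bk := gW_wf x.ds
  have a1 : o.cx.n ^ Kt + 1 ≤ o.cx.n ^ (Kt + 1) := by
    have := Nat.one_le_pow Kt o.cx.n (by omega)
    rw [pow_succ]; nlinarith
  have a2 : o.cx.n ≤ o.cx.n ^ (Kt + 1) := Nat.le_self_pow (by omega) _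
  have g1 := gx _ _ o.cx.B _ bk _ _ (n2.trans a2) le_rfl (by simp) (x.τ.trans a2) hM
    (Idf.bs_mono x.ok a2) w (rg_C x.ok.old rg (by omega) (by omega))
  have g2 := Tp.gx_dp (C := o.cx.B.SC (Wt d o.cx.Q)) (D := o.cx.n ^ Kt + 1) _ _ _ id 0 (by omega)
    (g1.mono a1).good
  rw [Hk.push_id] at g2
  have u : (univ.erase 0 ∪ {0} : Finset (Lb d)) = univ := by ext a; by_cases a = 0 <;> simp [*]
  have i := idf _ _ o.cx.B _ bk s _ x.ok w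
  obtain ⟨f, H', n', b1, b2, b3, b4, b5, b6, b7, b8, b9, b10, b11⟩ := t _ _ (Fin o.cx.D) o.cx.B _ bk
    (univ.erase 0) {0} o.cx.H o.cx.F _ _ (by simp) x.τ (by simpa using x.D) x.C hM x.ok w (by simp)
    (by simp) sz (by rw [u]; exact x.dat) (rgm x.ok.old rg le_rfl (by omega)) g2
    fun β hβ C' _ _ T' ι k r hk H1 n1 a1 a2 j hj ov l1 l2 s1 l3 l4 g => by
      rw [u]
      have p : 1 ≤ (n1 + a2) ^ c := Nat.one_le_pow _ _ (by omega)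
      have := Tp.dp_gx j p _ _ _ ι k (Tp.gx_imp _ _ _ _ _ (fun _ _ _ _ _ _ a => a.2) g)
      refine h ε o e1 e2 ok hM (rgm x.ok.old rg le_rfl (by omega)) C' T' ι k r hk H1 n1 a1 a2 j
        (ne_of_mem_erase hj) ov l1 l2 s1 l3 l4 (by omega) (Tp.gx_imp _ _ _ _ _ ?_ g)
      exact fun _ _ _ _ _ _ a hk' => Hx.mono idf x.ok w (a.1 hk') le_rfl le_rfl le_rfl hβ
  have p : (2 * n') ^ K' ≤ n' ^ (2 * K') := by
    rw [pow_mul]; exact Nat.pow_le_pow_left (by nlinarith) _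
  have q := Nat.pow_le_pow_left (show o.cx.n ≤ o.cx.n + Y by omega) K2
  have p2 : (2 : ℝ) ^ n' ≤ 2 ^ (2 * n') := pow_le_pow_right₀ one_le_two (by omega)
  have p3 : 2 ^ n' ≤ 2 ^ (2 * n') := Nat.pow_le_pow_right two_pos (by omega)
  refine ⟨2 * n', by omega, by rw [pow_succ]; nlinarith, ok, x, by omega, f, H',
    ⟨(i.2.2 f _ b3).2 _ (by omega), b6.st tfb tcmp stc stt, ⟨1, fw_tg b3 b6⟩, b7.trans p3⟩, b4,
    rgm b3.old b8 le_rfl p, b9.mono' (by omega), b10, ?_⟩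
  obtain ⟨N, i1, i2, W, q, Γ, c1, c2, c3, c4, c5, c6, c7⟩ := b11
  exact ⟨N, i1, i2, W, q, Γ, by omega, c2, c3, c4, c5.trans p3, c6,
    fun y hy a => (c7 y hy a).mono p2⟩

end Crest.Agent.N49.Sd

end
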