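import Crest.Agent.N49.Top.Core
import Crest.Agent.N49.Md.All
import Crest.Agent.N49.Mv.All
import Crest.Agent.N49.Mv.Pul
import Crest.Agent.N49.Sd.Tl
import Crest.Agent.N49.Sd.Fk
import Crest.Agent.N49.Sd.Dil
import Crest.Agent.N49.Sd.Top
import Crest.Agent.N49.Sd.Ogl
import Crest.Agent.N49.Sd.Enda2

/-!
# Row 49 (helper12): the row from the three open links
-/

set_option autoImplicit false

namespace Crest.Agent.N49.Sd

open Tw

variable {s d : ℕ}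

theorem mstA (M : ℕ) : ∃ C, MAST M C := (Tw.ma M).imp fun _ h => h.1

theorem moveU (hs : 1 ≤ s) (M : ℕ) : Mv.MOVE s M := Mv.moveA hs (Mv.pul s) M

theorem movlA (hs : 1 ≤ s) : MOVL s d := movl (moveU hs)

theorem topA (h : HER s d) : TOPL s d :=
  top (Md.tpcU s (d + 1)) (fun M => Md.gxfA s (d + 1) 0 M 1) h

theorem coreA (hd : d < s) (h : HER s d) (sy : SYML s d) (eb : ENDB s d) : Un.CORE s d :=
  core (ogl mstA hd) (topA h) sy absl (movlA (by omega)) eb endaA mstA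

/-- **the row modulo `HER`, `SYML`, `ENDB`** -/
theorem rowA (h : ∀ s d, d < s → HER s d) (sy : ∀ s d, d < s → SYML s d)
    (eb : ∀ s d, d < s → ENDB s d) (k : ℕ) (hk : 3 ≤ k) :
    ∃ C c ε : ℝ, 0 < C ∧ 0 < c ∧ 0 < ε ∧ ∀ N : ℕ, 2 ≤ N → ∀ A : Finset ℕ,
      A ⊆ Finset.Icc 1 N → (∀ a d : ℕ, 0 < d → ∃ i, i < k ∧ a + i * d ∉ A) →
        (A.card : ℝ) ≤ C * N * Real.exp (-(c * Real.log N ^ ε)) :=
  Top.row_core (fun s d _ hd => coreA hd (h s d hd) (sy s d hd) (eb s d hd)) k hk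

end Crest.Agent.N49.Sd
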