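import Crest.Agent.N49.Sd.Lk
import Crest.Agent.N49.Un.Dst
import Crest.Agent.N49.Co.Up

/-!
# Row 49 (helper20): the core of the step is a link from `In` to `Out`
-/

set_option autoImplicit false

open Finset

namespace Crest.Agent.N49.Sd

open Po Tw Br N49.Top

/-- the context of a step -/
structure Cx (d : ℕ) where
  N : ℕ
  m : ℕ
  A : Finset ℕ
  α : ℝ
  g : Gs (d + 1)

/-- the first state: a grid state on `d + 2` blocks, forward size `Xs` -/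
def In (s d : ℕ) (ε : ℝ) : Sta (Cx d) := fun c M n β _ =>
  2 ≤ c.m ∧ 1 / 2 ^ c.m ≤ c.α ∧ c.α ≤ 1 ∧ c.g.M ≤ M ∧ n = Xs s c.m c.g.c ∧
    ∃ b, β ≤ n ^ b ∧ c.g.P s (d + 1) c.N c.m c.A c.α ε b

/-- the last state: a twisted law with visible points on `d + 1` blocks -/
def Out (s d : ℕ) (ε : ℝ) : Sta (Cx d) := fun c M n β Y =>
  ∃ (T : TS Unit) (π : T.C → ℤ) (st : T.C → ℕ) (M0 : ℕ) (q : Fin (d + 1) → ℕ) (τ τ0 : Type)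
    (S : Sh Unit τ) (χ : Pt (Fin (d + 1)) → S.W → ℤ) (S0 : Sh Unit τ0)
    (χ0 : Pt (Fin (d + 1)) → S0.W → ℤ) (Ψ : T.Twd S) (x : Pt (Fin (d + 1)) → ℤ),
    Co.Up s Y c.g.V.T c.g.V.π T π ∧ T.Stg st M0 ∧ M0 ≤ M ∧
    T.RgS st M0 1 β (1 / 2 ^ β) (1 / 2 ^ β) ∧ (∀ i, 1 ≤ q i ∧ q i ≤ n) ∧
    S.Sz n (1 / 2 ^ n) ∧ T.Adm S st Ψ ∧ Un.Vis s q S0 χ0 n ∧ Un.Vm S χ S0 χ0 (pts q) n ∧
    (1 + ε) ^ ∏ i, q i ≤ Un.EP T S Ψ χ (pts q) fun ω => fA ⟨T, π, x ω⟩ c.A c.α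

variable {s d : ℕ} {ε : ℝ}

theorem mon_in : Mon (In s d ε) := fun _ _ _ _ _ _ _ h _ ⟨a, b, c, e, f, k, l, p⟩ =>
  ⟨a, b, c, e, f, k, h.trans l, p⟩

theorem mon_out : Mon (Out s d ε) :=
  fun _ _ _ _ _ _ _ h k ⟨T, π, st, M, q, τ, τ0, S, χ, S0, χ0, Ψ, x, u, a, b, r, o⟩ =>
    ⟨T, π, st, M, q, τ, τ0, S, χ, S0, χ0, Ψ, x, u.mono k, a, b, Un.rg_mono a r h, o⟩

/-- in the first state the exponent of the budget is at least `K` -/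
theorem In.le {c : Cx d} {M n K Y : ℕ} (h : In s d ε c M n (n ^ K) Y) (h2 : 2 ≤ n) :
    ∃ b, K ≤ b ∧ c.g.P s (d + 1) c.N c.m c.A c.α ε b :=
  let ⟨_, _, _, _, _, b, l, p⟩ := h
  ⟨b, (Nat.pow_le_pow_iff_right h2).1 l, p⟩

/-- **the core from the link** -/
theorem core_of (h : ∀ ε : ℝ, 0 < ε → ∃ ε' : ℝ, 0 < ε' ∧ Lk (In s d ε) (Out s d ε')) :
    Un.CORE s d := fun ε ε0 => by
  obtain ⟨ε', h', h⟩ := h ε ε0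
  obtain ⟨e, M', h⟩ := h ⌊ε⁻¹⌋₊
  refine ⟨ε', h', 2 * e + M', fun b' => ?_⟩
  obtain ⟨K, h⟩ := h b'
  refine ⟨K, 2 * K + 1, fun N m A α g m2 lo hi o p => ?_⟩
  have x1 : m ≤ Xs s m g.c := le_Xs _
  have x2 : ∀ a, Xs s m g.c ^ a ≤ m ^ (2 * a) := fun a => by
    rw [pow_mul]
    exact Nat.pow_le_pow_left ((o.Xs (by omega)).trans (by nlinarith)) _
  obtain ⟨n, n1, n2, T, π, st, M, q, τ, τ0, S, χ, S0, χ0, Ψ, x, u, a, b, r, hq, sz, ad, vs, vm, ex⟩ :=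
    h ⟨N, m, A, α, g⟩ _ 0 (m2.trans x1) ⟨m2, lo, hi, p.hM, rfl, K, le_rfl, p⟩
  have n3 : n ≤ m ^ (2 * e + M') := n2.trans ((x2 e).trans (Un.pw_le m2 (by omega)))
  obtain ⟨c, cs, t⟩ := u.tri (x := g.V.c) p.cs (by omega) (x2 K) 0
  exact ⟨c, t, T, π, st, M, q, τ, τ0, S, χ, S0, χ0, Ψ, x, cs, a, by omega,
    Un.rg_mono a r (Nat.pow_le_pow_left (x1.trans n1) _), fun i => ⟨(hq i).1, (hq i).2.trans n3⟩,
    sz.mono n3 (Un.half_le n3), ad, vs.mono n3, vm.mono n3, ex⟩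

end Crest.Agent.N49.Sd
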