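import Crest.Agent.N49.Sd.Cellp

/-!
# Row 49 (helper85): the fibre over a background configuration
-/

set_option autoImplicit false
set_option linter.unusedSectionVars false

open Matrix Finset

noncomputable section

namespace Crest.Agent.N49.Sd.Hz

open Po Tw Br N49.Top Ce

variable {ι : Type} [Fintype ι] [LinearOrder ι] {B : Bd ι} (h : B.Ok) {k l : ℕ}
  {Γ : Finset (Fin k × Fin l)} (c c' : ℝ) (V : ℕ → Pt ι → ℝ) {p : Wd B.s (B.D Γ) → Prop}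
  [DecidablePred p] (hp : ∀ w, p w ↔ w.tr B.x = none ∧ w.tr B.y = none)

/-- the classes outside the background -/
abbrev Jz (Γ : Finset (Fin k × Fin l)) : Type := {j : Jc Γ // ¬ (jx j = none ∧ jy j = none)}

theorem prod_Jz (F : Jc Γ → ℝ) : ∏ j : Jz Γ, F j.1 = (∏ a, F (.inr (.inl a))) *
    (∏ b, F (.inr (.inr (.inl b)))) * ∏ e, F (.inr (.inr (.inr e))) := by
  rw [← prod_subtype (univ.filter fun j : Jc Γ => ¬ (jx j = none ∧ jy j = none)) (by simp) F,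
    prod_filter, mul_assoc]
  simp [Fintype.prod_sum_type, jx, jy]

/-- the coordinates outside the background -/
def eH : (Σ j : Jz Γ, B.Cl (ja j.1) (jb j.1)) ≃ Kc B.T (tw B.s (B.D Γ) V) fun w => ¬ p w :=
  (Equiv.subtypeSigmaEquiv (fun j : Jc Γ => B.Cl (ja j) (jb j))
    fun j => ¬ (jx j = none ∧ jy j = none)).symm.trans ((h.eC c c').subtypeEquiv fun q => by
      change _ ↔ ¬ p (h.eC c c' q).1.2
      rw [hp, h.eC_tr, Bd.pu_x, h.pu_y])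

theorem eH_val (j : Jz Γ) (r : B.Cl (ja j.1) (jb j.1)) :
    (eH h c c' V hp ⟨j, r⟩).1 = h.eC c c' ⟨j.1, r⟩ := rfl

variable (B Γ) in
/-- the configurations of a fibre -/
abbrev Fc : Type := ((Fin k → B.I → ℤ) × (Fin l → B.I → ℤ)) × (Γ → B.Hc)

/-- the configurations outside the background -/
def eQ (z : B.Zc) : Fc B Γ ≃ (Kc B.T (tw B.s (B.D Γ) V) (fun w => ¬ p w) → ℤ) where
  toFun r a := h.cE c c' (z, r) a.1
  invFun η := ((fun a r => η (eH h c c' V hp ⟨⟨.inr (.inl a), by simp [jx]⟩, r⟩),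
    fun a r => η (eH h c c' V hp ⟨⟨.inr (.inr (.inl a)), by simp [jy]⟩, r⟩)),
    fun e r => η (eH h c c' V hp ⟨⟨.inr (.inr (.inr e)), by simp [jx]⟩, r⟩))
  left_inv r := by simp only [eH_val, h.cE_eC]; rfl
  right_inv η := funext fun a => by
    obtain ⟨⟨⟨j, hj⟩, r⟩, rfl⟩ := (eH h c c' V hp).surjective a
    refine (h.cE_eC c c' _ ⟨j, r⟩).trans ?_
    rcases j with _ | a | b | e
    exacts [absurd ⟨rfl, rfl⟩ hj, rfl, rfl, rfl]

theorem gl_eQ (q : B.Cf Γ) (r : Fc B Γ) :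
    gl B.T (tw B.s (B.D Γ) V) (fun w => ¬ p w) (eQ h c c' V hp q.1 r) (h.cE c c' q) =
      h.cE c c' (q.1, r) := by
  funext a
  by_cases m : p a.1.2
  · refine (dif_neg (not_not.2 m)).trans ?_
    obtain ⟨⟨j, r⟩, rfl⟩ := (h.eC c c').surjective a
    rw [h.cE_eC, h.cE_eC]
    have m1 : jx j = none := (Bd.pu_x ..).symm.trans ((hp _).1 m).1
    have m2 : jy j = none := (h.pu_y ..).symm.trans ((hp _).1 m).2
    rcases j with _ | a | b | e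
    exacts [rfl, absurd m1 (by simp [jx]), absurd m2 (by simp [jy]), absurd m1 (by simp [jx])]
  · exact dif_pos m

/-- the weight of a fibre -/
def wF (z : B.Zc) (r : Fc B Γ) : ℝ := (∏ a, gd (c • h.M z) (h.ce z) (r.1.1 a)) *
  (∏ b, gd (c' • h.M z) 0 (r.1.2 b)) * ∏ e : Γ, h.wH z (r.1.1 e.1.1 + r.1.2 e.1.2) (r.2 e)

theorem wF_nn (z : B.Zc) (r : Fc B Γ) : 0 ≤ wF h c c' z r :=
  mul_nonneg (mul_nonneg (prod_nonneg fun _ _ => Fa.gd_nn _ _ _)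
    (prod_nonneg fun _ _ => Fa.gd_nn _ _ _)) (prod_nonneg fun _ _ => h.hid.1 _ _ _)

variable {c c' V}
include hp

theorem wt_eH (hc : 0 < c) (hc' : 0 < c')
    (hV : ∀ j t, ¬ (t B.x = none ∧ t B.y = none) → V j t = B.V c c' j t)
    (q : B.Cf Γ) : gs ((B.T.kw (tw B.s (B.D Γ) V) B.T.K (tw B.s (B.D Γ) V).K).submatrix
      (Subtype.val : Kc B.T (tw B.s (B.D Γ) V) (fun w => ¬ p w) → _) Subtype.val)⁻¹
        (fun a => (B.T.sh (tw B.s (B.D Γ) V)).u (zc (h.cE c c' q)) a.1) /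
      (√((B.T.kw (tw B.s (B.D Γ) V) B.T.K (tw B.s (B.D Γ) V).K).submatrix
        (Subtype.val : Kc B.T (tw B.s (B.D Γ) V) (fun w => ¬ p w) → _) Subtype.val).det /
        |((B.T.kw (tw B.s (B.D Γ) V) B.T.A 1).submatrix
          (Subtype.val : Kc B.T (tw B.s (B.D Γ) V) (fun w => ¬ p w) → _) Subtype.val).det|) =
    wF h c c' q.1 q.2 := by
  have kv : ∀ a a' : B.T.Cw (tw B.s (B.D Γ) V), ¬ p a.1.2 →
      B.T.kw (tw B.s (B.D Γ) V) B.T.K (tw B.s (B.D Γ) V).K a a' =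
        B.T.kw (B.S Γ c c') B.T.K (B.S Γ c c').K a a' := fun a a' m =>
    congrArg (B.T.K _ _ * ·) (if_congr Iff.rfl (hV _ _ fun z => m ((hp _).2 z)) rfl)
  have ne : ∀ a a' : Σ j : Jz Γ, B.Cl (ja j.1) (jb j.1), a.1 ≠ a'.1 → a.1.1 ≠ a'.1.1 :=
    fun a a' n e => n (Subtype.ext e)
  have pd := fun j : Jc Γ => Fa.KC_pd h h.kwb hc hc' j
  obtain ⟨d1, d2⟩ := blk (Jz Γ) _ (fun j => B.Cl (ja j.1) (jb j.1)) (eH h c c' V hp)
    ((B.T.kw (tw B.s (B.D Γ) V) B.T.K (tw B.s (B.D Γ) V).K).submatrix Subtype.val Subtype.val)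
    (fun j => B.KC B.T.K (B.vj c c' j.1) (ja j.1) (jb j.1))
    (fun j r r' => (kv _ _ (eH h c c' V hp ⟨j, r⟩).2).trans ((h.kwb k l Γ c c' B.T.K).1 j.1 r r'))
    fun a a' n => (kv _ _ (eH h c c' V hp a).2).trans
      ((h.kwb k l Γ c c' B.T.K).2.2 ⟨a.1.1, a.2⟩ ⟨a'.1.1, a'.2⟩ (ne a a' n)).1
  have d3 := (blk (Jz Γ) _ (fun j => B.Cl (ja j.1) (jb j.1)) (eH h c c' V hp)
    ((B.T.kw (tw B.s (B.D Γ) V) B.T.A 1).submatrix Subtype.val Subtype.val)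
    (fun j => B.KC B.T.A (fun _ _ => 1) (ja j.1) (jb j.1))
    (fun j r r' => (h.kwb k l Γ c c' B.T.A).2.1 j.1 r r')
    fun a a' n => ((h.kwb k l Γ c c' B.T.A).2.2 ⟨a.1.1, a.2⟩ ⟨a'.1.1, a'.2⟩ (ne a a' n)).2).1
  have u : ∀ (j : Jz Γ) r, (B.T.sh (tw B.s (B.D Γ) V)).u (zc (h.cE c c' q))
      (eH h c c' V hp ⟨j, r⟩).1 = h.uj q ⟨j.1, r⟩ := fun j r => h.err.1 k l Γ c c' hc hc' q ⟨j.1, r⟩
  rw [gs, d2 (d1.trans_ne (prod_ne_zero_iff.2 fun j _ => (pd j.1).det_pos.ne')), d1, d3,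
    Real.sqrt_prod _ fun j _ => (pd j.1).det_pos.le, abs_prod, ← prod_div_distrib, mul_sum,
    ← sum_neg_distrib, Real.exp_sum, ← prod_div_distrib]
  simp only [u]
  refine (prod_Jz fun j => gs (B.KC B.T.K (B.vj c c' j) (ja j) (jb j))⁻¹ (fun r => h.uj q ⟨j, r⟩) /
    B.ZC (B.vj c c' j) (ja j) (jb j)).trans (congrArg₂ (· * ·) (congrArg₂ (· * ·)
      (prod_congr rfl fun a _ => ?_) (prod_congr rfl fun a _ => ?_)) rfl)
  · rw [gd, ((h.lin q.1).2.2 c hc).1, ← (((h.lin q.1).2.2 c hc).2 _).1]; rfl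
  · rw [gd, ((h.lin q.1).2.2 c' hc').1, ← (((h.lin q.1).2.2 c' hc').2 _).2]; rfl

/-- **the fibre over the background** -/
theorem hid_z {st : B.T.C → ℕ} {M : ℕ} (hs : B.T.Stg st M) (hc : 0 < c) (hc' : 0 < c')
    (o : ∀ j t, 0 < V j t) (hV : ∀ j t, ¬ (t B.x = none ∧ t B.y = none) → V j t = B.V c c' j t)
    (q : B.Cf Γ) (F : (B.T.Cw (tw B.s (B.D Γ) V) → ℤ) → ℝ) : Summable (wF (Γ := Γ) h c c' q.1) ∧
    hid B.T (tw B.s (B.D Γ) V) p st (B.T.tw0 _) (h.cE c c' q) F =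
      ∑' r, wF h c c' q.1 r * F (h.cE c c' (q.1, r)) := by
  obtain ⟨s1, e1⟩ := hid_eq hs (tw_ok h.dc_D o) p (h.cE c c' q) F
  have w := fun r : Fc B Γ => wt_eH h hp hc hc' hV (q.1, r)
  have s2 := ((eQ h c c' V hp q.1).summable_iff.2 s1).div_const
    (√((B.T.kw (tw B.s (B.D Γ) V) B.T.K (tw B.s (B.D Γ) V).K).submatrix
      (Subtype.val : Kc B.T (tw B.s (B.D Γ) V) (fun w => ¬ p w) → _) Subtype.val).det /
      |((B.T.kw (tw B.s (B.D Γ) V) B.T.A 1).submatrix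
        (Subtype.val : Kc B.T (tw B.s (B.D Γ) V) (fun w => ¬ p w) → _) Subtype.val).det|)
  simp only [Function.comp, gl_eQ, w] at s2
  refine ⟨s2, ?_⟩
  rw [e1, ← tsum_div_const, ← (eQ h c c' V hp q.1).tsum_eq]
  simp only [gl_eQ, mul_div_right_comm, w]

omit hp in
theorem hid_zv {st : B.T.C → ℕ} {M : ℕ} (hs : B.T.Stg st M) (hc : 0 < c) (hc' : 0 < c')
    (o : ∀ j t, 0 < V j t) (hV : ∀ j t, ¬ (t B.x = none ∧ t B.y = none) → V j t = B.V c c' j t)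
    {D : Finset (Pt ι)} (e : B.D Γ = D) {p : Wd B.s D → Prop} [DecidablePred p]
    (hp : ∀ w, p w ↔ w.tr B.x = none ∧ w.tr B.y = none) (q : B.Cf Γ)
    (y : B.T.Cw (tw B.s D V) → ℤ) (hy : h.cE c c' q = fun a => y (cv B.T e _ V a))
    (F : (B.T.Cw (tw B.s D V) → ℤ) → ℝ) : Summable (wF (Γ := Γ) h c c' q.1) ∧
    hid B.T (tw B.s D V) p st (B.T.tw0 _) y F =
      ∑' r, wF h c c' q.1 r * F fun a => h.cE c c' (q.1, r) (cv B.T e.symm V _ a) := by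
  subst e
  obtain rfl : h.cE c c' q = y := hy
  exact hid_z h hp hs hc hc' o hV q F

end Crest.Agent.N49.Sd.Hz

end
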