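import Crest.Agent.N49.Sd.Ins

/-!
# Row 49 (helper6): the pieces of the insertion lemma (statements)
-/

set_option autoImplicit false

open Matrix MvPolynomial Finset

noncomputable section

namespace Crest.Agent.N49.Sd

open Po Tw Br Top

/-- `C` is the disjoint union of `p`, `j` and the image of `β` -/
structure Prt {C H : Type} (p j : C → Prop) (β : H → C) : Prop where
  inj : Function.Injective β
  cov : ∀ c, p c ∨ j c ∨ ∃ h, β h = c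
  pj : ∀ c, p c → ¬ j c
  pb : ∀ h, ¬ p (β h)
  jb : ∀ h, ¬ j (β h)

/-- Gaussian algebra -/
def IGA : Prop := ∀ (C H : Type) [Fintype C] [DecidableEq C] [Fintype H] [DecidableEq H]
  (p j : C → Prop) [DecidablePred p] [DecidablePred j] (β : H → C) (ν : H → ℕ) (L : Matrix H C ℝ)
  (Q1 : Matrix {c // p c} {c // p c} ℝ) (Q2 : Matrix H H ℝ) (K : Matrix C C ℝ) (v : H → ℝ)
  (x : {c // j c} → ℝ), Prt p j β → (∀ h, 0 < ν h) →
  (∀ h h', L h (β h') = if h = h' then (ν h : ℝ) else 0) → Q1.PosDef → Q2.PosDef → K.PosDef →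
  (∀ u : C → ℝ, 2 * (qf Q1 (fun c => u c.1) + qf Q2 (L *ᵥ u)) ≤ qf K⁻¹ u) →
  let Q3 : Matrix {c // j c} {c // j c} ℝ := (1 / 2 : ℝ) • (K.submatrix Subtype.val Subtype.val)⁻¹
  ∃ (P : Matrix C C ℝ) (u0 : C → ℝ), P.PosDef ∧ (∀ u, qf P u ≤ qf K⁻¹ u) ∧
    dt P * ∏ h, (ν h : ℝ) = dt Q1 * dt Q2 * dt Q3 ∧ ∀ u : C → ℝ,
      gs Q1 (fun c => u c.1) * gs Q2 (v + L *ᵥ u) * gs Q3 ((fun c => u c.1) - x) = gs P (u - u0)

/-- residues: reindexing and pigeonhole -/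
def IRX : Prop := ∀ (C H : Type) [Fintype C] [Fintype H] (p j : C → Prop) (β : H → C) (ν : H → ℕ)
  (ζ : (C → ℤ) → H → ℤ) (F : (({c // p c} → ℤ) × (H → ℤ)) × ({c // j c} → ℤ) → ℝ), Prt p j β →
  (∀ h, 0 < ν h) → (∀ y y', (∀ c, p c ∨ j c → y c = y' c) → ζ y = ζ y') → Summable F →
  (∀ r : H → ℤ, Summable fun y : C → ℤ =>
    F ((fun c => y c.1, fun h => r h + ζ y h + ν h * y (β h)), fun c => y c.1)) ∧
  ∃ r : H → ℤ, ∑' a, F a ≤ (∏ h, (ν h : ℝ)) * ∑' y : C → ℤ,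
    F ((fun c => y c.1, fun h => r h + ζ y h + ν h * y (β h)), fun c => y c.1)

/-- the real shift of a residue -/
def rsh {C H : Type} (β : H → C) (ν : H → ℕ) (r : H → ℤ) : C → ℝ :=
  Function.extend β (fun h => (r h : ℝ) / ν h) 0

/-- **abstract insertion** -/
def INSA : Prop := ∀ (C H : Type) [Fintype C] [DecidableEq C] [Fintype H] [DecidableEq H]
  (p j : C → Prop) [DecidablePred p] [DecidablePred j] (β : H → C) (ν : H → ℕ) (L : Matrix H C ℝ)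
  (Q1 : Matrix {c // p c} {c // p c} ℝ) (Q2 : Matrix H H ℝ) (K : Matrix C C ℝ) (v : H → ℝ)
  (A : Matrix {c // j c} {c // j c} ℝ) (lev : C → ℕ) (U : (C → ℝ) → C → ℝ) (ζ : (C → ℤ) → H → ℤ)
  (U1 : ({c // p c} → ℤ) → {c // p c} → ℝ) (E : ({c // p c} → ℤ) → (H → ℤ) → H → ℝ)
  (g : ({c // p c} → ℤ) → (H → ℤ) → ℝ) (Y : Finset ({c // p c} → ℤ)) (B : ℝ), Prt p j β →
  (∀ h, 0 < ν h) → (∀ h h', L h (β h') = if h = h' then (ν h : ℝ) else 0) → Q1.PosDef →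
  Q2.PosDef → K.PosDef → (∀ u : C → ℝ, 2 * (qf Q1 (fun c => u c.1) + qf Q2 (L *ᵥ u)) ≤ qf K⁻¹ u) →
  A.det ≠ 0 → (∀ c c', A c c' ≠ 0 → lev c.1 = lev c'.1) → (∀ c c', K c c' ≠ 0 → lev c = lev c') →
  (∀ y y' h, (∀ c, p c ∨ (j c ∧ lev c ≤ lev (β h)) → y c = y' c) → ζ y h = ζ y' h) →
  (∀ (y y' : C → ℝ) (c : {c // j c}), (∀ c', p c' ∨ lev c' < lev c.1 → y c' = y' c') →
    U y c.1 - (A *ᵥ fun c => y c.1) c = U y' c.1 - (A *ᵥ fun c => y' c.1) c) →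
  (∀ y r (c : {c // p c}), U (zc y + rsh β ν r) c.1 = U1 (fun c => y c.1) c) →
  (∀ y r, v + L *ᵥ U (zc y + rsh β ν r) =
    E (fun c => y c.1) fun h => r h + ζ y h + ν h * y (β h)) →
  (∀ b, Summable fun z => gs Q2 (E b z)) → (∀ b z, |g b z| ≤ B) →
  ∃ (r : H → ℤ) (x : C → ℝ),
    ∑ b ∈ Y, gs Q1 (U1 b) / dt Q1 * ((∑' z, gs Q2 (E b z) * g b z) / dt Q2) ≤
      |A.det| * ((∑' y : C → ℤ, gs K⁻¹ (U (zc y + rsh β ν r) - x) *
        if (fun c : {c // p c} => y c.1) ∈ Y then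
          g (fun c => y c.1) fun h => r h + ζ y h + ν h * y (β h) else 0) / dt K⁻¹)

/-- real translates of a twist -/
def ISH : Prop := ∀ (τ : Type) (T : TS Unit) (S : Sh Unit τ) (st : T.C → ℕ) (M : ℕ) (Ψ : T.Twd S)
  (ρ : T.Cw S → ℝ), S.Ok → T.Stg st M → T.Adm S st Ψ →
  ∃ Ψ', T.Adm S st Ψ' ∧ ∀ y : T.Cw S → ℝ, (T.tw S Ψ').u y = (T.tw S Ψ).u (y + ρ)

/-- the lower terms of `T1` as a twist of `T2` -/
def ITW : Prop := ∀ (τ : Type) (T1 T2 : TS Unit) (S : Sh Unit τ) (p : S.W → Prop)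
  (st1 : T1.C → ℕ) (st2 : T2.C → ℕ) (M1 M2 s : ℕ) (D : Tan T1 T2 S.W) (Ψ1 : T1.Twd S), S.Ok →
  T1.Stg st1 M1 → T2.Stg st2 M2 → (∀ F, T1.lev F ≤ s) → D.Ok S.dg st1 st2 s → D.Rid S →
  T1.Adm S st1 Ψ1 → (∀ y (c : T1.Cw S), p c.1.2 → (T1.tw S Ψ1).u y c = (T1.tw S (tpw T1 S)).u y c) →
  ∃ Ψ, T2.Adm S st2 Ψ ∧ ∀ y : T2.Cw S → ℝ,
    (∀ c : T2.Cw S, c.1.1 ∉ Set.range D.bs ∨ p c.1.2 →
      (T2.tw S Ψ).u y c = (T2.tw S (tpw T2 S)).u y c) ∧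
    (T1.tw S Ψ1).u (fun c => (S.cf ℤ c.1.2 (D.be c.1.1) : ℤ) + D.L S y c) =
      fun c => S.cf ℝ c.1.2 (D.bu c.1.1) + D.L S ((T2.tw S Ψ).u y) c

/-- the hidden words of the families that are not basic -/
def hj {τ : Type} {T1 T2 : TS Unit} (S : Sh Unit τ) (D : Tan T1 T2 S.W) (p : S.W → Prop)
    (c : T2.Cw S) : Prop := ¬ p c.1.2 ∧ c.1.1 ∉ Set.range D.bs

/-- determinants -/
def IDT : Prop := ∀ (τ : Type) (T1 T2 : TS Unit) (S : Sh Unit τ) (p : S.W → Prop) [DecidablePred p]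
  (st1 : T1.C → ℕ) (st2 : T2.C → ℕ) (M1 M2 s : ℕ) (D : Tan T1 T2 S.W) [DecidablePred (hj S D p)],
  T1.Stg st1 M1 → T2.Stg st2 M2 → D.Ok S.dg st1 st2 s →
  let A1 := T1.kw S (T1.stg st1).A 1
  let A2 := T2.kw S (T2.stg st2).A 1
  (A2.submatrix (Subtype.val : Kc T2 S p → _) Subtype.val).det ≠ 0 ∧
  (A1.submatrix (Subtype.val : Kc T1 S (fun w => ¬ p w) → _) Subtype.val).det ≠ 0 ∧
  (A2.submatrix (Subtype.val : {c // hj S D p c} → _) Subtype.val).det ≠ 0 ∧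
  |A2.det| = |(A2.submatrix (Subtype.val : Kc T2 S p → _) Subtype.val).det| *
    |(A1.submatrix (Subtype.val : Kc T1 S (fun w => ¬ p w) → _) Subtype.val).det| *
    |(A2.submatrix (Subtype.val : {c // hj S D p c} → _) Subtype.val).det|

/-- triangularity of the inserted words -/
def ITR : Prop := ∀ (τ : Type) (T1 T2 : TS Unit) (S : Sh Unit τ) (p : S.W → Prop)
  (st1 : T1.C → ℕ) (st2 : T2.C → ℕ) (M2 s : ℕ) (D : Tan T1 T2 S.W) [DecidablePred (hj S D p)],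
  S.Ok → T2.Stg st2 M2 → D.Ok S.dg st1 st2 s → ∀ (y y' : T2.Cw S → ℝ) (c : {c // hj S D p c}),
  (∀ c' : T2.Cw S, p c'.1.2 ∨ D.gr c'.1.1 < D.gr c.1.1.1 → y c' = y' c') →
  let A := (T2.kw S (T2.stg st2).A 1).submatrix (Subtype.val : {c // hj S D p c} → _) Subtype.val
  (T2.tw S (tpw T2 S)).u y c.1 - (A *ᵥ fun c : {c // hj S D p c} => y c.1) c =
    (T2.tw S (tpw T2 S)).u y' c.1 - (A *ᵥ fun c : {c // hj S D p c} => y' c.1) c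

end Crest.Agent.N49.Sd

end
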