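import Mathlib

/-!
# Row 49 (helper43): the calculus of the links of a step

A state is a predicate `A c M n β Y`: context `c`, at most `M` stages, forward size `n`,
regularity `β`, cost `Y`.
-/

set_option autoImplicit false

namespace Crest.Agent.N49.Sd

universe u

/-- states -/
abbrev Sta (C : Type u) : Type u := C → ℕ → ℕ → ℕ → ℕ → Prop

variable {C : Type u}

/-- less regularity and more cost are allowed -/
def Mon (A : Sta C) : Prop :=
  ∀ c M n β β' Y Y', β' ≤ β → Y ≤ Y' → A c M n β Y → A c M n β' Y'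

/-- **links**: the forward exponent `e` and the number of stages do not see the later budget -/
def Lk (A B : Sta C) : Prop := ∀ M, ∃ e M', ∀ K', ∃ K, ∀ c n Y, 2 ≤ n → A c M n (n ^ K) Y →
  ∃ n', n ≤ n' ∧ n' ≤ n ^ e ∧ B c M' n' (n' ^ K') ((n + Y) ^ K)

variable {A B D : Sta C}

theorem Lk.of_imp (m : Mon B) (h : ∀ c M n β Y, A c M n β Y → B c M n β Y) : Lk A B := fun M =>
  ⟨1, M, fun K' => ⟨K' + 1, fun c n Y h2 a => ⟨n, le_rfl, by simp,
    m _ _ _ _ _ _ _ (Nat.pow_le_pow_right (by omega) (by omega))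
      (le_trans (by omega) (Nat.le_self_pow (by omega) _)) (h _ _ _ _ _ a)⟩⟩⟩

theorem Lk.refl (m : Mon A) : Lk A A := Lk.of_imp m fun _ _ _ _ _ a => a

theorem Lk.trans (h : Lk A B) (k : Lk B D) (ma : Mon A) (md : Mon D) : Lk A D := fun M => by
  obtain ⟨e, M1, h⟩ := h M
  obtain ⟨e', M2, k⟩ := k M1
  refine ⟨e * e', M2, fun K' => ?_⟩
  obtain ⟨K1, k⟩ := k K'
  obtain ⟨K0, h⟩ := h K1
  refine ⟨(e + K0 + 1) * K1 + K0, fun c n Y h2 a => ?_⟩
  obtain ⟨n1, a1, a2, b⟩ := h c n Y h2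
    (ma _ _ _ _ _ _ _ (Nat.pow_le_pow_right (by omega) (by omega)) le_rfl a)
  obtain ⟨n2, b1, b2, d⟩ := k c n1 _ (by omega) b
  refine ⟨n2, by omega, b2.trans (by rw [pow_mul]; exact Nat.pow_le_pow_left a2 _),
    md _ _ _ _ _ _ _ le_rfl ?_ d⟩
  have p : ∀ j ≤ e + K0, (n + Y) ^ j ≤ (n + Y) ^ (e + K0) := fun j q =>
    Nat.pow_le_pow_right (by omega) q
  have q : n1 + (n + Y) ^ K0 ≤ (n + Y) ^ (e + K0 + 1) := by
    have := p e (by omega)
    have := p K0 (by omega)
    have := Nat.pow_le_pow_left (show n ≤ n + Y by omega) e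
    have := Nat.mul_le_mul_left ((n + Y) ^ (e + K0)) (show 2 ≤ n + Y by omega)
    rw [pow_succ]; omega
  calc _ ≤ ((n + Y) ^ (e + K0 + 1)) ^ K1 := Nat.pow_le_pow_left q _
    _ ≤ _ := by rw [← pow_mul]; exact Nat.pow_le_pow_right (by omega) (by omega)

/-- a loop with a bounded number of turns -/
theorem Lk.loop {A : ℕ → Sta C} (m : ∀ l, Mon (A l)) (l : ℕ)
    (h : ∀ j < l, Lk (A (j + 1)) (A j)) : Lk (A l) (A 0) := by
  induction l with
  | zero => exact Lk.refl (m 0)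
  | succ l ih => exact (h l (by omega)).trans (ih fun j q => h j (by omega)) (m _) (m _)

end Crest.Agent.N49.Sd
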