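import Crest.Agent.N49.Sd.Cellp
import Crest.Agent.N49.Br.All

/-!
# Row 49 (helper20): the origin of a step, leaves
-/

set_option autoImplicit false

open Matrix Finset

noncomputable section

namespace Crest.Agent.N49.Sd

open Po Tw Br

/-- robust witnesses -/
def ROB : Prop := ∀ (I : Type) [Fintype I] [DecidableEq I] (M : Matrix I I ℝ) (θ η : I → ℝ)
  (g σ : (I → ℤ) → ℝ) (S : Set (I → ℤ)) (lam B a δ Λ τ : ℝ), M.PosDef →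
  (Fintype.card I : ℝ) + 2 ≤ lam → th ((2 : ℝ) • lam • M)⁻¹ 0 ≤ 11 / 10 →
  (∀ x, 0 ≤ g x ∧ g x ≤ B) → a ≤ ∑' p, S.indicator (gz (mp M M) θ) p → 0 ≤ δ →
  (∀ p ∈ S, δ ≤ ‖∑' w, (gz (lam • M) 0 w : ℂ) * (g (p + w) * ee (-(η ⬝ᵥ zc w)))‖) →
  ∑' p, gd ((cw I * cL I) • M) θ p * g p ≤ Λ → Pz σ → 0 ≤ τ → τ ≤ 1 / 8 →
  (∀ ξ, σ ξ ≠ 0 → (Fintype.card I + 2) * lam * qf M (zc ξ) ≤ τ ^ 2) →
  a * δ ≤ 20 * ∑' p, gd (cL I • M) θ p * ‖∑' ξ, (σ ξ : ℂ) * (g (p + ξ) * ee (-(η ⬝ᵥ zc ξ)))‖ +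
    4000 * τ * Λ

/-- first moments on a popular set of backgrounds -/
def UPZ : Prop := ∀ (ι : Type) [Fintype ι] [LinearOrder ι] (B : Bd ι) (h : B.Ok)
  (G : B.Zc → (B.I → ℤ) → B.Hc → ℝ) (b c c' w : ℝ) (W : Set B.Zc),
  (∀ z a η, 0 ≤ G z a η ∧ G z a η ≤ b) → 0 < c → c ≤ 1 → (Fintype.card B.I : ℝ) + 1 ≤ c' →
  (B.T.sh (B.S G1 c c')).Mas 1 → 0 < w → w ≤ ∑' z, W.indicator h.rho z →
  ∃ W' ⊆ W, w / 2 ≤ ∑' z, W'.indicator h.rho z ∧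
    ∀ z ∈ W', ∑' p, gd (c • h.M z) (h.ce z) p * h.av G z p ≤ 8 * b / w

end Crest.Agent.N49.Sd

end
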