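import Crest.Agent.N49.Rm.Pr
import Crest.Agent.N49.Sy.Alg

/-!
# Row 49 (helper60): typed multilinear data are typed polynomials
-/

set_option autoImplicit false
set_option linter.unusedSectionVars false

open MvPolynomial Finset

noncomputable section

namespace Crest.Agent.N49.Rm.TT

open Sy

variable {L C : Type} [Fintype L] [DecidableEq L] [Fintype C] [DecidableEq C] {T : TT L C}

theorem ind_add_sdiff {A S : Finset L} (h : A ⊆ S) : ind A + ind (S \ A) = ind S := by
  ext i
  have := @h i
  simp only [Finsupp.add_apply, ind_apply, mem_sdiff]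
  by_cases k : i ∈ A <;> by_cases k' : i ∈ S <;> simp_all

theorem Lin.basis {ℓ : L} {F : Fm L C} (h : T.Lin ℓ F) (p : C ⊕ L → ℝ) :
    F p = ∑ v with ℓ ∈ T.tv v,
      p v * F fun u => if ℓ ∈ T.tv u then (if u = v then 1 else 0) else p u := by
  have : ∀ s : Finset (C ⊕ L), (∀ v ∈ s, ℓ ∈ T.tv v) →
      F (fun u => if ℓ ∈ T.tv u then (if u ∈ s then p u else 0) else p u) = ∑ v ∈ s,
        p v * F fun u => if ℓ ∈ T.tv u then (if u = v then 1 else 0) else p u := by
    intro s
    induction s using Finset.induction_on with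
    | empty => exact fun _ => h.eq_zero fun v k => by simp [k]
    | insert v s hv ih =>
      intro hs
      rw [sum_insert hv, ← ih fun u hu => hs u (mem_insert_of_mem hu),
        ← h.scale (p := fun u => if ℓ ∈ T.tv u then (if u = v then p v else 0) else p u) (p v)
          (fun u k => by simp [k]) fun u k => by simp [k]]
      refine h.split (fun u k => ?_) (fun u k => by simp [k]) fun u k => by simp [k]
      by_cases e : u = v
      · subst e; simp [k, hv]
      · simp [k, e]
  rw [← this _ fun v k => (mem_filter.1 k).2]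
  exact congrArg F (funext fun u => by by_cases k : ℓ ∈ T.tv u <;> simp [k])

/-- put `v := 1` and kill the other words that meet it -/
def zv (T : TT L C) (v : C ⊕ L) (p : C ⊕ L → ℝ) : C ⊕ L → ℝ :=
  fun u => if Disjoint (T.tv u) (T.tv v) then p u else if u = v then 1 else 0

theorem Dat.zv {S : Finset L} {F : Fm L C} (h : T.Dat S S F) (v : C ⊕ L) :
    T.Dat (S \ T.tv v) (S \ T.tv v) fun p => F (T.zv v p) := by
  refine ⟨fun p p' e => h.1 _ _ fun u hu n => ?_, fun j hj a b p p' e => ?_⟩
  · unfold TT.zv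
    split_ifs with k
    · exact e u (subset_sdiff.2 ⟨hu, k⟩) n
    all_goals rfl
  · obtain ⟨h1, h2⟩ := mem_sdiff.1 hj
    rw [← h.2 j h1 a b _ _ fun u k => by unfold TT.zv; rw [e u k]]
    refine congrArg F (funext fun u => ?_)
    unfold TT.zv cmb
    by_cases k : j ∈ T.tv u
    · have : u ≠ v := fun e => h2 (e ▸ k)
      by_cases d : Disjoint (T.tv u) (T.tv v) <;> simp [k, d, this]
    · simp [k]

theorem Dat.expand {S : Finset L} {F : Fm L C} (h : T.Dat S S F) {ℓ : L} (hℓ : ℓ ∈ S)
    (p : C ⊕ L → ℝ) :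
    F p = ∑ v with ℓ ∈ T.tv v ∧ T.tv v ⊆ S, p v * F (T.zv v p) := by
  rw [(h.2 ℓ hℓ).basis p, ← filter_filter, sum_filter (p := fun v => T.tv v ⊆ S)]
  refine sum_congr rfl fun v hv => ?_
  have hv := (mem_filter.1 hv).2
  split_ifs with k
  · congr 1
    let z : Finset L → C ⊕ L → ℝ := fun J u =>
      if u = v then 1 else if ℓ ∈ T.tv u ∨ ¬ Disjoint (T.tv u) J then 0 else p u
    have : ∀ J ⊆ T.tv v, F (z ∅) = F (z J) := fun J => by
      induction J using Finset.induction_on with
      | empty => exact fun _ => rfl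
      | insert j J _ ih =>
        intro hJ
        have a := hJ (mem_insert_self _ _)
        rw [ih ((subset_insert _ _).trans hJ), (h.2 j (k a)).split (p := z J) (p₁ := z (insert j J))
          (p₂ := fun u => if u = v then 0 else z J u) (fun u b => ?_) (fun u b => ?_) fun u b => ?_,
          (h.2 ℓ hℓ).eq_zero (p := fun u => if u = v then 0 else z J u) fun u b => ?_, add_zero]
        · by_cases e : u = v <;> simp [z, e, b]
        · by_cases e : u = v <;> simp [z, e, b]
        · have : u ≠ v := fun e => b (e ▸ a)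
          simp [z, this, b]
        · have : u ≠ v := fun e => b (e ▸ a)
          simp [this]
    refine Eq.trans (congrArg F (funext fun u => ?_))
      ((this _ Subset.rfl).trans (congrArg F (funext fun u => ?_)))
    · by_cases e : u = v
      · subst e; simp [z, hv]
      · by_cases b : ℓ ∈ T.tv u <;> simp [z, e, b]
    · by_cases e : u = v
      · subst e
        have : ¬ Disjoint (T.tv u) (T.tv u) := fun d => disjoint_left.1 d hv hv
        simp only [z, TT.zv, if_true, if_neg this]
      · by_cases b : Disjoint (T.tv u) (T.tv v)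
        · have : ℓ ∉ T.tv u := fun c => disjoint_left.1 b c hv
          simp [z, TT.zv, e, b, this]
        · simp [z, TT.zv, e, b]
  · rw [h.1 _ (fun u => if ℓ ∈ T.tv u then 0 else p u) fun u a _ => ?_,
      (h.2 ℓ hℓ).eq_zero fun u b => if_pos b, mul_zero]
    have : u ≠ v := fun e => k (e ▸ a)
    simp [this]

/-- **POLY** -/
theorem Dat.poly (S : Finset L) : ∀ {F : Fm L C}, T.Dat S S F →
    ∃ P : MvPolynomial (C ⊕ L) ℝ, (∀ p, eval p P = F p) ∧
      P.IsWeightedHomogeneous (fun v => ind (T.tv v)) (ind S) ∧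
        ∀ v ∈ P.vars, (T.tv v).Nonempty := by
  induction S using Finset.strongInduction with
  | H S ih =>
    intro F h
    rcases S.eq_empty_or_nonempty with rfl | ⟨ℓ, hℓ⟩
    · refine ⟨MvPolynomial.C (F 0), fun p => ?_, ?_, by simp⟩
      · rw [eval_C]
        exact h.1 _ _ fun v a b => absurd (subset_empty.1 a) b.ne_empty
      · rw [ind_empty]; exact isWeightedHomogeneous_C _ _
    · have : ∀ v, ∃ P : MvPolynomial (C ⊕ L) ℝ, ℓ ∈ T.tv v ∧ T.tv v ⊆ S →
          (∀ p, eval p P = F (T.zv v p)) ∧
          P.IsWeightedHomogeneous (fun v => ind (T.tv v)) (ind (S \ T.tv v)) ∧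
            ∀ v ∈ P.vars, (T.tv v).Nonempty := fun v => by
        by_cases k : ℓ ∈ T.tv v ∧ T.tv v ⊆ S
        · obtain ⟨P, hP⟩ := ih _ (sdiff_ssubset k.2 ⟨ℓ, k.1⟩) (h.zv v)
          exact ⟨P, fun _ => hP⟩
        · exact ⟨0, fun a => absurd a k⟩
      choose P hP using this
      refine ⟨∑ v with ℓ ∈ T.tv v ∧ T.tv v ⊆ S, X v * P v, fun p => ?_, ?_, fun u hu => ?_⟩
      · rw [h.expand hℓ p, map_sum]
        exact sum_congr rfl fun v hv => by rw [map_mul, eval_X, (hP v (mem_filter.1 hv).2).1]
      · refine IsWeightedHomogeneous.sum _ _ _ fun v hv => ?_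
        have k := (mem_filter.1 hv).2
        rw [← ind_add_sdiff k.2]
        exact (isWeightedHomogeneous_X _ _ _).mul (hP v k).2.1
      · obtain ⟨v, hv, k⟩ := mem_biUnion.1 (vars_sum_subset _ _ hu)
        have hv := (mem_filter.1 hv).2
        rcases mem_union.1 (vars_mul _ _ k) with k | k
        · rw [vars_X, mem_singleton] at k
          exact k ▸ ⟨ℓ, hv.1⟩
        · exact (hP v hv).2.2 u k

end Crest.Agent.N49.Rm.TT

end
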