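import Crest.Agent.N49.Sd.Pull

/-!
# Row 49 (helper60): exact pull-back of typed forms; cuts of a form by the block type
-/

set_option autoImplicit false
set_option linter.unusedSectionVars false

open MvPolynomial Finset

noncomputable section

namespace Crest.Agent.N49.Sd

open Sy Rm Md

section tt
variable {L C C' Λ : Type} [Fintype L] [DecidableEq L] [Fintype C] [DecidableEq C] [Fintype C']
  [DecidableEq C'] [DecidableEq Λ] {T : TT L C} {T' : TT L C'} {blk : Λ → L} {dg : C → Λ →₀ ℕ}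
  {P : Bk C Λ} {Z M : Finset L}

/-- the block type of a monomial -/
def Bk.bt (P : Bk C Λ) (dg : C → Λ →₀ ℕ) (blk : Λ → L) (m : C ⊕ P.N →₀ ℕ) : L →₀ ℕ :=
  (Finsupp.weight (P.wg dg) m).mapDomain blk

/-- the block types of the monomials have the property `R` -/
def Bk.Ty (P : Bk C Λ) (dg : C → Λ →₀ ℕ) (blk : Λ → L) (R : (L →₀ ℕ) → Prop)
    (Γ : MvPolynomial (C ⊕ P.N) ℝ) : Prop := ∀ m ∈ Γ.support, R (P.bt dg blk m)

open Classical in
/-- the monomials whose block type has the property `R` -/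
def Bk.cut (P : Bk C Λ) (dg : C → Λ →₀ ℕ) (blk : Λ → L) (R : (L →₀ ℕ) → Prop)
    (Γ : MvPolynomial (C ⊕ P.N) ℝ) : MvPolynomial (C ⊕ P.N) ℝ :=
  ∑ m ∈ Γ.support with R (P.bt dg blk m), monomial m (coeff m Γ)

variable {R R' : (L →₀ ℕ) → Prop} {Γ : MvPolynomial (C ⊕ P.N) ℝ}

theorem Bk.cut_supp {m : C ⊕ P.N →₀ ℕ} (h : m ∈ (P.cut dg blk R Γ).support) :
    m ∈ Γ.support ∧ R (P.bt dg blk m) := by
  classical
  obtain ⟨m', a, b⟩ := mem_biUnion.1 (support_sum h)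
  rw [mem_singleton.1 (support_monomial_subset b)]
  exact mem_filter.1 a

theorem Bk.cut_add (R : (L →₀ ℕ) → Prop) (Γ : MvPolynomial (C ⊕ P.N) ℝ) :
    P.cut dg blk R Γ + P.cut dg blk (fun u => ¬ R u) Γ = Γ := by
  classical
  conv_rhs => rw [Γ.as_sum, ← sum_filter_add_sum_filter_not _ fun m => R (P.bt dg blk m)]
  unfold Bk.cut
  congr! 3

theorem Bk.cut_ty : P.Ty dg blk R (P.cut dg blk R Γ) := fun _ h => (Bk.cut_supp h).2

theorem Bk.Ty.cut (h : P.Ty dg blk R' Γ) : P.Ty dg blk R' (P.cut dg blk R Γ) :=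
  fun _ k => h _ (Bk.cut_supp k).1

theorem Bk.Ty.mono (h : P.Ty dg blk R Γ) (e : ∀ u, R u → R' u) : P.Ty dg blk R' Γ :=
  fun m k => e _ (h m k)

theorem Bk.Ty.zero (h : P.Ty dg blk (fun _ => False) Γ) : Γ = 0 :=
  support_eq_empty.1 (eq_empty_of_forall_notMem h)

theorem Gm.cut (h : Gm P dg blk Z M Γ) : Gm P dg blk Z M (P.cut dg blk R Γ) :=
  ⟨fun c k => by
    classical
    obtain ⟨m, a, b⟩ := (mem_vars_iff_mem_support _).1 k
    exact h.live c ((mem_vars_iff_mem_support _).2 ⟨m, (Bk.cut_supp a).1, b⟩),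
  fun m k => h.ty m (Bk.cut_supp k).1⟩

/-- the exact pull-back for a morphism given by substitutions -/
theorem pulx0 {dg' : C' → Λ →₀ ℕ} {κ : ℝ} {ι : (C' ⊕ L → ℝ) → C ⊕ L → ℝ}
    (σ σ' : C → MvPolynomial C' ℝ) (hT' : T'.Ok)
    (d1 : ∀ c, (dg c).mapDomain blk = ind (T.ty c)) (d2 : ∀ c, (dg' c).mapDomain blk = ind (T'.ty c))
    (lv : ∀ c, dg' c ≠ 0) (hm : Mor T' T ι κ) (s1 : ∀ c, Bt dg' ∅ (dg c) (σ c))
    (s2 : ∀ c, Bt (fun c => (dg' c).mapDomain blk) M ((dg c).mapDomain blk) (σ' c))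
    (s3 : ∀ (y : C' → ℤ) c, eval (fun c => (y c : ℝ)) (σ c) = ι (TT.cf y) (.inl c))
    (s4 : ∀ y, ∀ p ∈ T'.Fib M y, ∀ c, eval (fun c => p (.inl c)) (σ' c) = ι p (.inl c))
    (hZM : Disjoint Z M) (hP : P.Ok dg) (hZ : ∀ a, (P.wd a).mapDomain blk ≤ ind Z)
    (H1 : Set (C' → ℤ)) (r : ℕ) : ∃ (P' : Bk C' Λ) (H' : Set (C' → ℤ))
      (φ : MvPolynomial (C ⊕ P.N) ℝ →ₐ[ℝ] MvPolynomial (C' ⊕ P'.N) ℝ),
      H' ⊆ H1 ∧ T'.pr H1 ≤ (2 ^ (2 ^ #Z * (r + 3) + 2) : ℝ) ^ Fintype.card P.N * T'.pr H' ∧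
      Fintype.card P'.N ≤ Fintype.card P.N * 2 ^ #Z ∧ P'.Ok dg' ∧
      (∀ a, (P'.wd a).mapDomain blk ≤ ind Z) ∧ P'.Cell H' ((1 / 2) ^ r) ∧
      (∀ Γ, Gm P dg blk Z M Γ → Gm P' dg' blk Z M (φ Γ)) ∧
      (∀ Γ (R : (L →₀ ℕ) → Prop), (∀ u u', u' ≤ u → R u → R u') → P.Ty dg blk R Γ →
        P'.Ty dg' blk R (φ Γ)) ∧
      ∀ y ∈ H', ∀ p ∈ T'.Fib M y, ∀ Γ,
        P.ev (fun w => ι p (.inl w)) Γ = P'.ev (fun w => p (.inl w)) (φ Γ) := by
  classical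
  have hs : ∀ a, (P.wd a).degree ≤ #Z := fun a => by
    rw [← Finsupp.degree_mapDomain blk]
    exact (Finsupp.degree_mono (hZ a)).trans (degree_ind Z).le
  obtain ⟨b, H', a1, a2, a3, a4, a5⟩ := hP.lo.pull (σ := σ) (dg' := dg') (fun w _ => s1 w)
    (fun _ _ w _ => lv w) (pg_tt hT') (fun y w => (y w : ℝ)) H1 hs r
  have tz : ∀ a : (P.pl σ).CN, a.2.1.mapDomain blk ≤ ind Z := fun a =>
    (Finsupp.mapDomain_mono (Bk.sw_le a.2)).trans (hZ a.1)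
  have zM : ∀ a, ∀ ℓ ∈ M, (P.wd a).mapDomain blk ℓ = 0 := fun a ℓ k =>
    Nat.le_zero.1 ((hZ a ℓ).trans_eq (if_neg (disjoint_right.1 hZM k)))
  have bt : ∀ u Q, Bt (fun v => (P.wg dg v).mapDomain blk) M u Q →
      Bt (fun v => (((P.pl σ).cmp dg' b).wg dg' v).mapDomain blk) M u
        (aeval ((P.pl σ).sg b) (aeval (P.ps σ') Q)) := fun u Q k => by
    have k1 : Bt (Sum.elim (fun c => (dg c).mapDomain blk)
        fun a => (P.wd a).mapDomain blk) M u Q := by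
      convert k using 2 with v
      cases v <;> rfl
    refine (Bk.ps_bt k1 fun w _ => s2 w).aeval' fun v _ => ?_
    have := Bk.sg_bt (B := P.pl σ) (dg := dg') (b := b)
      (Finsupp.mapDomain blk) Finsupp.mapDomain_mono zM v
    cases v <;> exact this
  refine ⟨(P.pl σ).cmp dg' b, H', (aeval ((P.pl σ).sg b)).comp (aeval (P.ps σ')), a1, a2,
    Bk.card_cn (B := P.pl σ) hs, a3, tz, a4,
    fun Γ k => .of_bt (fun w _ => lv w) (bt _ _ (k.bt hZM)), fun Γ R hR k m' hm' => ?_,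
    fun y hy p hp Γ => ?_⟩
  · rw [Γ.as_sum, map_sum] at hm'
    obtain ⟨m, a, c⟩ := mem_biUnion.1 (support_sum hm')
    have := (bt _ _ (.of_hom (isWeightedHomogeneous_monomial _ m (coeff m Γ) rfl)) m' c).1
    rw [weight_map, weight_map] at this
    exact hR _ _ this (k m a)
  · obtain ⟨y0, e⟩ := hm.exists_cf y
    have e1 : (fun w => eval (fun w => (y w : ℝ)) (σ w)) = fun w => (y0 w : ℝ) :=
      funext fun w => (s3 y w).trans (congrFun e (.inl w))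
    have k := (a5 y hy).2 σ' (fun w => p (.inl w)) Γ
    rw [e1, funext (s4 y p hp), ← om_fib d1 hP hZ hZM (hm.fib e hp),
      ← om_fib d2 a3 tz hZM hp] at k
    simp only [Bk.ev, Bk.lf, AlgHom.comp_apply]
    rw [k]
end tt

variable {τ L : Type} [Fintype τ] [DecidableEq τ] [Fintype L] [DecidableEq L]
  {B : Bs L} {W : Finset (Finset τ)} {blk : τ → L} {f : Fr B.T τ L}

/-- **the exact pull-back along a frame** -/
theorem pulx {Z M : Finset L} {P : Bk (B.SC W) τ} {κ : ℝ} (hf : (f.SY W blk).Ok)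
    (hl : ∀ G, f.T.lev G ≠ 0) (hW : ∀ A ∈ W, Set.InjOn blk A)
    (hm : Mor (f.SY W blk) (B.SY W blk) (ka B W blk f) κ) (hZM : Disjoint Z M)
    (hP : P.Ok fun w => ind w.1.2) (hZ : ∀ a, (P.wd a).mapDomain blk ≤ ind Z)
    (H1 : Set (f.SC W → ℤ)) (r : ℕ) : ∃ (P' : Bk (f.SC W) τ) (H' : Set (f.SC W → ℤ))
      (φ : MvPolynomial (B.SC W ⊕ P.N) ℝ →ₐ[ℝ] MvPolynomial (f.SC W ⊕ P'.N) ℝ),
      H' ⊆ H1 ∧ (f.SY W blk).pr H1 ≤
        (2 ^ (2 ^ #Z * (r + 3) + 2) : ℝ) ^ Fintype.card P.N * (f.SY W blk).pr H' ∧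
      Fintype.card P'.N ≤ Fintype.card P.N * 2 ^ #Z ∧ (P'.Ok fun w => ind w.1.2) ∧
      (∀ a, (P'.wd a).mapDomain blk ≤ ind Z) ∧ P'.Cell H' ((1 / 2) ^ r) ∧
      (∀ Γ, Gm P (fun w => ind w.1.2) blk Z M Γ → Gm P' (fun w => ind w.1.2) blk Z M (φ Γ)) ∧
      (∀ Γ (R : (L →₀ ℕ) → Prop), (∀ u u', u' ≤ u → R u → R u') →
        P.Ty (fun w => ind w.1.2) blk R Γ → P'.Ty (fun w => ind w.1.2) blk R (φ Γ)) ∧
      ∀ y ∈ H', ∀ p ∈ (f.SY W blk).Fib M y, ∀ Γ,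
        P.ev (fun w => ka B W blk f p (.inl w)) Γ = P'.ev (fun w => p (.inl w)) (φ Γ) := by
  refine pulx0 (ks B W blk f fun _ => 1) (ks B W blk f fun ℓ => if ℓ ∈ M then 0 else 1) hf
    (fun w => map_ind blk (hW _ w.2.2.1)) (fun w => map_ind blk (hW _ w.2.2.1))
    (fun w e => hl w.1.1 ?_) hm (ks_bt B W blk f (AddMonoidHom.id _) (by simp))
    (ks_bt B W blk f (Finsupp.mapDomain.addMonoidHom blk) (map_zero_of blk))
    (fun y w => eval_ks B W blk f (TT.cf y) w) (fun y p hp w => ?_) hZM hP hZ H1 r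
  · rw [← w.2.2.2, ind_eq_zero.1 e, card_empty]
  · rw [← eval_ks, funext hp.2]

end Crest.Agent.N49.Sd

end
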