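import Crest.Agent.N49.Sd.Bk
import Crest.Agent.N49.Sd.Poly

/-!
# Row 49 (helper60): algebra of the splitting into clone components
-/

set_option autoImplicit false
set_option linter.unusedSectionVars false

open MvPolynomial Finset

noncomputable section

namespace Crest.Agent.N49.Sd

open Sy

variable {L Λ V V' : Type} [DecidableEq L] [DecidableEq Λ]

theorem ind_le {A B : Finset L} : ind A ≤ ind B ↔ A ⊆ B := by
  refine ⟨fun h i hi => ?_, fun h i => ?_⟩
  · have := h i
    simp only [ind_apply, if_pos hi] at this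
    by_contra k
    simp [k] at this
  · simp only [ind_apply]
    by_cases k : i ∈ A
    · simp [k, h k]
    · simp [k]

theorem eval_aeval (x : V' → ℝ) (σ : V → MvPolynomial V' ℝ) (P : MvPolynomial V ℝ) :
    eval x (aeval σ P) = eval (fun v => eval x (σ v)) P := by
  induction P using MvPolynomial.induction_on with
  | C a => simp
  | add p q hp hq => simp only [map_add, hp, hq]
  | mul_X p v hp => simp only [map_mul, hp, aeval_X, eval_X]

/-- all the words of length `≤ l` -/
def Ws (Λ : Type) [Fintype Λ] [DecidableEq Λ] (l : ℕ) : Finset (Λ →₀ ℕ) :=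
  univ.image fun f : Fin l → Option Λ => ∑ i, (f i).elim 0 fun a => Finsupp.single a 1

theorem card_Ws [Fintype Λ] (l : ℕ) : #(Ws Λ l) ≤ (Fintype.card Λ + 1) ^ l :=
  card_image_le.trans (by simp)

theorem mem_Ws [Fintype Λ] : ∀ (l : ℕ) (w : Λ →₀ ℕ), w.degree ≤ l → w ∈ Ws Λ l := by
  intro l
  induction l with
  | zero =>
    intro w h
    exact mem_image.2 ⟨Fin.elim0, mem_univ _, by
      rw [(Finsupp.degree_eq_zero_iff w).1 (Nat.le_zero.1 h)]; simp⟩
  | succ l ih =>
    intro w h
    by_cases e : w = 0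
    · exact mem_image.2 ⟨fun _ => none, mem_univ _, by simp [e]⟩
    · obtain ⟨a, ha⟩ := Finsupp.ne_iff.1 e
      have k : Finsupp.single a 1 ≤ w := Finsupp.single_le_iff.2 (Nat.one_le_iff_ne_zero.2 ha)
      obtain ⟨w', rfl⟩ := exists_add_of_le k
      rw [map_add, Finsupp.degree_single] at h
      obtain ⟨f, -, rfl⟩ := mem_image.1 (ih w' (by omega))
      exact mem_image.2 ⟨Fin.cons (some a) f, mem_univ _, by simp [Fin.sum_univ_succ]⟩

theorem degree_ind (A : Finset L) : (ind A).degree = #A := by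
  rw [Finsupp.degree_apply]
  exact (sum_congr rfl fun i hi => if_pos hi).trans (by simp [ind])

theorem mem_Ws_of [Fintype Λ] [Fintype L] {blk : Λ → L} {A : Finset L} {w : Λ →₀ ℕ}
    (h : w.mapDomain blk ≤ ind A) : w ∈ Ws Λ (Fintype.card L) := mem_Ws _ _ (by
  rw [← Finsupp.degree_mapDomain blk]
  exact (Finsupp.degree_mono h).trans ((degree_ind A).trans_le (card_le_univ A)))

/-- the block types of the monomials are `≤ u`, with equality on `M` -/
def Bt (t : V → L →₀ ℕ) (M : Finset L) (u : L →₀ ℕ) (Q : MvPolynomial V ℝ) : Prop :=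
  ∀ m ∈ Q.support, Finsupp.weight t m ≤ u ∧ ∀ ℓ ∈ M, Finsupp.weight t m ℓ = u ℓ

namespace Bt
variable {t : V → L →₀ ℕ} {M : Finset L} {u u' : L →₀ ℕ} {P Q : MvPolynomial V ℝ}

theorem zero : Bt t M u 0 := fun m h => by simp at h
theorem C (r : ℝ) (hu : ∀ ℓ ∈ M, u ℓ = 0) : Bt t M u (MvPolynomial.C r) := fun m h => by
  classical
  have : m = 0 := by
    have := support_monomial_subset (s := (0 : V →₀ ℕ)) (a := r) h
    simpa using this
  subst this
  exact ⟨by simp, fun ℓ k => by simp [hu ℓ k]⟩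
theorem X (v : V) (h : t v ≤ u) (hu : ∀ ℓ ∈ M, t v ℓ = u ℓ) : Bt t M u (MvPolynomial.X v) :=
  fun m k => by
    rw [support_X, mem_singleton] at k
    subst k
    simpa [Finsupp.weight_single] using ⟨h, hu⟩
theorem add (h : Bt t M u P) (k : Bt t M u Q) : Bt t M u (P + Q) := fun m hm => by
  classical
  exact (mem_union.1 (support_add hm)).elim (h m) (k m)
theorem sum {ι : Type} (s : Finset ι) {f : ι → MvPolynomial V ℝ} (h : ∀ i ∈ s, Bt t M u (f i)) :
    Bt t M u (∑ i ∈ s, f i) := by
  classical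
  induction s using Finset.induction_on with
  | empty => exact zero
  | insert i s hi ih =>
    rw [sum_insert hi]
    exact (h i (mem_insert_self _ _)).add (ih fun j hj => h j (mem_insert_of_mem hj))
theorem mul (h : Bt t M u P) (k : Bt t M u' Q) : Bt t M (u + u') (P * Q) := fun m hm => by
  classical
  obtain ⟨a, ha, b, hb, rfl⟩ := Finset.mem_add.1 (support_mul _ _ hm)
  rw [map_add]
  exact ⟨add_le_add (h a ha).1 (k b hb).1, fun ℓ e => by
    rw [Finsupp.add_apply, Finsupp.add_apply, (h a ha).2 ℓ e, (k b hb).2 ℓ e]⟩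
theorem one : Bt t M 0 1 := C 1 fun _ _ => rfl
theorem pow (h : Bt t M u P) (k : ℕ) : Bt t M (k • u) (P ^ k) := by
  induction k with
  | zero => simpa using one
  | succ k ih => rw [succ_nsmul, pow_succ]; exact ih.mul h
theorem prod {ι : Type} (s : Finset ι) {f : ι → MvPolynomial V ℝ} {g : ι → L →₀ ℕ}
    (h : ∀ i ∈ s, Bt t M (g i) (f i)) : Bt t M (∑ i ∈ s, g i) (∏ i ∈ s, f i) := by
  classical
  induction s using Finset.induction_on with
  | empty => simpa using one
  | insert i s hi ih =>
    rw [sum_insert hi, prod_insert hi]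
    exact (h i (mem_insert_self _ _)).mul (ih fun j hj => h j (mem_insert_of_mem hj))
theorem aeval {t' : V' → L →₀ ℕ} {P : MvPolynomial V' ℝ} (hP : P.IsWeightedHomogeneous t' u)
    {σ : V' → MvPolynomial V ℝ} (h : ∀ v, Bt t M (t' v) (σ v)) :
    Bt t M u (MvPolynomial.aeval σ P) := by
  rw [P.as_sum, map_sum]
  refine sum _ fun m hm => ?_
  rw [aeval_monomial, ← hP (mem_support_iff.1 hm), Finsupp.weight_apply, ← zero_add (m.sum _)]
  exact (C _ fun _ _ => rfl).mul (prod _ fun v _ => (h v).pow _)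
end Bt

theorem weight_map (blk : Λ → L) (w : V → Λ →₀ ℕ) (m : V →₀ ℕ) :
    Finsupp.weight (fun v => (w v).mapDomain blk) m = (Finsupp.weight w m).mapDomain blk := by
  rw [Finsupp.weight_apply, Finsupp.weight_apply, Finsupp.sum, Finsupp.sum,
    Finsupp.mapDomain_finsetSum]
  exact sum_congr rfl fun v _ => (Finsupp.mapDomain_smul _ _).symm

theorem vars_comp {w : V → Λ →₀ ℕ} {n : Λ →₀ ℕ} {P : MvPolynomial V ℝ} {v : V}
    (h : v ∈ (weightedHomogeneousComponent w n P).vars) : v ∈ P.vars := by
  classical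
  obtain ⟨m, hm, k⟩ := (mem_vars_iff_mem_support v).1 h
  refine (mem_vars_iff_mem_support v).2 ⟨m, ?_, k⟩
  rw [mem_support_iff, coeff_weightedHomogeneousComponent] at hm
  exact mem_support_iff.2 fun e => hm (by simp [e])

theorem sum_comp {w : V → Λ →₀ ℕ} {P : MvPolynomial V ℝ} {s : Finset (Λ →₀ ℕ)}
    (h : ∀ m ∈ P.support, Finsupp.weight w m ∈ s) :
    ∑ n ∈ s, weightedHomogeneousComponent w n P = P := by
  classical
  ext m
  simp only [coeff_sum, coeff_weightedHomogeneousComponent, sum_ite_eq]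
  split_ifs with k
  · rfl
  · exact (notMem_support_iff.1 fun e => k (h m e)).symm

theorem comp_zero {w : V → Λ →₀ ℕ} {P : MvPolynomial V ℝ} (h : ∀ v ∈ P.vars, w v ≠ 0) :
    weightedHomogeneousComponent w 0 P = MvPolynomial.C (coeff 0 P) := by
  classical
  ext m
  rw [coeff_weightedHomogeneousComponent, coeff_C]
  by_cases e : m = 0
  · subst e; simp
  · rw [if_neg (Ne.symm e)]
    split_ifs with k
    · by_contra a
      obtain ⟨v, hv⟩ := Finsupp.support_nonempty_iff.2 e
      have b : v ∈ (weightedHomogeneousComponent w 0 P).vars :=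
        (mem_vars_iff_mem_support v).2 ⟨m, by
          rw [mem_support_iff, coeff_weightedHomogeneousComponent, if_pos k]; exact a, hv⟩
      exact h v (vars_comp b) (le_zero_iff.1
        (wt_le (weightedHomogeneousComponent_isWeightedHomogeneous _ _) b))
    · rfl

end Crest.Agent.N49.Sd

end
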